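import Vale.Agent.P167.H531.Q.Br6

/-!
# P167, general `q`, continuity: the bridge between the lattice and the slit domain (6)

Corners of unread squares, sides of the path, the tip.
-/

set_option autoImplicit false
set_option linter.unusedVariables false
set_option linter.unusedSectionVars false

open Set Metric Relation Filter Topology

namespace Vale.Agent.P167.H531.K

open Vale.Agent.P145.FB (PStep)
open Vale.Agent.P167.E6 Vale.Agent.P167.E2 Vale.Agent.P167.Fjord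
open Vale.Agent.P167.H166
open Vale.Agent.P167.H531.Q (Tch Gm M3 Sm BC bq_mono')
open Vale.Agent.P167.H713.Q (oR Dn Sd tip)
open Vale.Agent.P167.H72.SD (dk)
open Vale.Agent.P167.H634 (RO LO SqD Sq1)
open Vale.Agent.P167.H161 (zp)

variable {n : ℕ} {p : ZMod n → ℤ × ℤ} {S : Finset (ℤ × ℤ)} {k : ℕ} {A : Finset (Sym2 (ℤ × ℤ))}
  {z z1 : ℤ × ℤ} {R r h : ℤ} {ω : Cfg} {M M0 : ℕ} {δ : ℝ} {u w : ℂ}

theorem ndm_good (c : Bool) {d : Medial} (hd : d.1 ∈ verts S) : Good S (ndm S c d) := by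
  unfold ndm
  split_ifs with h1 h2
  · exact hd
  · exact h2
  · exact ⟨hd, h2⟩

theorem cor_ndm (c : Bool) (d : Medial) :
    (nod S).cor (ndm S c d) = if c then H192.ro d.1 else H192.rf (fc d) := by
  cases c
  · rw [if_neg Bool.false_ne_true]
    unfold ndm
    rw [if_neg Bool.false_ne_true]
    split_ifs <;> rfl
  · rfl

/-- The nodes of a dart are in the closed square ahead. -/
theorem ps_Sq1 (c : Bool) (d : Medial) : ps (ndm S c d) ∈ Sq1 (H192.sq (ahead d)) := by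
  obtain ⟨v, r⟩ := d
  unfold ahead
  rw [H634.sq_edge]
  have key : ∀ r : Fin 4, pt v ∈ Sq1 (face (H192.ro v) (r + 1)) ∧
      ctr (fc (v, r)) ∈ Sq1 (face (H192.ro v) (r + 1)) ∧
      cpt (5 / 16) (v, r) ∈ Sq1 (face (H192.ro v) (r + 1)) := by
    refine forall4 ?_ ?_ ?_ ?_ <;>
      simp only [Fjord.cpt_0, Fjord.cpt_1, Fjord.cpt_2, Fjord.cpt_3, f4_01, f4_11,
        f4_21, f4_31, face0, face1, face2, face3, H192.ro, Sq1, mem_ofPred_eq, pt_re, pt_im, ctr,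
        fc_0, fc_1, fc_2, fc_3] <;> push_cast <;>
      refine ⟨⟨⟨?_, ?_⟩, ?_, ?_⟩, ⟨⟨?_, ?_⟩, ?_, ?_⟩, ⟨?_, ?_⟩, ?_, ?_⟩ <;> linarith
  obtain ⟨h1, h2, h3⟩ := key r
  unfold ndm
  split_ifs
  · exact h1
  · exact h2
  · exact h3

section

variable (hp : IsPolygon p) (hS : Encloses p S) (hk : k + 1 < n) (hA : A ⊆ edges S)
include hp hS hk hA

/-- **The corners of an unread square are nodes.** -/
theorem cor_node (hδ : 0 < δ) (hM0 : M0 ≤ len p k A) {x q : ℤ × ℤ} (hx : x ∈ dk p k S A (M0 + 1))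
    (hq : FKA.Cor x q) (hne : x ≠ hdv (H192.me (cs p))) : ∃ (c : Bool) (d : Medial),
      ahead d = H192.ed x ∧ d.1 ∈ verts S ∧ Good S (ndm S c d) ∧ (nod S).cor (ndm S c d) = q ∧
      (δ : ℂ) * ps (ndm S c d) ∈ SqD δ x ∧ (δ : ℂ) * ps (ndm S c d) ∈ Dn p k S A (M0 + 1) δ := by
  obtain ⟨c, d, h1, h2⟩ := cor_dart hq
  have h3 : ahead d = H192.ed x := by rw [← h1, H192.ed_sq (H192.isEdge_ahead d)]
  have h4 : ahead d ∈ edges S := by rw [h3]; exact H713.Q.edges_of_dk hx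
  have h5 : d.1 ∈ verts S := (verts_of_edge (r := d.2 + 1) h4).1
  have h6 : d ≠ cs p := by
    rintro rfl
    exact hne (by rw [H192.hdv_me, h1])
  refine ⟨c, d, h3, h5, ndm_good c h5, by rw [cor_ndm]; exact h2, ?_,
    (dn_iff hδ).2 (ndm_free hp hS hk hA hδ hM0 c h5 h6)⟩
  show (δ : ℂ) * ps (ndm S c d) / δ ∈ Sq1 x
  rw [mul_div_cancel_left₀ _ (by exact_mod_cast hδ.ne'), ← h1]
  exact ps_Sq1 c d

omit hp hS hk hA in
/-- The right side of a dart is in the cell of the face. -/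
theorem c516_F1 (d : Medial) : cpt (5 / 16) d ∈ H634.F1 (1 / 4) (fc d) ∧
    cpt (5 / 16) d ∈ H634.B1 (3 / 8) d.1 := by
  obtain ⟨v, r⟩ := d
  revert r
  refine forall4 ?_ ?_ ?_ ?_ <;>
    simp only [H634.F1, H634.B1, mem_ofPred_eq, Fjord.cpt_0, Fjord.cpt_1, Fjord.cpt_2,
      Fjord.cpt_3, fc_0, fc_1, fc_2, fc_3] <;> push_cast <;>
    refine ⟨⟨abs_le.2 ⟨?_, ?_⟩, abs_le.2 ⟨?_, ?_⟩⟩, abs_le.2 ⟨?_, ?_⟩, abs_le.2 ⟨?_, ?_⟩⟩ <;>
    linarith

omit hp hS hk hA in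
/-- The outer darts at free vertices are in the free zone. -/
theorem out_RO (hδ : 0 < δ) {d : Medial} {i : ℕ} (hi : i < k) (hd : d.1 = p i) (hf : fc d ∉ S)
    (τ : ℕ) : (δ : ℂ) * cpt (5 / 16) d ∈ RO p k S A δ τ := by
  obtain ⟨h1, h2⟩ := c516_F1 d
  refine Or.inr (Or.inr ⟨H634.far_of_F1 hδ hf h1, Or.inl ⟨i, hi, ?_⟩⟩)
  rw [← hd]
  exact (H634.mem_Bx hδ).2 h2

omit hp hS hk hA in
theorem pt_VB (hδ : 0 < δ) (v : ℤ × ℤ) : (δ : ℂ) * pt v ∈ H634.VB δ (1 / 4) v := by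
  refine (H634.mem_Bx hδ).2 ?_
  rw [pt_re, pt_im, sub_self, sub_self, abs_zero]
  norm_num

/-- **The sides of the path.** -/
theorem sid_Sd (hδ : 0 < δ) (h0 : 0 < k) {m : ℕ} (hm : m ≤ M0) (hm' : m < len p k A)
    (hne : run p k A m ≠ cs p) (c : Bool) :
    (δ : ℂ) * sid (!c) (run p k A m) ∈ Sd p k S A (M0 + 1) δ c := by
  have hk' : k < n := by omega
  cases c
  · show (δ : ℂ) * pt (run p k A m).1 ∈ LO p k A δ (M0 + 1 - 1)
    exact Or.inl ⟨m, by omega, pt_VB hδ _⟩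
  · show (δ : ℂ) * cpt (5 / 16) (run p k A m) ∈ RO p k S A δ (M0 + 1 - 1)
    by_cases hf : fc (run p k A m) ∈ S
    · exact Or.inl ⟨m, by omega, hf, (H634.mem_Bx hδ).2 (c516_F1 _).1⟩
    · have h1 : ∃ i : ℕ, i < k ∧ (run p k A m).1 = p i := by
        rcases H161.run_state hp hS h0 hk' hA hm' with h | h | ⟨i, h2, h3, -⟩
        · exact absurd h hne
        · exact absurd h hf
        · exact ⟨i, h2, h3⟩
      obtain ⟨i, hi, h2⟩ := h1
      exact out_RO hδ hi h2 hf _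

omit hp hS hk hA in
/-- The boundary nodes. -/
theorem bd_Sd (hδ : 0 < δ) {d : Medial} {i : ℕ} (hi : i < n) (hd : d.1 = p i) (hf : fc d ∉ S)
    {c : Bool} (hc : k ≤ i ↔ c = true) (j : ℕ) :
    (δ : ℂ) * ps (ndm S c d) ∈ Sd p k S A j δ (!c) := by
  cases c
  · rw [ndm_false' hf]
    show (δ : ℂ) * cpt (5 / 16) d ∈ RO p k S A δ (j - 1)
    refine out_RO hδ (i := i) ?_ hd hf _
    by_contra h
    exact Bool.false_ne_true (hc.1 (not_lt.1 h))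
  · rw [ndm_true]
    show (δ : ℂ) * pt d.1 ∈ LO p k A δ (j - 1)
    refine Or.inr (Or.inl ⟨i, hc.2 rfl, hi, ?_⟩)
    rw [← hd]
    exact pt_VB hδ _

/-! ### The tip -/

omit hp hS hk hA in
theorem tip_eq (hM0 : M0 ≤ len p k A) : tip p k A (M0 + 1) δ = (δ : ℂ) * cpt (1 / 4) (run p k A M0) := by
  show (δ : ℂ) * lin (xv p k A) ((M0 + 1 : ℕ) : ℝ) = _
  rw [lin_nat]
  unfold xv
  rw [if_neg (by omega), if_pos (by omega), Nat.add_sub_cancel]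

omit hk in
/-- The points of the ray of a dart, except the corner, are free. -/
theorem ray_free (hδ : 0 < δ) (hM : M ≤ len p k A) {d : Medial} (hv : d.1 ∈ verts S)
    (hd : d ≠ cs p) {θ : ℝ} (h0 : 0 ≤ θ) (h1 : θ ≤ 5 / 16) (h2 : θ ≠ 1 / 4) :
    cpt θ d ∈ sD1 p k S A δ M := by
  obtain ⟨r, hr⟩ := mem_verts.1 hv
  refine ⟨EF_sub hr (cpt_EF h0 (by linarith) d r), fun hz => ?_⟩
  have key : ∃ m l : ℤ, ((m : ℝ) < 2 * (cpt θ d).re - 1 / 2 ∧ 2 * (cpt θ d).re - 1 / 2 < m + 1) ∧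
      ((l : ℝ) < 2 * (cpt θ d).im - 1 / 2 ∧ 2 * (cpt θ d).im - 1 / 2 < l + 1) ∧
      |2 * (cpt θ d).re - 1 / 2 - (hl d).1| ≤ 1 / 2 ∧
      |2 * (cpt θ d).im - 1 / 2 - (hl d).2| ≤ 1 / 2 := by
    obtain ⟨v, r'⟩ := d
    clear hz hr hv hd
    rcases lt_or_gt_of_ne h2 with h3 | h3
    · revert r'
      refine forall4 ?_ ?_ ?_ ?_ <;>
        simp only [cpt_0, cpt_1, cpt_2, cpt_3, hl_0, hl_1, hl_2, hl_3] <;> push_cast
      · refine ⟨2 * v.1 - 1, 2 * v.2 - 1, ⟨?_, ?_⟩, ⟨?_, ?_⟩, abs_le.2 ⟨?_, ?_⟩,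
          abs_le.2 ⟨?_, ?_⟩⟩ <;> push_cast <;> linarith
      · refine ⟨2 * v.1 - 1, 2 * v.2 - 1, ⟨?_, ?_⟩, ⟨?_, ?_⟩, abs_le.2 ⟨?_, ?_⟩,
          abs_le.2 ⟨?_, ?_⟩⟩ <;> push_cast <;> linarith
      · refine ⟨2 * v.1 - 1, 2 * v.2 - 1, ⟨?_, ?_⟩, ⟨?_, ?_⟩, abs_le.2 ⟨?_, ?_⟩,
          abs_le.2 ⟨?_, ?_⟩⟩ <;> push_cast <;> linarith
      · refine ⟨2 * v.1 - 1, 2 * v.2 - 1, ⟨?_, ?_⟩, ⟨?_, ?_⟩, abs_le.2 ⟨?_, ?_⟩,
          abs_le.2 ⟨?_, ?_⟩⟩ <;> push_cast <;> linarith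
    · revert r'
      refine forall4 ?_ ?_ ?_ ?_ <;>
        simp only [cpt_0, cpt_1, cpt_2, cpt_3, hl_0, hl_1, hl_2, hl_3] <;> push_cast
      · refine ⟨2 * v.1, 2 * v.2, ⟨?_, ?_⟩, ⟨?_, ?_⟩, abs_le.2 ⟨?_, ?_⟩,
          abs_le.2 ⟨?_, ?_⟩⟩ <;> push_cast <;> linarith
      · refine ⟨2 * v.1 - 2, 2 * v.2, ⟨?_, ?_⟩, ⟨?_, ?_⟩, abs_le.2 ⟨?_, ?_⟩,
          abs_le.2 ⟨?_, ?_⟩⟩ <;> push_cast <;> linarith
      · refine ⟨2 * v.1 - 2, 2 * v.2 - 2, ⟨?_, ?_⟩, ⟨?_, ?_⟩, abs_le.2 ⟨?_, ?_⟩,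
          abs_le.2 ⟨?_, ?_⟩⟩ <;> push_cast <;> linarith
      · refine ⟨2 * v.1, 2 * v.2 - 2, ⟨?_, ?_⟩, ⟨?_, ?_⟩, abs_le.2 ⟨?_, ?_⟩,
          abs_le.2 ⟨?_, ?_⟩⟩ <;> push_cast <;> linarith
  obtain ⟨m, l, a1, a2, a3, a4⟩ := key
  rcases (obs (S := S) hp hS hA hδ hM).cov _ hz with ⟨x, y, h1, h2⟩ | ⟨d', h1, h2⟩ | ⟨d', h1, h2⟩
  · obtain ⟨e, he⟩ := (obs (S := S) hp hS hA hδ hM).step x y h1
    exact frac_on he a1.1 a1.2 a2.1 a2.2 h2
  · apply hd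
    rw [← h1]
    obtain ⟨b1, b2⟩ := bt_near h2
    rw [abs_le] at a3 a4 b1 b2
    apply hl_inj
    refine Prod.ext ?_ ?_
    · exact int_of_bd (by linarith) (by linarith)
    · exact int_of_bd (by linarith) (by linarith)
  · rw [h2, c14_re] at a1
    have b1 : m < (hl d').1 := by
      have : (m : ℝ) < (hl d').1 := by linarith [a1.1]
      exact_mod_cast this
    have b2 : (hl d').1 < m + 1 := by
      have : ((hl d').1 : ℝ) < m + 1 := by linarith [a1.2]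
      exact_mod_cast this
    omega

/-- **The tip is in the closure of the component of its sides.** -/
theorem tip_cl (hδ : 0 < δ) (hM0 : M0 ≤ len p k A) (hne : run p k A M0 ≠ cs p) {s : ℝ} (c : Bool)
    (h : (δ : ℂ) * sid c (run p k A M0) ∈ H713.Q.Cn p k S A (M0 + 1) δ z s u)
    (hV : nbh (run p k A M0) ⊆ R1 z s) :
    tip p k A (M0 + 1) δ ∈ closure (H713.Q.Cn p k S A (M0 + 1) δ z s u) := by
  have hv := run_mem hp hS hA (k := k) M0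
  rw [tip_eq hM0]
  set d := run p k A M0 with hd
  obtain ⟨θ0, t0, t1, t2, hθ⟩ : ∃ θ0 : ℝ, 0 ≤ θ0 ∧ θ0 ≤ 5 / 16 ∧ θ0 ≠ 1 / 4 ∧ sid c d = cpt θ0 d := by
    cases c
    · exact ⟨5 / 16, by norm_num, le_rfl, by norm_num, rfl⟩
    · refine ⟨0, le_rfl, by norm_num, by norm_num, ?_⟩
      show pt d.1 = _
      apply Complex.ext <;> simp [cpt_re, cpt_im, pt_re, pt_im]
  have hray : ∀ θ : ℝ, 0 ≤ θ → θ ≤ 5 / 16 → θ ≠ 1 / 4 → (θ < 1 / 4 ↔ θ0 < 1 / 4) →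
      (δ : ℂ) * cpt θ d ∈ H713.Q.Cn p k S A (M0 + 1) δ z s u := by
    intro θ h1 h2 h3 h4
    have hseg : segment ℝ (cpt θ0 d) (cpt θ d) ⊆ sD1 p k S A δ M0 ∩ R1 z s := by
      intro x hx
      obtain ⟨σ, s0, s1, e1, e2⟩ := seg_coord hx
      have e3 : x = cpt (θ0 + σ * (θ - θ0)) d := by
        apply Complex.ext
        · rw [e1, cpt_re, cpt_re, cpt_re]; ring
        · rw [e2, cpt_im, cpt_im, cpt_im]; ring
      have b1 : 0 ≤ θ0 + σ * (θ - θ0) := by nlinarith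
      have b2 : θ0 + σ * (θ - θ0) ≤ 5 / 16 := by nlinarith
      rw [e3]
      refine ⟨ray_free hp hS hA hδ hM0 hv hne b1 b2 ?_, hV (cpt_nbh b1 (by linarith) d)⟩
      intro hcon
      rcases s0.lt_or_eq with s0' | s0'
      · rcases lt_or_gt_of_ne t2 with h5 | h5
        · have h6 := h4.2 h5
          have g1 := mul_pos s0' (sub_pos.2 h6)
          have g2 := mul_nonneg (sub_nonneg.2 s1) (sub_pos.2 h5).le
          nlinarith
        · have h6 : 1 / 4 < θ := by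
            rcases lt_or_gt_of_ne h3 with h7 | h7
            · exact absurd (h4.1 h7) (by linarith)
            · exact h7
          have g1 := mul_pos s0' (sub_pos.2 h6)
          have g2 := mul_nonneg (sub_nonneg.2 s1) (sub_pos.2 h5).le
          nlinarith
      · rw [← s0', zero_mul, add_zero] at hcon
        exact t2 hcon
    have h5 := cn_up hδ (JoinedIn.of_segment_subset hseg)
    rw [← hθ] at h5
    have h6 := cn_joined hδ h
    exact cc_of_joined (h6.trans (cn_joined hδ h5))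
  have ht : Tendsto (fun t : ℝ => (δ : ℂ) * cpt (1 / 4 + t * (θ0 - 1 / 4)) d) (𝓝[>] 0)
      (𝓝 ((δ : ℂ) * cpt (1 / 4) d)) := by
    have h1 : Continuous fun t : ℝ => (δ : ℂ) * cpt (1 / 4 + t * (θ0 - 1 / 4)) d := by
      unfold cpt
      fun_prop
    have h2 := (h1.tendsto 0).mono_left (nhdsWithin_le_nhds (s := Ioi (0 : ℝ)))
    simpa using h2
  refine mem_closure_of_tendsto ht ?_
  have h3 : ∀ᶠ t : ℝ in 𝓝[>] 0, t < 1 :=
    (eventually_lt_nhds zero_lt_one).filter_mono nhdsWithin_le_nhds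
  filter_upwards [h3, self_mem_nhdsWithin] with t ht1 ht0
  have ht0' : 0 < t := ht0
  refine hray _ ?_ ?_ ?_ ?_
  · nlinarith
  · nlinarith
  · intro hcon
    have : t * (θ0 - 1 / 4) = 0 := by linarith
    rcases mul_eq_zero.1 this with h4 | h4
    · exact ht0'.ne' h4
    · exact t2 (by linarith)
  · constructor
    · intro h4
      by_contra h5
      push Not at h5
      nlinarith
    · intro h4
      nlinarith

end

end Vale.Agent.P167.H531.K
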