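import Vale.Agent.P167.H531.Q.Nd
import Vale.Agent.P167.Fjord.Left
import Vale.Agent.P167.H192.Dict2

/-!
# P167, general `q`, continuity: the bridge between the lattice and the slit domain (1)

Free segments outside of the obstacles.
-/

set_option autoImplicit false
set_option linter.unusedVariables false
set_option linter.unusedSectionVars false
set_option linter.unusedSimpArgs false

open Set Metric

namespace Vale.Agent.P167.H531.K

open Vale.Agent.P167.E6 Vale.Agent.P167.E2 Vale.Agent.P167.Fjord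

variable {n : ℕ} {p : ZMod n → ℤ × ℤ} {S : Finset (ℤ × ℤ)} {k : ℕ} {A : Finset (Sym2 (ℤ × ℤ))}

variable {Z : Set ℂ} {E : Medial → Medial → Prop} {B P : Medial → Prop}

/-- A point with two fractional grid coordinates is on no segment of the corner lattice. -/
theorem frac_on {e : Sym2 (ℤ × ℤ)} {x y : Medial} (h : VStep e x y ∨ FStep e x y) {z : ℂ}
    {m l : ℤ} (h1 : (m : ℝ) < 2 * z.re - 1 / 2) (h2 : 2 * z.re - 1 / 2 < m + 1)
    (h3 : (l : ℝ) < 2 * z.im - 1 / 2) (h4 : 2 * z.im - 1 / 2 < l + 1) : z ∉ Lseg x y := by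
  intro hz
  obtain ⟨l', e3, -⟩ := on_h h hz h1 h2
  rw [e3] at h3 h4
  have a1 : l < l' := by exact_mod_cast h3
  have a2 : l' < l + 1 := by exact_mod_cast h4
  omega

/-- A segment off the obstacles. -/
theorem seg (h : Obs Z E B P) {a b : ℂ} (hO : segment ℝ a b ⊆ O1 (S : Set (ℤ × ℤ)))
    (hE : ∀ x y, E x y → ∀ z ∈ segment ℝ a b, z ∉ Lseg x y)
    (hB : ∀ d, B d → ∀ z ∈ segment ℝ a b, z ∉ Bt d)
    (hP : ∀ d, P d → ∀ z ∈ segment ℝ a b, z ≠ cpt (1 / 4) d) :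
    segment ℝ a b ⊆ O1 (S : Set (ℤ × ℤ)) \ Z := by
  intro z hz
  refine ⟨hO hz, fun hZ => ?_⟩
  rcases h.cov z hZ with ⟨x, y, h1, h2⟩ | ⟨d, h1, h2⟩ | ⟨d, h1, h2⟩
  · exact hE x y h1 z hz h2
  · exact hB d h1 z hz h2
  · exact hP d h1 z hz h2

/-- piece A -/
theorem sA (h : Obs Z E B P) {c : Medial} (hf : fc c ∈ S) (h1 : ¬ E c (adv c))
    (h2 : ¬ E (adv c) c) : segment ℝ (em c) (ctr (fc c)) ⊆ O1 (S : Set (ℤ × ℤ)) \ Z := by
  refine seg h (seg_O1 hf (em_EF c).1 (ctr_EF _)) ?_ (fun d _ z hz => pA_bt hz) ?_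
  · intro x y hxy z hz hz'
    obtain ⟨e, he⟩ := h.step x y hxy
    rcases pA_on he hz hz' with ⟨rfl, rfl⟩ | ⟨rfl, rfl⟩
    exacts [h1 hxy, h2 hxy]
  · rintro d - z hz rfl
    exact pA_bt hz (bt_self d)

/-- piece B -/
theorem sB (h : Obs Z E B P) {c : Medial} (he : ahead c ∈ edges S) (h1 : ¬ E c (rot c))
    (h2 : ¬ E (rot c) c) : segment ℝ (pt c.1) (em c) ⊆ O1 (S : Set (ℤ × ℤ)) \ Z := by
  obtain ⟨f, hf, hf'⟩ := face_of_edge he
  refine seg h (seg_O1 hf ?_ ?_) ?_ (fun d _ z hz => pB_bt hz) ?_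
  · rcases hf' with rfl | rfl <;> exact pt_EF _ _
  · rcases hf' with rfl | rfl
    exacts [(em_EF c).1, (em_EF c).2]
  · intro x y hxy z hz hz'
    obtain ⟨e, he⟩ := h.step x y hxy
    rcases pB_on he hz hz' with ⟨rfl, rfl⟩ | ⟨rfl, rfl⟩
    exacts [h1 hxy, h2 hxy]
  · rintro d - z hz rfl
    exact pB_bt hz (bt_self d)

/-- piece D -/
theorem sD (h : Obs Z E B P) {c : Medial} (he : ahead c ∈ edges S) (h1 : ¬ B c)
    (h2 : ¬ B (adv c)) :
    segment ℝ (cpt (5 / 16) c) (cpt (5 / 16) (adv c)) ⊆ O1 (S : Set (ℤ × ℤ)) \ Z := by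
  obtain ⟨f, hf, hf'⟩ := face_of_edge he
  refine seg h (seg_O1 hf ?_ ?_) ?_ ?_ ?_
  · rcases hf' with rfl | rfl <;> exact cpt_EF (by norm_num) (by norm_num) _ _
  · rcases hf' with rfl | rfl
    exacts [(cpt_adv_EF (by norm_num) (by norm_num) c).1,
      (cpt_adv_EF (by norm_num) (by norm_num) c).2]
  · intro x y hxy z hz hz'
    obtain ⟨e, he⟩ := h.step x y hxy
    exact pD_on he hz hz'
  · intro d hd z hz hz'
    rcases pD_bt hz hz' with rfl | rfl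
    exacts [h1 hd, h2 hd]
  · intro d hd z hz
    exact c14_ne (Or.inl hz)

/-- piece E -/
theorem sE (h : Obs Z E B P) {c : Medial} (hv : c.1 ∈ verts S)
    (h1 : ∀ x y, E x y → ¬ FStep (ahead c) x y) (h2 : ¬ B c) (h3 : ¬ B (rot c)) :
    segment ℝ (cpt (5 / 16) c) (cpt (5 / 16) (rot c)) ⊆ O1 (S : Set (ℤ × ℤ)) \ Z := by
  obtain ⟨r, hr⟩ := mem_verts.1 hv
  refine seg h (seg_O1 hr (cpt_EF (by norm_num) (by norm_num) _ _)
    (cpt_EF (by norm_num) (by norm_num) (rot c) _)) ?_ ?_ ?_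
  · intro x y hxy z hz hz'
    obtain ⟨e, he⟩ := h.step x y hxy
    exact h1 x y hxy (pE_on he hz hz')
  · intro d hd z hz hz'
    rcases pE_bt hz hz' with rfl | rfl
    exacts [h2 hd, h3 hd]
  · intro d hd z hz
    exact c14_ne (Or.inr hz)

/-- piece F -/
theorem sF (h : Obs Z E B P) {c : Medial} (hv : c.1 ∈ verts S)
    (h1 : ∀ x y, E x y → x ≠ c ∧ y ≠ c) (h2 : ¬ B c) (h3 : ¬ P c) :
    segment ℝ (pt c.1) (cpt (5 / 16) c) ⊆ O1 (S : Set (ℤ × ℤ)) \ Z := by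
  obtain ⟨r, hr⟩ := mem_verts.1 hv
  have e1 := cpt_EF (θ := 5 / 16) (by norm_num) (by norm_num) c r
  refine seg h (seg_O1 hr (pt_EF _ _) e1) ?_ ?_ ?_
  · intro x y hxy z hz hz'
    obtain ⟨e, he⟩ := h.step x y hxy
    rcases pF_on he hz hz' with h4 | h4
    exacts [(h1 x y hxy).1 h4, (h1 x y hxy).2 h4]
  · intro d hd z hz hz'
    rw [pF_bt hz hz'] at hd
    exact h2 hd
  · rintro d hd z hz rfl
    rw [pF_bt hz (bt_self d)] at hd
    exact h3 hd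

theorem pH_coord {c : Medial} {z : ℂ} (hz : z ∈ segment ℝ (cpt (5 / 16) c) (ctr (fc c))) :
    ∃ m l : ℤ, ((m : ℝ) + 1 / 8 ≤ 2 * z.re - 1 / 2 ∧ 2 * z.re - 1 / 2 ≤ m + 7 / 8) ∧
      ((l : ℝ) + 1 / 8 ≤ 2 * z.im - 1 / 2 ∧ 2 * z.im - 1 / 2 ≤ l + 7 / 8) ∧
      ∀ d : Medial, z ∈ Bt d → d = c := by
  obtain ⟨s, h0, h1, e1, e2⟩ := seg_coord hz
  obtain ⟨v, r⟩ := c
  clear hz
  have key : ∃ m l : ℤ, ((m : ℝ) + 1 / 8 ≤ 2 * z.re - 1 / 2 ∧ 2 * z.re - 1 / 2 ≤ m + 7 / 8) ∧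
      ((l : ℝ) + 1 / 8 ≤ 2 * z.im - 1 / 2 ∧ 2 * z.im - 1 / 2 ≤ l + 7 / 8) ∧
      |2 * z.re - 1 / 2 - (hl (v, r)).1| ≤ 1 / 2 ∧ |2 * z.im - 1 / 2 - (hl (v, r)).2| ≤ 1 / 2 := by
    revert r
    refine forall4 ?_ ?_ ?_ ?_ <;> intro e1 e2 <;>
      simp only [ctr, cpt_0, cpt_1, cpt_2, cpt_3, fc_0, fc_1, fc_2, fc_3, hl_0, hl_1, hl_2,
        hl_3] at e1 e2 ⊢ <;> push_cast at e1 e2 ⊢
    · refine ⟨2 * v.1, 2 * v.2, ⟨?_, ?_⟩, ⟨?_, ?_⟩, abs_le.2 ⟨?_, ?_⟩, abs_le.2 ⟨?_, ?_⟩⟩ <;>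
        push_cast <;> linarith
    · refine ⟨2 * v.1 - 2, 2 * v.2, ⟨?_, ?_⟩, ⟨?_, ?_⟩, abs_le.2 ⟨?_, ?_⟩, abs_le.2 ⟨?_, ?_⟩⟩ <;>
        push_cast <;> linarith
    · refine ⟨2 * v.1 - 2, 2 * v.2 - 2, ⟨?_, ?_⟩, ⟨?_, ?_⟩, abs_le.2 ⟨?_, ?_⟩,
        abs_le.2 ⟨?_, ?_⟩⟩ <;> push_cast <;> linarith
    · refine ⟨2 * v.1, 2 * v.2 - 2, ⟨?_, ?_⟩, ⟨?_, ?_⟩, abs_le.2 ⟨?_, ?_⟩,
        abs_le.2 ⟨?_, ?_⟩⟩ <;> push_cast <;> linarith
  obtain ⟨m, l, a1, a2, a3, a4⟩ := key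
  refine ⟨m, l, a1, a2, fun d hd => ?_⟩
  obtain ⟨b1, b2⟩ := bt_near hd
  rw [abs_le] at a3 a4 b1 b2
  apply hl_inj
  refine Prod.ext ?_ ?_
  · exact int_of_bd (by linarith) (by linarith)
  · exact int_of_bd (by linarith) (by linarith)

/-- piece H -/
theorem sH (h : Obs Z E B P) {c : Medial} (hf : fc c ∈ S) (h2 : ¬ B c) :
    segment ℝ (cpt (5 / 16) c) (ctr (fc c)) ⊆ O1 (S : Set (ℤ × ℤ)) \ Z := by
  have e1 := cpt_EF (θ := 5 / 16) (by norm_num) (by norm_num) c c.2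
  refine seg h (seg_O1 hf e1 (ctr_EF _)) ?_ ?_ ?_
  · intro x y hxy z hz
    obtain ⟨e, he⟩ := h.step x y hxy
    obtain ⟨m, l, a1, a2, -⟩ := pH_coord hz
    exact frac_on he (m := m) (l := l) (by linarith) (by linarith) (by linarith) (by linarith)
  · intro d hd z hz hz'
    obtain ⟨m, l, a1, a2, a3⟩ := pH_coord hz
    rw [a3 d hz'] at hd
    exact h2 hd
  · rintro d hd z hz rfl
    obtain ⟨m, l, a1, a2, a3⟩ := pH_coord hz
    rw [c14_re] at a1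
    have b1 : m < (hl d).1 := by
      have : (m : ℝ) < (hl d).1 := by linarith [a1.1]
      exact_mod_cast this
    have b2 : (hl d).1 < m + 1 := by
      have : ((hl d).1 : ℝ) < m + 1 := by linarith [a1.2]
      exact_mod_cast this
    omega

/-! ### Nodes -/

/-- The nodes: vertices, faces, exterior darts. -/
inductive Node
  | V (v : ℤ × ℤ)
  | F (f : ℤ × ℤ)
  | O (d : Medial)

/-- The position of a node. -/
noncomputable def ps : Node → ℂ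
  | .V v => pt v
  | .F f => ctr f
  | .O d => cpt (5 / 16) d

/-- The node of a side of a dart. -/
def ndm (S : Finset (ℤ × ℤ)) (c : Bool) (d : Medial) : Node :=
  if c then .V d.1 else if fc d ∈ S then .F (fc d) else .O d

/-- The nodes. -/
def nod (S : Finset (ℤ × ℤ)) : Nod Node where
  nd c e := ndm S c (H192.me' e)
  cor
    | .V v => H192.ro v
    | .F f => H192.rf f
    | .O d => H192.rf (fc d)
  hc c e := by
    have h1 := H192.ls_me (H192.me' e)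
    have h2 := H192.rs_me (H192.me' e)
    rw [H192.me_me'] at h1 h2
    cases c
    · show _ = rs e
      rw [h2]
      unfold ndm
      rw [if_neg Bool.false_ne_true]
      split_ifs <;> rfl
    · exact h1.symm

theorem nod_me (c : Bool) (d : Medial) : (nod S).nd c (H192.me d) = ndm S c d := by
  show ndm S c (H192.me' (H192.me d)) = _
  rw [H192.me'_me]

/-- All segments which are used at a dart. -/
def nbh (c : Medial) : Set ℂ := closedBall (pt c.1) 2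

theorem seg_nbh {c : Medial} {a b : ℂ} (ha : a ∈ nbh c) (hb : b ∈ nbh c) :
    segment ℝ a b ⊆ nbh c := (convex_closedBall _ _).segment_subset ha hb

theorem coord_nbh {c : Medial} {a : ℂ} (h1 : |a.re - c.1.1| ≤ 1) (h2 : |a.im - c.1.2| ≤ 1) :
    a ∈ nbh c := by
  unfold nbh
  rw [mem_closedBall, dist_eq_norm]
  refine (Complex.norm_le_abs_re_add_abs_im _).trans ?_
  rw [Complex.sub_re, Complex.sub_im, pt_re, pt_im]
  linarith

theorem pt_nbh (c : Medial) : pt c.1 ∈ nbh c := by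
  refine coord_nbh ?_ ?_
  · rw [pt_re, sub_self, abs_zero]; norm_num
  · rw [pt_im, sub_self, abs_zero]; norm_num

theorem cpt_nbh {θ : ℝ} (h0 : 0 ≤ θ) (h1 : θ ≤ 1) (c : Medial) : cpt θ c ∈ nbh c := by
  refine coord_nbh ?_ ?_
  · rw [cpt_re, add_sub_cancel_left, abs_mul, abs_sq_re, mul_one, abs_of_nonneg h0]; exact h1
  · rw [cpt_im, add_sub_cancel_left, abs_mul, abs_sq_im, mul_one, abs_of_nonneg h0]; exact h1

theorem ctr_nbh (c : Medial) : ctr (fc c) ∈ nbh c := by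
  obtain ⟨v, r⟩ := c
  revert r
  refine forall4 ?_ ?_ ?_ ?_ <;> refine coord_nbh ?_ ?_ <;>
    simp only [ctr, fc_0, fc_1, fc_2, fc_3] <;> push_cast <;> rw [abs_le] <;> constructor <;>
      linarith

theorem em_nbh (c : Medial) : Fjord.em c ∈ nbh c := by
  obtain ⟨v, r⟩ := c
  revert r
  refine forall4 ?_ ?_ ?_ ?_ <;> refine coord_nbh ?_ ?_ <;>
    simp only [Fjord.em, adv_0, adv_1, adv_2, adv_3] <;> push_cast <;> rw [abs_le] <;>
      constructor <;> linarith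

theorem adv_nbh (c : Medial) : pt (adv c).1 ∈ nbh c := by
  obtain ⟨v, r⟩ := c
  revert r
  refine forall4 ?_ ?_ ?_ ?_ <;> refine coord_nbh ?_ ?_ <;>
    simp only [adv_0, adv_1, adv_2, adv_3, pt_re, pt_im] <;> push_cast <;> rw [abs_le] <;>
      constructor <;> linarith

theorem cadv_nbh {θ : ℝ} (h0 : 0 ≤ θ) (h1 : θ ≤ 1) (c : Medial) : cpt θ (adv c) ∈ nbh c := by
  obtain ⟨v, r⟩ := c
  revert r
  refine forall4 ?_ ?_ ?_ ?_ <;> refine coord_nbh ?_ ?_ <;>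
    simp only [adv_0, adv_1, adv_2, adv_3, cpt_0, cpt_1, cpt_2, cpt_3] <;> push_cast <;>
      rw [abs_le] <;> constructor <;> linarith

theorem crot_nbh {θ : ℝ} (h0 : 0 ≤ θ) (h1 : θ ≤ 1) (c : Medial) : cpt θ (rot c) ∈ nbh c :=
  cpt_nbh h0 h1 (rot c)

/-- A node on the side of a dart is next to it. -/
theorem ps_nbh (c : Bool) (d : Medial) : ps (ndm S c d) ∈ nbh d := by
  unfold ndm
  split_ifs
  · exact pt_nbh d
  · exact ctr_nbh d
  · exact cpt_nbh (by norm_num) (by norm_num) d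

end Vale.Agent.P167.H531.K
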