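import Vale.Agent.P167.H531.Q.Br7
import Vale.Agent.P167.H174.BD.Wk
import Vale.Agent.P167.H174.CT.Bad3
import Vale.Agent.P167.H476.Q.Out2

/-!
# P167, general `q`, [BAD] (B1): a conflict pair with an arm, one history

`b1`: a frozen square of the colour `c` has an arm of the other colour: in the thick configuration there
are three strands near each other, or two strands near the boundary.
-/

set_option autoImplicit false
set_option linter.unusedVariables false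
set_option linter.unusedSectionVars false

open Set Metric Relation

namespace Vale.Agent.P167.H531.K

open Vale.Agent.P145.FB (PStep)
open Vale.Agent.P167.E6 Vale.Agent.P167.E2 Vale.Agent.P167.Fjord
open Vale.Agent.P167.H166
open Vale.Agent.P167.H531.Q (Tch Gm M3 Sm BC bq_mono')
open Vale.Agent.P167.H713.Q (oR Dn Sd tip Cfl)
open Vale.Agent.P167.H72.SD (dk)
open Vale.Agent.P167.H634 (RO LO SqD Sq1)
open Vale.Agent.P167.H718 (Dq)
open Vale.Agent.P167.H174.BD (BN WL oG walk_wall bad_nodes3)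
open Vale.Agent.P167.H174.CT (NearC T32 T3 m3_of near_mono near_box)

variable {n : ℕ} {p : ZMod n → ℤ × ℤ} {S : Finset (ℤ × ℤ)} {k : ℕ} {A : Finset (Sym2 (ℤ × ℤ))}
  {z zc : ℤ × ℤ} {ω : Cfg} {M0 : ℕ} {δ : ℝ} {u w : ℂ}

/-! ### Positions -/

/-- The position of a square which meets a region. -/
theorem sq_R1 {x : ℤ × ℤ} {N : ℕ} {y : ℂ} (hy : y ∈ Sq1 x) (hR : y ∈ R1 zc N) :
    x ∈ FK.Bq zc (N + 1) ∧ Sq1 x ⊆ R1 zc (N + 1) := by
  obtain ⟨⟨a1, a2⟩, a3, a4⟩ := hy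
  obtain ⟨b1, b2⟩ := hR
  rw [abs_lt] at b1 b2
  refine ⟨?_, ?_⟩
  · rw [mem_Bq]
    have c1 : zc.1 - N < x.1 + 1 := by
      have : ((zc.1 - N : ℤ) : ℝ) < ((x.1 + 1 : ℤ) : ℝ) := by push_cast; linarith
      exact_mod_cast this
    have c2 : x.1 < zc.1 + N := by
      have : (x.1 : ℝ) < ((zc.1 + N : ℤ) : ℝ) := by push_cast; linarith
      exact_mod_cast this
    have c3 : zc.2 - N < x.2 + 1 := by
      have : ((zc.2 - N : ℤ) : ℝ) < ((x.2 + 1 : ℤ) : ℝ) := by push_cast; linarith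
      exact_mod_cast this
    have c4 : x.2 < zc.2 + N := by
      have : (x.2 : ℝ) < ((zc.2 + N : ℤ) : ℝ) := by push_cast; linarith
      exact_mod_cast this
    omega
  · rintro w ⟨⟨e1, e2⟩, e3, e4⟩
    refine ⟨abs_lt.2 ⟨?_, ?_⟩, abs_lt.2 ⟨?_, ?_⟩⟩ <;> linarith

/-- The site of a node is near its position. -/
theorem cor_ps (S : Finset (ℤ × ℤ)) (a : Node) :
    |(((nod S).cor a).1 : ℝ) - ((ps a).re - (ps a).im)| ≤ 3 / 8 ∧
      |(((nod S).cor a).2 : ℝ) - ((ps a).re + (ps a).im)| ≤ 3 / 8 := by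
  cases a with
  | V v =>
    show |((H192.ro v).1 : ℝ) - ((pt v).re - (pt v).im)| ≤ 3 / 8 ∧
      |((H192.ro v).2 : ℝ) - ((pt v).re + (pt v).im)| ≤ 3 / 8
    simp only [H192.ro, pt_re, pt_im]
    push_cast
    rw [sub_self, sub_self, abs_zero]
    norm_num
  | F f =>
    show |((H192.rf f).1 : ℝ) - ((ctr f).re - (ctr f).im)| ≤ 3 / 8 ∧
      |((H192.rf f).2 : ℝ) - ((ctr f).re + (ctr f).im)| ≤ 3 / 8
    simp only [H192.rf, ctr]
    push_cast
    refine ⟨abs_le.2 ⟨?_, ?_⟩, abs_le.2 ⟨?_, ?_⟩⟩ <;> linarith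
  | O d =>
    show |((H192.rf (fc d)).1 : ℝ) - ((cpt (5 / 16) d).re - (cpt (5 / 16) d).im)| ≤ 3 / 8 ∧
      |((H192.rf (fc d)).2 : ℝ) - ((cpt (5 / 16) d).re + (cpt (5 / 16) d).im)| ≤ 3 / 8
    obtain ⟨v, r⟩ := d
    revert r
    refine forall4 ?_ ?_ ?_ ?_ <;>
      simp only [H192.rf, Fjord.cpt_0, Fjord.cpt_1, Fjord.cpt_2, Fjord.cpt_3, fc_0, fc_1, fc_2,
        fc_3] <;> push_cast <;>
      refine ⟨abs_le.2 ⟨?_, ?_⟩, abs_le.2 ⟨?_, ?_⟩⟩ <;> linarith

theorem cor_nm_R1 {a : Node} {N : ℕ} (h : ps a ∈ R1 zc (N + 4)) :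
    nm ((nod S).cor a - zc) ≤ N + 4 := by
  obtain ⟨h1, h2⟩ := cor_ps S a
  obtain ⟨h3, h4⟩ := h
  rw [abs_le] at h1 h2
  rw [abs_lt] at h3 h4
  rw [nm_le]
  simp only [Prod.fst_sub, Prod.snd_sub]
  have c1 : ((nod S).cor a).1 - zc.1 < N + 5 := by
    have : ((((nod S).cor a).1 - zc.1 : ℤ) : ℝ) < ((N + 5 : ℤ) : ℝ) := by push_cast; linarith
    exact_mod_cast this
  have c2 : -((N : ℤ) + 5) < ((nod S).cor a).1 - zc.1 := by
    have : ((-((N : ℤ) + 5) : ℤ) : ℝ) < ((((nod S).cor a).1 - zc.1 : ℤ) : ℝ) := by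
      push_cast; linarith
    exact_mod_cast this
  have c3 : ((nod S).cor a).2 - zc.2 < N + 5 := by
    have : ((((nod S).cor a).2 - zc.2 : ℤ) : ℝ) < ((N + 5 : ℤ) : ℝ) := by push_cast; linarith
    exact_mod_cast this
  have c4 : -((N : ℤ) + 5) < ((nod S).cor a).2 - zc.2 := by
    have : ((-((N : ℤ) + 5) : ℤ) : ℝ) < ((((nod S).cor a).2 - zc.2 : ℤ) : ℝ) := by
      push_cast; linarith
    exact_mod_cast this
  omega

/-- A vertex in a region. -/
theorem pt_R1_nm {v : ℤ × ℤ} {s : ℤ} : pt v ∈ R1 z s ↔ nm (H192.ro v - z) < s := by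
  rw [pt_R1]
  have e : nm (H192.ro v - z) < s ↔ |(H192.ro v).1 - z.1| < s ∧ |(H192.ro v).2 - z.2| < s := by
    unfold nm
    rw [max_lt_iff]
    rfl
  rw [e]
  have key : ∀ a b : ℤ, |((a : ℝ) - b)| < (s : ℝ) ↔ |a - b| < s := by
    intro a b
    constructor
    · intro h
      have : ((|a - b| : ℤ) : ℝ) < s := by push_cast; exact h
      exact_mod_cast this
    · intro h
      have : ((|a - b| : ℤ) : ℝ) < s := by exact_mod_cast h
      push_cast at this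
      exact this
  rw [key, key]

theorem ps_dist_O (d : Medial) : dist (ps (.O d)) (pt d.1) ≤ 3 := by
  obtain ⟨v, r⟩ := d
  have h : cpt (5 / 16) (v, r) ∈ nbh (v, r) := cpt_nbh (by norm_num) (by norm_num) _
  have h2 : dist (cpt (5 / 16) (v, r)) (pt v) ≤ 2 := h
  exact h2.trans (by norm_num)

section

variable (hp : IsPolygon p) (hS : Encloses p S) (hk : k + 1 < n) (hA : A ⊆ edges S)
include hp hS hk hA

/-- Unit steps off the path join in the slit domain. -/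
theorem us_join (hδ : 0 < δ) (hM0 : M0 ≤ len p k A) {T : Set Medial} {W : Set ℂ}
    (hW : ∀ d ∈ T, nbh d ⊆ W) {a b : Node} (h : ReflTransGen (Us S (oG p k A M0 T)) a b)
    (ha : ps a ∈ sD1 p k S A δ M0 ∩ W) : JoinedIn (sD1 p k S A δ M0 ∩ W) (ps a) (ps b) := by
  induction h with
  | refl => exact JoinedIn.refl ha
  | tail _ h2 ih =>
    obtain ⟨d, ⟨hd, hG⟩, hv, c, rfl, rfl⟩ := h2
    have h5 := unit_join (δ := δ) hp hS hk hA hδ hM0 hv (fun m hm => hG m hm) (hW d hd)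
    refine ih.trans ?_
    cases c
    · exact h5.symm
    · exact h5

omit hp hS hk hA in
theorem us_off {T : Set Medial} {a b : Node} (h : ReflTransGen (Us S (oG p k A M0 T)) a b) :
    ReflTransGen (Us S T) a b := by
  induction h with
  | refl => exact ReflTransGen.refl
  | tail _ h2 ih =>
    obtain ⟨d, hd, h3⟩ := h2
    exact ih.tail ⟨d, hd.1, h3⟩

/-- The regions, from the centre of the conflict pair. -/
theorem b1_nodes (hδ : 0 < δ) (h0 : 0 < k) (hM0 : M0 ≤ len p k A) {c : Bool} {ρ Rc : ℕ}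
    (hC : Cfl p k S A (M0 + 1) δ c zc ρ Rc u w) {x q : ℤ × ℤ} (hx : x ∈ dk p k S A (M0 + 1))
    (hxm : (SqD δ x ∩ H713.Q.Cn p k S A (M0 + 1) δ zc ρ u).Nonempty) (hq : FKA.Cor x q)
    {R : ℤ} (hz : nm (zc - z) + ρ + 32 ≤ R) (hst : ¬ Tch z R (H192.me (cs p))) :
    ∃ a b : Node, Good S a ∧ Good S b ∧ (nod S).cor a = q ∧
      JoinedIn (sD1 p k S A δ M0 ∩ R1 zc (ρ + 1)) (u / δ) (ps a) ∧
      JoinedIn (sD1 p k S A δ M0 ∩ R1 zc (ρ / 2 + 4)) (w / δ) (ps b) ∧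
      nm ((nod S).cor a - zc) ≤ ρ + 2 := by
  have hδ' : (δ : ℂ) ≠ 0 := by exact_mod_cast hδ.ne'
  obtain ⟨y, hy1, hy2⟩ := id hxm
  have hyR : y / δ ∈ R1 zc ρ := by
    rw [← mem_oR hδ, div_mul hδ]
    exact (H713.Q.Cn_sub hy2).2
  have hyS : y / δ ∈ Sq1 x := hy1
  obtain ⟨hxB, hxS⟩ := sq_R1 hyS hyR
  have hzc : ∀ v ∈ FK.Bq zc (ρ + 8), v ∈ FK.Bq z R := by
    intro v hv
    rw [mem_Bq] at hv ⊢
    have h1 := nm_le.1 (le_refl (nm (zc - z)))
    simp only [Prod.fst_sub, Prod.snd_sub] at h1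
    omega
  have hxz : x ∈ FK.Bq z R := hzc x (bq_mono' (by omega) hxB)
  have hxne : x ≠ hdv (H192.me (cs p)) := by
    rintro rfl
    exact hst (Or.inl hxz)
  obtain ⟨ca, da, e1, e2, e3, e4, e5, e6⟩ := cor_node hp hS hk hA hδ hM0 hx hq hxne
  have haS : ps (ndm S ca da) ∈ Sq1 x := by
    have : (δ : ℂ) * ps (ndm S ca da) / δ ∈ Sq1 x := e5
    rwa [mul_div_cancel_left₀ _ hδ'] at this
  have haR := hxS haS
  have hcast : (((ρ + 1 : ℕ) : ℕ) : ℝ) = (ρ : ℝ) + 1 := by push_cast; ring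
  have haC := sq_Cn (z := zc) (u := u) hA hδ (j := M0 + 1) (N := ρ + 1) (by simpa using hM0) hx
    ⟨y, hy1, H713.Q.Cn_mono hδ (by push_cast; linarith) hy2⟩ e5 e6
    ((mem_oR hδ).2 (by rw [hcast]; exact haR))
  have hua := cn_dn hδ haC
  rw [mul_div_cancel_left₀ _ hδ', hcast] at hua
  have hwR : w / δ ∈ R1 zc (ρ / 2) := by
    rw [← mem_oR hδ, div_mul hδ]
    exact hC.w_reg
  have hwD : w / δ ∈ sD1 p k S A δ M0 := by
    rw [← dn_iff hδ, div_mul hδ]
    exact hC.w_mem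
  have hfar : 4 ≤ dist (w / δ) (pt (cs p).1) := by
    by_contra hcon
    push Not at hcon
    rw [dist_comm] at hcon
    have h1 := R1_dist hwR hcon.le
    have h2 : pt (cs p).1 ∈ R1 z R := by
      refine R1_sub (s := (ρ : ℝ) / 2 + 2 * 4) ?_ h1
      have h3 : ((nm (zc - z) + ρ + 32 : ℤ) : ℝ) ≤ R := by exact_mod_cast hz
      push_cast at h3
      have h4 : (0 : ℝ) ≤ ρ := Nat.cast_nonneg _
      linarith
    exact hst (Or.inl (hdv_Bq h2).1)
  obtain ⟨b, hb, hwb⟩ := near_node hp hS hk hA hδ hM0 hwD hfar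
  refine ⟨ndm S ca da, b, e3, hb, e4, hua, hwb.mono ?_, ?_⟩
  · rintro v ⟨h1, h2⟩
    refine ⟨h1, ?_⟩
    have h3 := R1_dist hwR (mem_closedBall.1 h2)
    exact R1_mono (by linarith) h3
  · rw [e4]
    rw [mem_Bq] at hxB
    unfold FKA.Cor at hq
    rw [nm_le]
    simp only [Prod.fst_sub, Prod.snd_sub]
    omega

omit hp hS hk hA in
theorem t2_mono {D : Finset (ℤ × ℤ)} {c : Bool} {r R : ℤ} {h H : ℕ} (hH : h ≤ H)
    (hω : ω ∈ H476.Q.T2 D c z r R h) : ω ∈ H476.Q.T2 D c z r R H := by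
  obtain ⟨em, el, h1, h2, h3, U, h4, h5, i, hi, w, hw, hn, hs⟩ := hω
  exact ⟨em, el, h1, h2, h3, U, h4, h5, i, hi, w, hw, near_mono hn hH, hs⟩

/-- **(B1)**, positive times. -/
theorem b1_core (h0 : 0 < k) (hδ : 0 < δ) (hM0 : M0 ≤ len p k A) {c : Bool}
    {ρ Rc : ℕ} (hC : Cfl p k S A (M0 + 1) δ c zc ρ Rc u w) {x q : ℤ × ℤ}
    (hx : x ∈ dk p k S A (M0 + 1))
    (hxm : (SqD δ x ∩ H713.Q.Cn p k S A (M0 + 1) δ zc ρ u).Nonempty) (hq : FKA.Cor x q)
    (hqp : (q.1 + q.2) % 2 = QC.par (!c)) {s : ℕ} (hρs : ρ + 16 ≤ s)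
    (hloc : JoinedIn (Om δ S ∩ oR δ zc s) u w) {r R : ℤ} {h H : ℕ} {col : Bool}
    (hz : nm (zc - z) + s + 16 ≤ r) (hrR : r ≤ R) (hRc : nm (zc - z) + R + 16 ≤ Rc)
    (hh : 2 * (s + 16) ≤ h) (hH : 2 * h ≤ H) (hst : ¬ Tch z R (H192.me (cs p)))
    (hen : hdv (H192.me (ce p k)) ∉ FK.Bq z R) (hN : NearC p k z R col)
    (hω : ∀ m ≤ len p k A, hdv (H192.me (run p k A m)) ∈ FK.Bq z R →
      ω (hdv (H192.me (run p k A m))) = H192.cfg (wiredOpen p k A) (hdv (H192.me (run p k A m))))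
    (hout : ∀ v ∈ FK.Bq z R, v ∉ Dq S p k → ω v = col) {t : ℤ × ℤ}
    (hqt : ReflTransGen (PStep {v | v ∈ FK.Bq z R ∧ ω v = !c}) q t) (ht : BC z R t) :
    ω ∈ T32 (Dq S p k) col z r R H := by
  classical
  have hρs' : (ρ : ℤ) + 16 ≤ s := by exact_mod_cast hρs
  have hnmR : nm (zc - z) + ρ + 32 ≤ R := by omega
  have hnmr : ((nm (zc - z) : ℤ) : ℝ) + s + 16 ≤ R := by
    have : ((nm (zc - z) + s + 16 : ℤ) : ℝ) ≤ R := by
      exact_mod_cast hz.trans hrR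
    push_cast at this
    exact this
  have hρsr : (ρ : ℝ) + 16 ≤ s := by exact_mod_cast hρs
  have hnmc : ((nm (zc - z) : ℤ) : ℝ) + R + 16 ≤ Rc := by
    have : ((nm (zc - z) + R + 16 : ℤ) : ℝ) ≤ ((Rc : ℤ) : ℝ) := by exact_mod_cast hRc
    push_cast at this
    exact this
  have hnm0 : (0 : ℝ) ≤ nm (zc - z) := by
    have : 0 ≤ nm (zc - z) := by
      unfold nm
      exact (abs_nonneg _).trans (le_max_left _ _)
    exact_mod_cast this
  have hρ0 : (0 : ℝ) ≤ ρ := Nat.cast_nonneg _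
  have hzz : nm (z - zc) = nm (zc - z) := by
    unfold nm
    simp only [Prod.fst_sub, Prod.snd_sub]
    rw [abs_sub_comm, abs_sub_comm z.2]
  obtain ⟨a, b, ha, hb, hqa, hua, hwb, hma⟩ := b1_nodes hp hS hk hA hδ h0 hM0 hC hx hxm hq hnmR hst
  -- the regions
  set U' : Set ℂ := R1 zc (((ρ : ℤ) + 6 : ℤ) : ℝ) with hU'
  set U : Set ℂ := R1 zc (((s : ℤ) + 4 : ℤ) : ℝ) with hU
  set V : Set ℂ := R1 z ((R : ℝ) + 5) with hV
  set W : Set ℂ := R1 zc ((ρ : ℝ) + 16) with hW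
  set Q : Set (ℤ × ℤ) := {v | v ∈ FK.Bq zc (s + 11)} with hQ
  have hUU : U' ⊆ U := by
    refine R1_mono ?_
    push_cast
    linarith
  have hUV : U ⊆ V := by
    refine R1_sub ?_
    push_cast
    linarith
  have hWV : W ⊆ V := by
    refine R1_sub ?_
    linarith
  have hVc : V ⊆ R1 zc Rc := by
    refine R1_sub ?_
    rw [hzz]
    linarith
  have hVn : ∀ d, Tch z R (H192.me d) → nbh d ⊆ V := fun d hd => nbh_V hd
  have hQS : Sm z r h Q := by
    constructor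
    · intro v hv
      rw [hQ, mem_ofPred_eq, mem_Bq] at hv
      rw [mem_Bq]
      have h1 := nm_le.1 (le_refl (nm (zc - z)))
      simp only [Prod.fst_sub, Prod.snd_sub] at h1
      omega
    · intro v hv v' hv'
      rw [hQ, mem_ofPred_eq, mem_Bq] at hv hv'
      rw [nm_le]
      simp only [Prod.fst_sub, Prod.snd_sub]
      omega
  have hUQ : ∀ d ∈ Nr U, hdv (H192.me d) ∈ Q := by
    intro d hd
    have h1 := (nr_R1 (z := zc) (s := (s : ℤ) + 4) hd).1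
    exact bq_mono' (by omega) h1
  have hWn : ∀ d ∈ Nr U', nbh d ⊆ W := by
    intro d hd
    refine (nr_R1 (z := zc) (s := (ρ : ℤ) + 6) hd).2.trans (R1_mono ?_)
    push_cast
    linarith
  -- the ends
  have ua : ps a ∈ U' := R1_mono (by push_cast; linarith) hua.target_mem.2
  have ub : ps b ∈ U' := R1_mono (by push_cast; linarith) hwb.target_mem.2
  have haD : ps a ∈ sD1 p k S A δ M0 ∩ W := ⟨hua.target_mem.1, R1_mono (by linarith) hua.target_mem.2⟩
  have hbD : ps b ∈ sD1 p k S A δ M0 ∩ W := ⟨hwb.target_mem.1, R1_mono (by linarith) hwb.target_mem.2⟩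
  have hab : JoinedIn (O1 (S : Set (ℤ × ℤ)) ∩ U) (ps a) (ps b) := by
    refine ((hua.symm.mono ?_).trans ((ojoin_dn hδ hloc).mono ?_)).trans (hwb.mono ?_)
    · rintro v ⟨h1, h2⟩
      exact ⟨h1.1, R1_mono (by push_cast; linarith) h2⟩
    · rintro v ⟨h1, h2⟩
      exact ⟨h1, R1_mono (by push_cast; linarith) h2⟩
    · rintro v ⟨h1, h2⟩
      exact ⟨h1.1, R1_mono (by push_cast; linarith) h2⟩
  have hn : ¬ JoinedIn (sD1 p k S A δ M0 ∩ V) (ps a) (ps b) := by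
    intro hJ
    apply hC.nj
    have h1 : JoinedIn (sD1 p k S A δ M0 ∩ R1 zc Rc) (u / δ) (w / δ) := by
      refine ((hua.mono ?_).trans (hJ.mono ?_)).trans (hwb.symm.mono ?_)
      · exact inter_subset_inter_right _ (R1_mono (by linarith))
      · exact inter_subset_inter_right _ hVc
      · exact inter_subset_inter_right _ (R1_mono (by linarith))
    have h2 := cn_up hδ h1
    rwa [div_mul hδ, div_mul hδ] at h2
  -- the other side is not seen
  have key : ∀ (v : ℂ) (a : Node),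
      Disjoint (H713.Q.Cn p k S A (M0 + 1) δ zc (ρ + 16) v) (Sd p k S A (M0 + 1) δ c) →
      JoinedIn (sD1 p k S A δ M0 ∩ W) (v / δ) (ps a) →
      (¬ Sees p k S A δ M0 W (ps a) (!c)) ∧ ∀ b', BN p k S (Nr U') (!c) b' →
        ¬ JoinedIn (sD1 p k S A δ M0 ∩ W) (ps a) (ps b') := by
    intro v a hd hva
    have hmem : ∀ y : ℂ, JoinedIn (sD1 p k S A δ M0 ∩ W) (ps a) y →
        (δ : ℂ) * y ∉ Sd p k S A (M0 + 1) δ c := by
      intro y hy h1
      have h2 := cn_up hδ (hva.trans hy)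
      rw [div_mul hδ] at h2
      exact Set.disjoint_left.1 hd h2 h1
    refine ⟨?_, ?_⟩
    · rintro ⟨m, hm, hJ⟩
      refine hmem _ hJ (sid_Sd hp hS hk hA hδ h0 hm.le (by omega) ?_ c)
      intro h1
      have h2 := hJ.target_mem.2
      rw [h1] at h2
      have h3 := sid_nbh (!c) (cs p)
      have h3' : dist (pt (cs p).1) (sid (!c) (cs p)) ≤ 2 := by
        rw [dist_comm]
        exact h3
      have h4 : pt (cs p).1 ∈ R1 z R := R1_sub (by linarith) (R1_dist h2 h3')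
      exact hst (Or.inl (hdv_Bq h4).1)
    · rintro b' ⟨dd, hdd, i, hi, h1, h2, h3, rfl⟩ hJ
      refine hmem _ hJ ?_
      have h4 := bd_Sd (p := p) (k := k) (A := A) hδ hi h1 h2 h3 (M0 + 1)
      rwa [Bool.not_not] at h4
  obtain ⟨sa, sa'⟩ := key u a hC.su (hua.mono (inter_subset_inter_right _ (R1_mono (by linarith))))
  obtain ⟨sb, sb'⟩ := key w b hC.sw (hwb.mono (inter_subset_inter_right _ (R1_mono (by linarith))))
  -- the walls
  have hT : ∀ d : Medial, nm (H192.ro d.1 - zc) ≤ (ρ : ℤ) + 5 → d ∈ Nr U' := by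
    intro d hd
    exact ⟨pt d.1, pt_R1_nm.2 (by omega), by rw [dist_self]; norm_num⟩
  have hTO : ∀ e : Node, ps e ∈ U' → ∀ d, e = .O d → d ∈ Nr U' := by
    rintro _ he d rfl
    exact ⟨_, he, ps_dist_O d⟩
  have hma' : nm ((nod S).cor a - zc) + 1 ≤ (ρ : ℤ) + 5 := by omega
  have hmb' : nm ((nod S).cor b - zc) + 1 ≤ (ρ : ℤ) + 5 := by
    have := cor_nm_R1 (S := S) (zc := zc) (N := ρ) (a := b)
      (R1_mono (by linarith) hwb.target_mem.2)
    omega
  have wall : ∀ a b : Node, Good S a → Good S b → nm ((nod S).cor a - zc) + 1 ≤ (ρ : ℤ) + 5 →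
      nm ((nod S).cor b - zc) + 1 ≤ (ρ : ℤ) + 5 → ps a ∈ U' → ps b ∈ U' →
      ps a ∈ sD1 p k S A δ M0 ∩ W →
      ¬ JoinedIn (sD1 p k S A δ M0 ∩ V) (ps a) (ps b) →
      (∀ b', BN p k S (Nr U') (!c) b' → ¬ JoinedIn (sD1 p k S A δ M0 ∩ W) (ps a) (ps b')) →
      ∃ b', ReflTransGen (Us S (Nr U')) a b' ∧ (BN p k S (Nr U') c b' ∨
        ∃ d ∈ Nr U', d.1 ∈ verts S ∧ ∃ l ≤ M0, d = run p k A l ∧ ∃ c0, b' = ndm S c0 d) := by
    intro a b ha hb hma hmb ua ub haD hn hbd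
    rcases walk_wall (k := k) (A := A) (M0 := M0) hp hS hT ha hb hma hmb (hTO a ua) (hTO b ub) with
      h1 | ⟨b', h1, h2⟩
    · exact absurd ((us_join hp hS hk hA hδ hM0 hWn h1 haD).mono
        (inter_subset_inter_right _ hWV)) hn
    · refine ⟨b', us_off h1, ?_⟩
      rcases h2 with ⟨c', h3⟩ | h2
      · by_cases hc : c' = c
        · subst hc
          exact Or.inl h3
        · have hc' : c' = !c := by revert hc; cases c' <;> cases c <;> simp
          subst hc'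
          exact absurd (us_join hp hS hk hA hδ hM0 hWn h1 haD) (hbd b' h3)
      · exact Or.inr h2
  have ea := wall a b ha hb hma' hmb' ua ub haD hn sa'
  have eb := wall b a hb ha hmb' hma' ub ua hbD (fun h => hn h.symm) sb'
  -- the tip
  have htip : Tch z R (H192.me (run p k A M0)) → ∀ c',
      ¬ JoinedIn (sD1 p k S A δ M0 ∩ V) (ps a) (sid c' (run p k A M0)) := by
    intro hT0 c' hJ
    apply hC.nt
    have hne : run p k A M0 ≠ cs p := by
      intro h1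
      rw [h1] at hT0
      exact hst hT0
    have h1 : JoinedIn (sD1 p k S A δ M0 ∩ R1 zc Rc) (u / δ) (sid c' (run p k A M0)) :=
      (hua.mono (inter_subset_inter_right _ (R1_mono (by linarith)))).trans
        (hJ.mono (inter_subset_inter_right _ hVc))
    have h2 := cn_up hδ h1
    rw [div_mul hδ] at h2
    exact tip_cl hp hS hk hA hδ hM0 hne c' h2 ((hVn _ hT0).trans hVc)
  rcases bad_nodes3 hp hS hk hA hδ hM0 hω hst hen hVn hQS hrR hUQ hUU hWn ha ha hb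
    ReflTransGen.refl hab hn sa sb ua ub ea eb htip (by rw [hqa]; exact hqp)
    (by rw [hqa]; exact hqt) ht with hM3 | ⟨M, hRn, d1, hd1, hG1, b', hBd, hJ⟩
  · left
    obtain ⟨e1, e2, em, N1, N2, Nm, wp, i, j, h1, h2, hm, -, h1m, h2m, hw, hsep, hi, hj, hr1, hr2,
      hnm⟩ := hM3
    rw [nm_le] at hnm
    simp only [Prod.fst_sub, Prod.snd_sub] at hnm
    refine m3_of h1 h2 hm h1m h2m hw hsep hi hj (near_mono (near_box hr2 _ _ hr1 rfl) ?_)
    omega
  · right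
    obtain ⟨dd, hdd, i, hi, hdi, hf, hki, rfl⟩ := hBd
    have hcol : col = c := by
      have h1 := (nr_R1 (z := zc) (s := (ρ : ℤ) + 6) hdd).2 (pt_nbh dd)
      have h2 : pt dd.1 ∈ R1 z (R : ℝ) := by
        refine R1_sub ?_ h1
        push_cast
        linarith
      rw [pt_R1_nm, hdi] at h2
      have h3 := hN i hi (by omega)
      by_cases hc : c = true
      · rw [hc, h3]
        exact hki.2 hc
      · have h4 : ¬ k ≤ i := fun h5 => hc (hki.1 h5)
        have h5 : ¬ col = true := fun h6 => h4 (h3.1 h6)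
        rw [Bool.not_eq_true] at hc h5
        rw [hc, h5]
    subst hcol
    refine t2_mono hH ?_
    refine H476.K.gap2' (c := !col) (h := h) (AL := aL S) hp hS h0 hk (by rw [Bool.not_not]; exact hN)
      (by rw [Bool.not_not]; exact hout) hRn.gm hrR hQS hG1 (hUQ d1 hd1) hi hdi hf
      (by rw [Bool.not_not]; exact hki) (by rw [Bool.not_not, nod_me]; exact hJ) ?_
    intro v hv
    have h1 := (nr_R1 (z := zc) (s := (ρ : ℤ) + 6) hdd).1
    rw [mem_Bq] at h1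
    rw [nm_le] at hv
    simp only [Prod.fst_sub, Prod.snd_sub] at hv
    rw [hQ, mem_ofPred_eq, mem_Bq]
    omega

omit hk in
/-- The domain at the time `0`. -/
theorem dn_zero (hδ : 0 < δ) : Om δ S ⊆ Dn p k S A 0 δ := by
  intro y hy
  refine ⟨hy, ?_⟩
  rintro ⟨t, ht, rfl⟩
  have ht0 : t = 0 := by
    have h1 := ht.1
    have h2 := ht.2
    push_cast at h2
    exact le_antisymm h2 h1
  subst ht0
  have h1 : pl p k δ A 0 = (δ : ℂ) * cpt (3 / 8) (cs p) := by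
    show (δ : ℂ) * lin (xv p k A) 0 = _
    rw [lin_first (by norm_num)]
    norm_num
  rw [h1, mem_Om hδ] at hy
  exact cpt_not_O1 (fc_cs hp hS) le_rfl (by norm_num) hy

end

/-- **(B1)** One history: a frozen square of the colour `c` with an arm of the other colour. -/
theorem b1 {δ : ℝ} (hp : IsPolygon p) (hS : Encloses p S) (h0 : 0 < k) (hk : k + 1 < n)
    (hA : A ⊆ edges S) (hδ : 0 < δ) {j : ℕ} (hj : j - 1 ≤ len p k A) {c : Bool} {zc : ℤ × ℤ}
    {ρ Rc : ℕ} {u w : ℂ} (hC : Cfl p k S A j δ c zc ρ Rc u w) {x q : ℤ × ℤ}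
    (hx : x ∈ dk p k S A j) (hxm : (SqD δ x ∩ H713.Q.Cn p k S A j δ zc ρ u).Nonempty)
    (hq : FKA.Cor x q) (hqp : (q.1 + q.2) % 2 = QC.par (!c)) {s : ℕ} (hρs : ρ + 16 ≤ s)
    (hloc : JoinedIn (Om δ S ∩ oR δ zc s) u w) {z : ℤ × ℤ} {r R : ℤ} {h H : ℕ} {col : Bool}
    (hz : nm (zc - z) + s + 16 ≤ r) (hrR : r ≤ R) (hRc : nm (zc - z) + R + 16 ≤ Rc)
    (hh : 2 * (s + 16) ≤ h) (hH : 2 * h ≤ H) (hst : ¬ Tch z R (H192.me (cs p)))
    (hen : hdv (H192.me (ce p k)) ∉ FK.Bq z R) (hN : NearC p k z R col) {ω : Cfg}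
    (hω : ∀ m ≤ len p k A, hdv (H192.me (run p k A m)) ∈ FK.Bq z R →
      ω (hdv (H192.me (run p k A m))) = H192.cfg (wiredOpen p k A) (hdv (H192.me (run p k A m))))
    (hout : ∀ v ∈ FK.Bq z R, v ∉ Dq S p k → ω v = col) {t : ℤ × ℤ}
    (hqt : ReflTransGen (PStep {v | v ∈ FK.Bq z R ∧ ω v = !c}) q t) (ht : BC z R t) :
    ω ∈ T32 (Dq S p k) col z r R H := by
  rcases Nat.eq_zero_or_pos j with rfl | hj0
  · exfalso
    apply hC.nj
    refine cc_of_joined (hloc.mono (inter_subset_inter (dn_zero hp hS hA hδ) ?_))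
    rintro v ⟨h1, h2⟩
    have h3 : (s : ℝ) ≤ Rc := by
      have h4 : (s : ℤ) ≤ Rc := by
        have : 0 ≤ nm (zc - z) := by
          unfold nm
          exact (abs_nonneg _).trans (le_max_left _ _)
        omega
      exact_mod_cast h4
    have h5 := mul_le_mul_of_nonneg_left h3 hδ.le
    exact ⟨h1.trans_le h5, h2.trans_le h5⟩
  · obtain ⟨M0, rfl⟩ : ∃ M0, j = M0 + 1 := ⟨j - 1, by omega⟩
    exact b1_core hp hS hk hA h0 hδ (by simpa using hj) hC hx hxm hq hqp hρs hloc hz hrR hRc hh hH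
      hst hen hN hω hout hqt ht

end Vale.Agent.P167.H531.K
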