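import Vale.Agent.P167.H531.Q.Lk2

/-!
# P167, general `q`, continuity: the link between double walls and three strands (3)

`gap`: a place where both sides of the path are near each other and joined off the path gives three
strands. `conflict`: two corners which are near each other, both see the same side of the path and
are not joined in the box off the path, and an arm of the other colour: three strands.
-/

set_option autoImplicit false
set_option linter.unusedVariables false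
set_option linter.unusedSectionVars false

namespace Vale.Agent.P167.H531.Q

open Finset Relation
open Vale.Agent.P145.FB (PStep)
open Vale.Agent.P167.H166
open Vale.Agent.P167.FKA (Cor)
open Vale.Agent.P167.H161 (PotX exists_PotX)
open Vale.Agent.P167.QC (par sd sd_par sd_cor ent_exit arc_ent)
open Vale.Agent.P167.QC.Mid (Str bc be be_cases be_surj tlv_it)

variable {z : ℤ × ℤ} {R r h : ℤ} {ω : Cfg} {Γ AL : Set Ed}

/-- **Three strands** of the box of radius `R`, one of them between the two others, which come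
within distance `h` of each other in the box of radius `r`. -/
def M3 (z : ℤ × ℤ) (R r h : ℤ) (ω : Cfg) : Prop :=
  ∃ (e1 e2 em : Ed) (N1 N2 Nm : ℕ) (w : ℤ × ℤ → ℤ) (i j : ℕ), Str z R ω e1 N1 ∧ Str z R ω e2 N2 ∧
    Str z R ω em Nm ∧ e1 ≠ e2 ∧ e1 ≠ em ∧ e2 ≠ em ∧ PotX z R (Arc (FK.Bq z R) ω em) w ∧
    w (ls e1) ≠ w (ls e2) ∧ i < N1 ∧ j < N2 ∧ hdv ((nx ω)^[i] e1) ∈ FK.Bq z r ∧
    hdv ((nx ω)^[j] e2) ∈ FK.Bq z r ∧ nm (hdv ((nx ω)^[i] e1) - hdv ((nx ω)^[j] e2)) ≤ h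

theorem bq_mono' {r R : ℤ} (h : r ≤ R) {v : ℤ × ℤ} (hv : v ∈ FK.Bq z r) : v ∈ FK.Bq z R := by
  rw [mem_Bq] at hv ⊢
  omega

/-- A small set of squares. -/
structure Sm (z : ℤ × ℤ) (r h : ℤ) (S : Set (ℤ × ℤ)) : Prop where
  b : ∀ v ∈ S, v ∈ FK.Bq z r
  n : ∀ v ∈ S, ∀ v' ∈ S, nm (v - v') ≤ h

theorem mk_M3 {S : Set (ℤ × ℤ)} (hS : Sm z r h S) (hrR : r ≤ R) {d d' em : Ed} {Nm : ℕ}
    (hd : hdv d ∈ S) (hd' : hdv d' ∈ S) (sm : Str z R ω em Nm) {w : ℤ × ℤ → ℤ}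
    (hw : PotX z R (Arc (FK.Bq z R) ω em) w) (n1 : d ∉ Arc (FK.Bq z R) ω em)
    (n2 : d' ∉ Arc (FK.Bq z R) ω em) {c c' : Bool} (hsep : w (sd c d) ≠ w (sd c' d'))
    (x1 : ∃ n : ℕ, hdv ((nx ω)^[n] d) ∉ FK.Bq z R)
    (x2 : ∃ n : ℕ, hdv ((nx ω)^[n] d') ∉ FK.Bq z R) : M3 z R r h ω := by
  have hB : ∀ v ∈ S, v ∈ FK.Bq z R := fun v hv => bq_mono' hrR (hS.b v hv)
  have t1 : Tch z R d := Or.inl (hB _ hd)
  have t2 : Tch z R d' := Or.inl (hB _ hd')
  obtain ⟨e1, N1, s1, a1⟩ := str_of t1 x1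
  obtain ⟨e2, N2, s2, a2⟩ := str_of t2 x2
  have hA := Arc.inv (FK.Bq z R) ω em
  have w1 : w (sd c d) = w (ls e1) := by
    rw [pot_side hw t1 n1 c true]
    exact pot_arc hw hA a1 true
  have w2 : w (sd c' d') = w (ls e2) := by
    rw [pot_side hw t2 n2 c' true]
    exact pot_arc hw hA a2 true
  rw [w1, w2] at hsep
  obtain ⟨i, hi, rfl⟩ := s1.mem_arc.1 a1
  obtain ⟨j, hj, rfl⟩ := s2.mem_arc.1 a2
  refine ⟨e1, e2, em, N1, N2, Nm, w, i, j, s1, s2, sm, ?_, ?_, ?_, hw, hsep, ?_, ?_, hS.b _ hd,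
    hS.b _ hd', hS.n _ hd _ hd'⟩
  · rintro rfl
    exact hsep rfl
  · rintro rfl
    exact n1 a1
  · rintro rfl
    exact n2 a2
  · rcases lt_or_eq_of_le hi with h1 | h1
    · exact h1
    · exact absurd (hB _ hd) (by rw [h1]; exact s1.x)
  · rcases lt_or_eq_of_le hj with h1 | h1
    · exact h1
    · exact absurd (hB _ hd') (by rw [h1]; exact s2.x)

theorem str_bde {e : Ed} {N : ℕ} (h : Str z R ω e N) : Bde z R e := Or.inl ⟨h.b 0 h.pos, h.t⟩

theorem str_exit {e a : Ed} {N : ℕ} (h : Str z R ω e N) (ha : a ∈ Arc (FK.Bq z R) ω e) :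
    ∃ n : ℕ, hdv ((nx ω)^[n] a) ∉ FK.Bq z R := by
  obtain ⟨i, hi, rfl⟩ := h.mem_arc.1 ha
  refine ⟨N - i, ?_⟩
  rw [← Function.iterate_add_apply, Nat.sub_add_cancel hi]
  exact h.x

/-- Corners of the two colours on the boundary are separated. -/
theorem exists_sep' {c : Bool} {P O : ℤ × ℤ} (hP : BC z R P) (hO : BC z R O)
    (eP : (P.1 + P.2) % 2 = par c) (eO : (O.1 + O.2) % 2 = par (!c)) :
    ∃ (e : Ed) (N : ℕ) (w : ℤ × ℤ → ℤ), Str z R ω e N ∧
      PotX z R (Arc (FK.Bq z R) ω e) w ∧ w P ≠ w O := by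
  cases c
  · obtain ⟨e, N, w, h1, h2, h3⟩ := exists_sep (ω := ω) hO hP eO eP
    exact ⟨e, N, w, h1, h2, h3.symm⟩
  · exact exists_sep hP hO eP eO

/-- The two sides of the path are joined off the path: a further strand. -/
theorem gap0 (hG : Gm z R ω Γ) {c : Bool} {d d' : Ed} (hd : d ∈ Γ) (hd' : d' ∈ Γ)
    (td : Tch z R d) (td' : Tch z R d') (hJ : Jn z R ω Γ AL (sd c d) (sd (!c) d')) :
    ∃ (em : Ed) (Nm : ℕ) (w : ℤ × ℤ → ℤ), Str z R ω em Nm ∧ PotX z R (Arc (FK.Bq z R) ω em) w ∧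
      em ∉ Γ ∧ w (sd c d) ≠ w (sd (!c) d') := by
  obtain ⟨e1, N1, s1, a1⟩ := hG.str hd td
  obtain ⟨e2, N2, s2, a2⟩ := hG.str hd' td'
  obtain ⟨em, Nm, w, sm, hw, hsep⟩ := exists_sep' (ω := ω) (c := c) ((str_bde s1).bc c)
    ((str_bde s2).bc (!c)) (sd_par _ _) (sd_par _ _)
  have hA := Arc.inv (FK.Bq z R) ω em
  rw [← pot_arc hw hA a1 c, ← pot_arc hw hA a2 (!c)] at hsep
  exact ⟨em, Nm, w, sm, hw, fun h => hsep (Jn.pot hw hA (fun a ha => hG.sub h ha) hJ), hsep⟩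

/-- An edge of the arc of an edge off the path is off the path. -/
theorem arc_off (hG : Gm z R ω Γ) {em d : Ed} (h : em ∉ Γ) (hd : d ∈ Arc (FK.Bq z R) ω em) :
    d ∉ Γ := fun h1 => h (hG.sub h1 (Arc.symm hd))

/-- **(K1) The two-coloured gap.** -/
theorem gap (hG : Gm z R ω Γ) (hrR : r ≤ R) {S : Set (ℤ × ℤ)} (hS : Sm z r h S) {c : Bool}
    {d d' : Ed} (hd : d ∈ Γ) (hd' : d' ∈ Γ) (td : hdv d ∈ S) (td' : hdv d' ∈ S)
    (hJ : Jn z R ω Γ AL (sd c d) (sd (!c) d')) : M3 z R r h ω := by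
  have hB : ∀ v ∈ S, v ∈ FK.Bq z R := fun v hv => bq_mono' hrR (hS.b v hv)
  obtain ⟨em, Nm, w, sm, hw, hm, hsep⟩ := gap0 hG hd hd' (Or.inl (hB _ td)) (Or.inl (hB _ td')) hJ
  exact mk_M3 hS hrR td td' sm hw (fun h1 => arc_off hG hm h1 hd) (fun h1 => arc_off hG hm h1 hd')
    hsep (hG.ex _ hd (Or.inl (hB _ td))) (hG.ex _ hd' (Or.inl (hB _ td')))

/-- The potential along a path of one colour. -/
theorem pot_path {A : Set Ed} {w : ℤ × ℤ → ℤ} (hw : PotX z R A w)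
    (hA : Inv (FK.Bq z R : Set (ℤ × ℤ)) ω A) {c : Bool} {s t : ℤ × ℤ}
    (hs : (s.1 + s.2) % 2 = par c)
    (hst : ReflTransGen (PStep {v | v ∈ FK.Bq z R ∧ ω v = c}) s t) :
    w s = w t ∧ (t.1 + t.2) % 2 = par c := by
  induction hst with
  | refl => exact ⟨rfl, hs⟩
  | @tail a b _ hab ih =>
    obtain ⟨i1, i2⟩ := ih
    obtain ⟨h1, h2, h3, h4⟩ := hab
    have hpar : (b.1 + b.2) % 2 = par c := by
      cases c <;> simp only [par, Bool.false_eq_true, if_false, if_true] at i2 ⊢ <;> omega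
    refine ⟨i1.trans (hw.sq hA h3 ?_), hpar⟩
    cases c
    · right
      refine ⟨by rw [Int.odd_iff]; exact i2, h1, h2, ?_⟩
      simp only [op, Set.mem_compl_iff, Set.mem_ofPred_eq, Bool.not_eq_true]
      exact h4
    · left
      exact ⟨by rw [Int.even_iff]; exact i2, h1, h2, h4⟩

/-- An arm of the other colour: a further strand. -/
theorem arm0 (hG : Gm z R ω Γ) {c : Bool} {d : Ed} (hd : d ∈ Γ) (td : Tch z R d) {q t : ℤ × ℤ}
    (hJ : Jn z R ω Γ AL (sd c d) q) (hq : (q.1 + q.2) % 2 = par (!c))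
    (hqt : ReflTransGen (PStep {v | v ∈ FK.Bq z R ∧ ω v = !c}) q t) (ht : BC z R t) :
    ∃ (em : Ed) (Nm : ℕ) (w : ℤ × ℤ → ℤ), Str z R ω em Nm ∧ PotX z R (Arc (FK.Bq z R) ω em) w ∧
      em ∉ Γ ∧ w (sd c d) ≠ w q := by
  obtain ⟨e1, N1, s1, a1⟩ := hG.str hd td
  have ht2 : (t.1 + t.2) % 2 = par (!c) := by
    obtain ⟨w0, hw0⟩ := exists_PotX (x := z) (R := R) (Arc.inv (FK.Bq z R) ω e1)
    exact (pot_path hw0 (Arc.inv _ _ _) hq hqt).2
  obtain ⟨em, Nm, w, sm, hw, hsep⟩ := exists_sep' (ω := ω) (c := c) ((str_bde s1).bc c) ht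
    (sd_par _ _) ht2
  have hA := Arc.inv (FK.Bq z R) ω em
  rw [← pot_arc hw hA a1 c, ← (pot_path hw hA hq hqt).1] at hsep
  exact ⟨em, Nm, w, sm, hw, fun h => hsep (Jn.pot hw hA (fun a ha => hG.sub h ha) hJ), hsep⟩

/-- A unit step across an edge with head in `S`. -/
def NS (z : ℤ × ℤ) (R : ℤ) (S : Set (ℤ × ℤ)) (a b : ℤ × ℤ) : Prop :=
  ∃ e, Tch z R e ∧ hdv e ∈ S ∧ ∃ c, a = sd c e ∧ b = sd (!c) e

theorem cross_near {S : Set (ℤ × ℤ)} {A : Set Ed} {w : ℤ × ℤ → ℤ} (hw : PotX z R A w)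
    {a b : ℤ × ℤ} (h : ReflTransGen (NS z R S) a b) (hne : w a ≠ w b) : ∃ e ∈ A, hdv e ∈ S := by
  by_contra hno
  push Not at hno
  apply hne
  clear hne
  induction h with
  | refl => rfl
  | tail _ hs ih =>
    obtain ⟨e, h1, h2, c, rfl, rfl⟩ := hs
    rw [ih]
    exact pot_side hw h1 (fun h3 => hno e h3 h2) _ _

/-- A walk off the path meets every strand which separates its ends. -/
theorem cross_jn {em : Ed} {w : ℤ × ℤ → ℤ}
    (hw : PotX z R (Arc (FK.Bq z R) ω em) w) {a b : ℤ × ℤ} (h : Jn z R ω Γ AL a b)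
    (hne : w a ≠ w b) : ∃ e ∈ Arc (FK.Bq z R) ω em, Tch z R e ∧ ∃ c, Jn z R ω Γ AL a (sd c e) := by
  by_contra hno
  push Not at hno
  apply hne
  clear hne
  have key : ∀ b, Jn z R ω Γ AL a b → w a = w b := by
    intro b hb
    induction hb with
    | refl => rfl
    | @tail b d hab hs ih =>
      rw [ih]
      rcases hs with ⟨e, -, h2, h3, c, rfl, rfl⟩ | ⟨e, h1, h2, c, h3⟩
      · exact pot_side hw h3 (fun h4 => hno e h4 h3 c hab) _ _
      · obtain ⟨k1, k2⟩ := hw.nx (Arc.inv _ _ _) h2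
        rcases h3 with ⟨rfl, rfl⟩ | ⟨rfl, rfl⟩ <;> cases c <;>
          simp only [sd, if_true, Bool.false_eq_true, if_false] <;> omega
  exact key b h

/-- The data of a chain between two corners which are not joined: both ends see the side `c` of
the path first. -/
structure Cpr (z : ℤ × ℤ) (R : ℤ) (ω : Cfg) (Γ AL : Set Ed) (S : Set (ℤ × ℤ)) (c : Bool) (n : ℕ)
    (p : ℕ → ℤ × ℤ) (E : ℕ → Ed) : Prop where
  st : ∀ i < n, US z R AL (p i) (p (i + 1)) (E i)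
  sm : ∀ i < n, hdv (E i) ∈ S
  nj : ¬ Jn z R ω Γ AL (p 0) (p n)
  fu : ∃ i < n, (∀ j < i, E j ∉ Γ) ∧ E i ∈ Γ ∧ p i = sd c (E i)
  fv : ∃ j < n, (∀ i, j < i → i < n → E i ∉ Γ) ∧ E j ∈ Γ ∧ p (j + 1) = sd c (E j)

theorem Cpr.rev {S : Set (ℤ × ℤ)} {c : Bool} {n : ℕ} {p : ℕ → ℤ × ℤ} {E : ℕ → Ed}
    (h : Cpr z R ω Γ AL S c n p E) :
    Cpr z R ω Γ AL S c n (fun i => p (n - i)) (fun i => E (n - 1 - i)) where
  st := by
    intro i hi
    have h1 := (h.st (n - 1 - i) (by omega)).symm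
    rw [show n - 1 - i + 1 = n - i by omega] at h1
    show US z R AL (p (n - i)) (p (n - (i + 1))) (E (n - 1 - i))
    rw [show n - (i + 1) = n - 1 - i by omega]
    exact h1
  sm := fun i hi => h.sm _ (by omega)
  nj := fun hJ => h.nj (by
    have := hJ.symm
    simp only [Nat.sub_self, Nat.sub_zero] at this
    exact this)
  fu := by
    obtain ⟨j, hj, h1, h2, h3⟩ := h.fv
    refine ⟨n - 1 - j, by omega, fun i hi => h1 _ (by omega) (by omega), ?_, ?_⟩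
    · rw [show n - 1 - (n - 1 - j) = j by omega]; exact h2
    · show p (n - (n - 1 - j)) = sd c (E (n - 1 - (n - 1 - j)))
      rw [show n - 1 - (n - 1 - j) = j by omega, show n - (n - 1 - j) = j + 1 by omega]
      exact h3
  fv := by
    obtain ⟨j, hj, h1, h2, h3⟩ := h.fu
    refine ⟨n - 1 - j, by omega, fun i hi hi' => h1 _ (by omega), ?_, ?_⟩
    · rw [show n - 1 - (n - 1 - j) = j by omega]; exact h2
    · show p (n - (n - 1 - j + 1)) = sd c (E (n - 1 - (n - 1 - j)))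
      rw [show n - 1 - (n - 1 - j) = j by omega, show n - (n - 1 - j + 1) = j by omega]
      exact h3

/-- Walk from the first end: the side `c` of a strand which separates the ends, unless `M3`. -/
theorem Cpr.first (hG : Gm z R ω Γ) (hrR : r ≤ R) {S : Set (ℤ × ℤ)} (hS : Sm z r h S) {c : Bool}
    {n : ℕ} {p : ℕ → ℤ × ℤ} {E : ℕ → Ed} (hc : Cpr z R ω Γ AL S c n p E) :
    M3 z R r h ω ∨ ∃ i < n, E i ∈ Γ ∧ p i = sd c (E i) ∧ Jn z R ω Γ AL (p 0) (p i) ∧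
      ∃ w : ℤ × ℤ → ℤ, PotX z R (Arc (FK.Bq z R) ω (E i)) w ∧ w (p 0) ≠ w (p n) := by
  obtain ⟨i, hi, h1, h2, w, h3, h4⟩ := walk hG n p E hc.st hc.nj
  obtain ⟨i0, hi0, g1, g2, g3⟩ := hc.fu
  obtain ⟨-, -, c', k1, k2⟩ := hc.st i hi
  by_cases hcc : c' = c
  · right
    subst hcc
    exact ⟨i, hi, h1, k1, h2, w, h3, h4⟩
  · left
    have hc' : c' = !c := by revert hcc; cases c' <;> cases c <;> simp
    have hJ0 : Jn z R ω Γ AL (p 0) (p i0) := by
      have key : ∀ m ≤ i0, Jn z R ω Γ AL (p 0) (p m) := by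
        intro m
        induction m with
        | zero => intro _; exact ReflTransGen.refl
        | succ m ih =>
          intro hm
          obtain ⟨a1, a2, c1, a3, a4⟩ := hc.st m (by omega)
          exact (ih (by omega)).tail (Or.inl ⟨E m, a1, g1 m (by omega), a2, c1, a3, a4⟩)
      exact key i0 le_rfl
    refine gap hG hrR hS (c := c) g2 h1 (hc.sm _ hi0) (hc.sm _ hi) (AL := AL) ?_
    rw [← g3, ← hc', ← k1]
    exact hJ0.symm.trans h2

/-- **(K2) The conflict pair with an arm.** -/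
theorem Cpr.arm (hG : Gm z R ω Γ) (hrR : r ≤ R) {S : Set (ℤ × ℤ)} (hS : Sm z r h S) {c : Bool}
    {n : ℕ} {p : ℕ → ℤ × ℤ} {E : ℕ → Ed} (hc : Cpr z R ω Γ AL S c n p E) {q t : ℤ × ℤ}
    (hJ : Jn z R ω Γ AL (p n) q) (hN : ReflTransGen (NS z R S) (p n) q)
    (hq : (q.1 + q.2) % 2 = par (!c))
    (hqt : ReflTransGen (PStep {v | v ∈ FK.Bq z R ∧ ω v = !c}) q t) (ht : BC z R t) :
    M3 z R r h ω := by
  have hB : ∀ v ∈ S, v ∈ FK.Bq z R := fun v hv => bq_mono' hrR (hS.b v hv)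
  rcases hc.first hG hrR hS with hM | ⟨i1, hi1, a1, a2, a3, w1, a4, a5⟩
  · exact hM
  rcases hc.rev.first hG hrR hS with hM | ⟨j', hj', b1, b2, b3, w2, b4, b5⟩
  · exact hM
  simp only [Nat.sub_self, Nat.sub_zero] at b1 b2 b3 b4 b5
  set j1 := n - 1 - j' with hj1
  have hj1n : j1 < n := by omega
  rw [show n - j' = j1 + 1 by omega] at b2 b3
  have t1 : Tch z R (E i1) := Or.inl (hB _ (hc.sm _ hi1))
  have t2 : Tch z R (E j1) := Or.inl (hB _ (hc.sm _ hj1n))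
  have hA2 := Arc.inv (FK.Bq z R) ω (E j1)
  have hAG2 : Arc (FK.Bq z R) ω (E j1) ⊆ Γ := fun a ha => hG.sub b1 ha
  -- `σ₁ ≠ σ₂`
  have e0 : w2 (p 0) = w2 (sd c (E i1)) := by rw [← a2]; exact Jn.pot b4 hA2 hAG2 a3
  have en : w2 (p n) = w2 (sd c (E j1)) := by rw [← b2]; exact Jn.pot b4 hA2 hAG2 b3
  have n12 : E i1 ∉ Arc (FK.Bq z R) ω (E j1) := fun h1 => by
    apply b5
    rw [e0, en]
    exact (pot_arc b4 hA2 h1 c).symm
  -- the new strand
  obtain ⟨em, Nm, w, sm, hw, hm, hsep⟩ := arm0 hG b1 t2 (AL := AL) (c := c)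
    (by rw [← b2]; exact b3.symm.trans hJ) hq hqt ht
  -- near
  obtain ⟨d, hd, hdS⟩ : ∃ d ∈ Arc (FK.Bq z R) ω em, hdv d ∈ S := by
    have hch : ReflTransGen (NS z R S) (p (j1 + 1)) (p n) := by
      have key : ∀ m, j1 + 1 ≤ m → m ≤ n → ReflTransGen (NS z R S) (p (j1 + 1)) (p m) := by
        intro m hm
        induction m, hm using Nat.le_induction with
        | base => intro _; exact ReflTransGen.refl
        | succ m hm ih =>
          intro h1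
          obtain ⟨-, k2, c1, k3, k4⟩ := hc.st m (by omega)
          exact (ih (by omega)).tail ⟨E m, k2, hc.sm _ (by omega), c1, k3, k4⟩
      exact key n (by omega) le_rfl
    exact cross_near hw (hch.trans hN) (by rw [b2]; exact hsep)
  -- the new strand is on the side of the second end
  obtain ⟨e, he, te, c1, hJe⟩ := cross_jn hw (hJ.symm.trans b3) (by rw [b2]; exact hsep.symm)
  obtain ⟨s2, N2, hs2, ha2⟩ := hG.str b1 t2
  have hArc : Arc (FK.Bq z R) ω (E j1) = Arc (FK.Bq z R) ω s2 := Arc.eq ha2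
  rw [hArc] at b4 n12
  have hd' : d ∉ Γ := arc_off hG hm hd
  have he' : e ∉ Γ := arc_off hG hm he
  have hsub : Arc (FK.Bq z R) ω s2 ⊆ Γ := by rw [← hArc]; exact hAG2
  have k1 : w2 (sd c1 d) = w2 (p n) := by
    have h1 : d ∈ Arc (FK.Bq z R) ω e := Arc.trans (Arc.symm he) hd
    rw [pot_arc b4 (Arc.inv _ _ _) h1 c1, ← Jn.pot b4 (Arc.inv _ _ _) hsub hJe,
      ← Jn.pot b4 (Arc.inv _ _ _) hsub hJ]
  refine mk_M3 hS hrR (hc.sm _ hi1) hdS hs2 b4 n12 (fun h1 => hd' (hsub h1)) (c := c) (c' := c1) ?_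
    (hG.ex _ a1 t1) (str_exit sm hd)
  rw [← e0, k1]
  exact b5.symm

end Vale.Agent.P167.H531.Q
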