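import Vale.Agent.P167.H531.Q.Br1
import Vale.Agent.P167.H192.Inter

/-!
# P167, general `q`, continuity: the bridge between the lattice and the slit domain (2)

`gM p k A M` : the edges of the first `M + 1` steps of the interface. Nodes which are joined off the
path are joined in the slit domain.
-/

set_option autoImplicit false
set_option linter.unusedVariables false
set_option linter.unusedSectionVars false

open Set Metric Relation

namespace Vale.Agent.P167.H531.K

open Vale.Agent.P167.E6 Vale.Agent.P167.E2 Vale.Agent.P167.Fjord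
open Vale.Agent.P167.H166
open Vale.Agent.P167.H531.Q (Tch Gm)

variable {n : ℕ} {p : ZMod n → ℤ × ℤ} {S : Finset (ℤ × ℤ)} {k : ℕ} {A : Finset (Sym2 (ℤ × ℤ))}
  {z : ℤ × ℤ} {R : ℤ} {ω : Cfg} {M : ℕ}

/-- The edges of the first steps of the interface. -/
def gM (p : ZMod n → ℤ × ℤ) (k : ℕ) (A : Finset (Sym2 (ℤ × ℤ))) (M : ℕ) : Set Ed :=
  {e | ∃ m ≤ M, e = H192.me (run p k A m)}

/-- The darts at the vertices of the domain. -/
def aL (S : Finset (ℤ × ℤ)) : Set Ed := {e | (H192.me' e).1 ∈ verts S}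

/-- The configuration `ω` agrees with that of the interface on the squares of the box which are
read in the first `M` steps; the box does not contain the start, and the `M`-th square is outside. -/
structure Rn (p : ZMod n → ℤ × ℤ) (k : ℕ) (A : Finset (Sym2 (ℤ × ℤ))) (z : ℤ × ℤ) (R : ℤ)
    (ω : Cfg) (M : ℕ) : Prop where
  agr : ∀ m < M, hdv (H192.me (run p k A m)) ∈ FK.Bq z R →
    ω (hdv (H192.me (run p k A m))) =
      H192.cfg (wiredOpen p k A) (hdv (H192.me (run p k A m)))
  st : ¬ Tch z R (H192.me (cs p))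
  out : hdv (H192.me (run p k A M)) ∉ FK.Bq z R
  le : M ≤ len p k A

theorem cfg_run (m : ℕ) : nx (H192.cfg (wiredOpen p k A)) (H192.me (run p k A m)) =
    H192.me (run p k A (m + 1)) := by
  rw [H192.nx_cfg, run_succ]

theorem Rn.nxt (h : Rn p k A z R ω M) {m : ℕ} (hm : m < M)
    (hb : hdv (H192.me (run p k A m)) ∈ FK.Bq z R) :
    nx ω (H192.me (run p k A m)) = H192.me (run p k A (m + 1)) := by
  rw [← cfg_run]
  exact H192.nx_congr (h.agr m hm hb)

theorem Rn.it (h : Rn p k A z R ω M) {m : ℕ} (hm : m ≤ M) : ∀ j : ℕ,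
    (∀ i < j, hdv ((nx ω)^[i] (H192.me (run p k A m))) ∈ FK.Bq z R) →
      m + j ≤ M ∧ (nx ω)^[j] (H192.me (run p k A m)) =
        H192.me (run p k A (m + j)) := by
  intro j
  induction j with
  | zero => intro _; exact ⟨hm, rfl⟩
  | succ j ih =>
    intro hj
    obtain ⟨h1, h2⟩ := ih fun i hi => hj i (by omega)
    have h3 := hj j (by omega)
    rw [h2] at h3
    have h4 : m + j < M := by
      rcases lt_or_eq_of_le h1 with h4 | h4
      · exact h4
      · rw [h4] at h3
        exact absurd h3 h.out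
    refine ⟨by omega, ?_⟩
    rw [Function.iterate_succ_apply', h2, h.nxt h4 h3]
    rfl

theorem Rn.gm (h : Rn p k A z R ω M) : Gm z R ω (gM p k A M) where
  inv := by
    intro e he
    rw [Finset.mem_coe] at he
    constructor
    · rintro ⟨m, hm, rfl⟩
      have h4 : m < M := by
        rcases lt_or_eq_of_le hm with h4 | h4
        · exact h4
        · rw [h4] at he
          exact absurd he h.out
      exact ⟨m + 1, h4, h.nxt h4 he⟩
    · rintro ⟨m, hm, hme⟩
      cases m with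
      | zero =>
        exfalso
        apply h.st
        right
        rw [run_zero] at hme
        rw [← hme, tlv_nx]
        exact he
      | succ m =>
        have h1 : hdv (H192.me (run p k A m)) = hdv e := by
          rw [← tlv_nx (H192.cfg (wiredOpen p k A)), cfg_run, ← hme, tlv_nx]
        have h2 : nx ω (H192.me (run p k A m)) = nx ω e := by
          rw [h.nxt (by omega) (by rw [h1]; exact he), hme]
        exact ⟨m, by omega, ((s_nx ω).1 h2).symm⟩
  ex := by
    rintro e ⟨m, hm, rfl⟩ -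
    by_contra hno
    push Not at hno
    obtain ⟨h1, h2⟩ := h.it hm (M - m + 1) fun i _ => hno i
    omega

section

variable (hp : IsPolygon p) (hS : Encloses p S) (hk : k + 1 < n) (hA : A ⊆ edges S)
include hp hS hk hA

/-- An edge of the arc of an edge of the path. -/
theorem Rn.arc (h : Rn p k A z R ω M) {m : ℕ} (hm : m ≤ M) {e : Ed}
    (he : e ∈ Arc (FK.Bq z R) ω (H192.me (run p k A m))) : ∃ m' ≤ M, e = H192.me (run p k A m') ∧
      ∀ i, min m m' ≤ i → i < max m m' → hdv (H192.me (run p k A i)) ∈ FK.Bq z R := by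
  have key : ∀ (m : ℕ), m ≤ M → ∀ e, Fw (FK.Bq z R) ω (H192.me (run p k A m)) e → ∃ m' ≤ M,
      m ≤ m' ∧ e = H192.me (run p k A m') ∧
      ∀ i, m ≤ i → i < m' → hdv (H192.me (run p k A i)) ∈ FK.Bq z R := by
    rintro m hm e ⟨j, rfl, h1⟩
    obtain ⟨h2, h3⟩ := h.it hm j h1
    refine ⟨m + j, h2, by omega, h3, fun i h4 h5 => ?_⟩
    have h6 := h1 (i - m) (by omega)
    obtain ⟨-, h7⟩ := h.it hm (i - m) fun i' hi' => h1 i' (by omega)
    rwa [h7, show m + (i - m) = i by omega] at h6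
  rcases he with he | he
  · obtain ⟨m', h1, h2, h3, h4⟩ := key m hm e he
    exact ⟨m', h1, h3, fun i h5 h6 => h4 i (by omega) (by omega)⟩
  · obtain ⟨m0, hm0, rfl⟩ := h.gm.sub (e := H192.me (run p k A m)) ⟨m, hm, rfl⟩ (Or.inr he)
    obtain ⟨m', h1, h2, h3, h4⟩ := key m0 hm0 _ he
    have hl := h.le
    have h5 : m = m' := run_inj' hp hS hk hA _ (by omega) _ (by omega) (H192.me_inj h3)
    subst h5
    exact ⟨m0, hm0, rfl, fun i h6 h7 => h4 i (by omega) (by omega)⟩

/-- The obstacles: the curve up to the time `M + 1`, at mesh `1`. -/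
def zM (p : ZMod n → ℤ × ℤ) (k : ℕ) (A : Finset (Sym2 (ℤ × ℤ))) (δ : ℝ) (M : ℕ) : Set ℂ :=
  {z | (δ : ℂ) * z ∈ pl p k δ A '' Icc 0 ((M : ℝ) + 1)}

omit hk in
theorem obs {δ : ℝ} (hδ : 0 < δ) (hM : M ≤ len p k A) : Obs (zM p k A δ M)
    (fun x y => ∃ l < M, x = run p k A l ∧ y = run p k A (l + 1)) (fun d => d = cs p)
    (fun d => d = run p k A M) where
  step := by
    rintro x y ⟨l, -, rfl, rfl⟩
    rw [run_succ]
    rcases next_step (wiredOpen p k A) (run p k A l) with h | h
    · exact ⟨_, Or.inr h.2.2⟩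
    · exact ⟨_, Or.inl h.2.2⟩
  cov := by
    intro w hw
    rcases cov_pl hδ hM hw with ⟨l, h1, h2⟩ | h | h
    · exact Or.inl ⟨_, _, ⟨l, h1, rfl, rfl⟩, h2⟩
    · exact Or.inr (Or.inl ⟨_, rfl, h⟩)
    · exact Or.inr (Or.inr ⟨_, rfl, h⟩)

omit hp hS hk hA in
theorem e_open {x y : Medial} (h : ∃ l < M, x = run p k A l ∧ y = run p k A (l + 1))
    {e : Sym2 (ℤ × ℤ)} (hF : FStep e x y) : e ∈ wiredOpen p k A := by
  obtain ⟨l, -, rfl, rfl⟩ := h
  rw [run_succ] at hF
  rcases next_step (wiredOpen p k A) (run p k A l) with ⟨h1, -, h3⟩ | ⟨h1, -, h3⟩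
  · rw [FF_eq hF h3]
    exact h1
  · exact (not_VF h3 hF).elim

omit hp hS hk hA in
theorem e_closed {x y : Medial} (h : ∃ l < M, x = run p k A l ∧ y = run p k A (l + 1))
    {e : Sym2 (ℤ × ℤ)} (hF : VStep e x y) : e ∉ wiredOpen p k A := by
  obtain ⟨l, -, rfl, rfl⟩ := h
  rw [run_succ] at hF
  rcases next_step (wiredOpen p k A) (run p k A l) with ⟨h1, -, h3⟩ | ⟨h1, -, h3⟩
  · exact (not_VF hF h3).elim
  · rw [VV_eq hF h3]
    exact h1

/-- A vertex of the domain is free. -/
theorem pt_free {δ : ℝ} (hδ : 0 < δ) (hM : M ≤ len p k A) {v : ℤ × ℤ} (hv : v ∈ verts S) :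
    pt v ∈ O1 (S : Set (ℤ × ℤ)) \ zM p k A δ M := by
  obtain ⟨r, hr⟩ := mem_verts.1 hv
  refine ⟨EF_sub hr (pt_EF v r), fun hz => ?_⟩
  have hfr : ∀ d : Medial, pt v ∉ Bt d := by
    intro d hd
    obtain ⟨h1, h2⟩ := bt_near hd
    rw [pt_re, abs_le] at h1
    have a1 : (hl d).1 < 2 * v.1 := by
      have : ((hl d).1 : ℝ) < 2 * v.1 := by linarith [h1.1]
      exact_mod_cast this
    have a2 : 2 * v.1 - 1 < (hl d).1 := by
      have : (2 * v.1 - 1 : ℝ) < (hl d).1 := by linarith [h1.2]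
      exact_mod_cast this
    omega
  rcases (obs (S := S) hp hS hA hδ hM).cov _ hz with ⟨x, y, h1, h2⟩ | ⟨d, -, h2⟩ | ⟨d, -, h2⟩
  · obtain ⟨e, he⟩ := (obs (S := S) hp hS hA hδ hM).step x y h1
    refine frac_on he (m := 2 * v.1 - 1) (l := 2 * v.2 - 1) ?_ ?_ ?_ ?_ h2 <;>
      simp only [pt_re, pt_im] <;> push_cast <;> linarith
  · exact hfr d h2
  · exact hfr d (by rw [h2]; exact bt_self d)

omit hp hS hk hA in
theorem ind_le {V Z : Set ℂ} {a b : ℂ} (h1 : segment ℝ a b ⊆ O1 (S : Set (ℤ × ℤ)) \ Z)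
    (h2 : segment ℝ a b ⊆ V) : JoinedIn ((O1 (S : Set (ℤ × ℤ)) \ Z) ∩ V) a b :=
  JoinedIn.of_segment_subset (subset_inter h1 h2)

/-- The point on the side `c` of a dart. -/
noncomputable def sid (c : Bool) (d : Medial) : ℂ := if c then pt d.1 else cpt (5 / 16) d

/-- One step along a side. -/
theorem side_step {δ : ℝ} (hδ : 0 < δ) (hM : M ≤ len p k A) {V : Set ℂ} {m : ℕ} (h0 : 0 < m)
    (hm : m < M) (hV : nbh (run p k A m) ⊆ V) (c : Bool) :
    JoinedIn ((O1 (S : Set (ℤ × ℤ)) \ zM p k A δ M) ∩ V) (sid c (run p k A m))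
      (sid c (run p k A (m + 1))) := by
  have hk' : k < n := by omega
  have hO := obs (S := S) hp hS hA hδ hM
  have hv := run_mem (k := k) hp hS hA m
  have hcs : ∀ i, 0 < i → i ≤ M → run p k A i ≠ cs p := by
    intro i h1 h2 h3
    rw [← run_zero (p := p) (k := k) (A := A)] at h3
    have := run_inj' hp hS hk hA i (by omega) 0 (Nat.zero_le _) h3
    omega
  set d := run p k A m with hd
  rcases next_step (wiredOpen p k A) d with ⟨h1, h2, h3⟩ | ⟨h1, h2, h3⟩
  · -- open
    have he : ahead d ∈ edges S := wired_sub hp hS hA h1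
    rw [← run_succ] at h2
    cases c
    · show JoinedIn _ (cpt (5 / 16) d) (cpt (5 / 16) (run p k A (m + 1)))
      have h4 := sD hO he (hcs m h0 hm.le) (by rw [← h2]; exact hcs (m + 1) (by omega) hm)
      rw [h2]
      exact ind_le h4 ((seg_nbh (cpt_nbh (by norm_num) (by norm_num) d)
        (cadv_nbh (by norm_num) (by norm_num) d)).trans hV)
    · show JoinedIn _ (pt d.1) (pt (run p k A (m + 1)).1)
      rw [h2]
      have g1 := sB hO he (fun hh => e_closed hh (Or.inl ⟨rfl, rfl⟩) h1)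
        (fun hh => e_closed hh (Or.inr ⟨rfl, rfl⟩) h1)
      have g2 := sB hO (c := par d) (by rw [ahead_par]; exact he)
        (fun hh => e_closed hh (Or.inl ⟨rfl, rfl⟩) (by rw [ahead_par]; exact h1))
        (fun hh => e_closed hh (Or.inr ⟨rfl, rfl⟩) (by rw [ahead_par]; exact h1))
      have e1 : Fjord.em (par d) = Fjord.em d := em_congr (ahead_par d)
      have e2 : (par d).1 = (adv d).1 := rfl
      rw [e1, e2] at g2
      exact (ind_le g1 ((seg_nbh (pt_nbh d) (em_nbh d)).trans hV)).trans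
        (ind_le g2 ((seg_nbh (adv_nbh d) (em_nbh d)).trans hV)).symm
  · -- closed
    rw [← run_succ] at h2
    cases c
    · show JoinedIn _ (cpt (5 / 16) d) (cpt (5 / 16) (run p k A (m + 1)))
      have h4 := sE hO hv (fun x y hxy hF => h1 (e_open hxy hF)) (hcs m h0 hm.le)
        (by rw [← h2]; exact hcs (m + 1) (by omega) hm)
      rw [h2]
      exact ind_le h4 ((seg_nbh (cpt_nbh (by norm_num) (by norm_num) d)
        (crot_nbh (by norm_num) (by norm_num) d)).trans hV)
    · show JoinedIn _ (pt d.1) (pt (run p k A (m + 1)).1)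
      rw [h2]
      exact JoinedIn.refl ⟨pt_free hp hS hk hA hδ hM hv, hV (pt_nbh d)⟩

/-- Along a side. -/
theorem side_join {δ : ℝ} (hδ : 0 < δ) (hM : M ≤ len p k A) {V : Set ℂ} (c : Bool) {a : ℕ}
    (h0 : 0 < a) : ∀ b, a ≤ b → b ≤ M → (∀ i, a ≤ i → i < b → nbh (run p k A i) ⊆ V) →
      sid c (run p k A a) ∈ (O1 (S : Set (ℤ × ℤ)) \ zM p k A δ M) ∩ V →
    JoinedIn ((O1 (S : Set (ℤ × ℤ)) \ zM p k A δ M) ∩ V) (sid c (run p k A a))
      (sid c (run p k A b)) := by
  intro b hab
  induction b, hab using Nat.le_induction with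
  | base => intro _ _ h; exact JoinedIn.refl h
  | succ b hb ih =>
    intro h1 h2 h3
    exact (ih (by omega) (fun i h4 h5 => h2 i h4 (by omega)) h3).trans
      (side_step hp hS hk hA hδ hM (by omega) (by omega) (h2 b hb (by omega)) c)

omit hk in
/-- The point `5/16` of a dart is free. -/
theorem c516_free {δ : ℝ} (hδ : 0 < δ) (hM : M ≤ len p k A) {d : Medial} (hv : d.1 ∈ verts S)
    (hd : d ≠ cs p) : cpt (5 / 16) d ∈ O1 (S : Set (ℤ × ℤ)) \ zM p k A δ M := by
  obtain ⟨r, hr⟩ := mem_verts.1 hv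
  refine ⟨EF_sub hr (cpt_EF (by norm_num) (by norm_num) d r), fun hz => ?_⟩
  obtain ⟨m, l, a1, a2, a3⟩ := pH_coord (c := d) (left_mem_segment ℝ _ _)
  rcases (obs (S := S) hp hS hA hδ hM).cov _ hz with ⟨x, y, h1, h2⟩ | ⟨d', h1, h2⟩ | ⟨d', h1, h2⟩
  · obtain ⟨e, he⟩ := (obs (S := S) hp hS hA hδ hM).step x y h1
    exact frac_on he (m := m) (l := l) (by linarith) (by linarith) (by linarith) (by linarith) h2
  · exact hd (by rw [← a3 d' h2]; exact h1)
  · rw [h2, c14_re] at a1
    have b1 : m < (hl d').1 := by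
      have : (m : ℝ) < (hl d').1 := by linarith [a1.1]
      exact_mod_cast this
    have b2 : (hl d').1 < m + 1 := by
      have : ((hl d').1 : ℝ) < m + 1 := by linarith [a1.2]
      exact_mod_cast this
    omega

theorem sid_free {δ : ℝ} (hδ : 0 < δ) (hM : M ≤ len p k A) (c : Bool) {d : Medial}
    (hv : d.1 ∈ verts S) (hd : d ≠ cs p) :
    sid c d ∈ O1 (S : Set (ℤ × ℤ)) \ zM p k A δ M := by
  cases c
  · exact c516_free hp hS hA hδ hM hv hd
  · exact pt_free hp hS hk hA hδ hM hv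

omit hp hS hk hA in
theorem sid_nbh (c : Bool) (d : Medial) : sid c d ∈ nbh d := by
  cases c
  · exact cpt_nbh (by norm_num) (by norm_num) d
  · exact pt_nbh d

/-- From the side of a dart to the node. -/
theorem side_node {δ : ℝ} (hδ : 0 < δ) (hM : M ≤ len p k A) {V : Set ℂ} (c : Bool) {d : Medial}
    (hv : d.1 ∈ verts S) (hd : d ≠ cs p) (hV : nbh d ⊆ V) :
    JoinedIn ((O1 (S : Set (ℤ × ℤ)) \ zM p k A δ M) ∩ V) (sid c d) (ps (ndm S c d)) := by
  have hO := obs (S := S) hp hS hA hδ hM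
  have hfr := sid_free hp hS hk hA hδ hM c hv hd
  cases c
  · by_cases hf : fc d ∈ S
    · have e1 : ps (ndm S false d) = ctr (fc d) := by
        unfold ndm
        rw [if_neg Bool.false_ne_true, if_pos hf]
        rfl
      rw [e1]
      exact ind_le (sH hO hf hd) ((seg_nbh (cpt_nbh (by norm_num) (by norm_num) d)
        (ctr_nbh d)).trans hV)
    · have e1 : ps (ndm S false d) = cpt (5 / 16) d := by
        unfold ndm
        rw [if_neg Bool.false_ne_true, if_neg hf]
        rfl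
      rw [e1]
      exact JoinedIn.refl ⟨hfr, hV (sid_nbh false d)⟩
  · exact JoinedIn.refl ⟨hfr, hV (sid_nbh true d)⟩

/-- Across a dart which is not on the path. -/
theorem unit_join {δ : ℝ} (hδ : 0 < δ) (hM : M ≤ len p k A) {V : Set ℂ} {d : Medial}
    (hv : d.1 ∈ verts S) (hd : ∀ m ≤ M, d ≠ run p k A m) (hV : nbh d ⊆ V) :
    JoinedIn ((O1 (S : Set (ℤ × ℤ)) \ zM p k A δ M) ∩ V) (ps (ndm S true d))
      (ps (ndm S false d)) := by
  have hO := obs (S := S) hp hS hA hδ hM
  have hcs : d ≠ cs p := hd 0 (Nat.zero_le _)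
  have h1 := sF hO hv (by
    rintro x y ⟨l, hl, rfl, rfl⟩
    exact ⟨fun h => hd l hl.le h.symm, fun h => hd (l + 1) hl h.symm⟩) hcs (hd M le_rfl)
  exact (ind_le h1 ((seg_nbh (pt_nbh d) (cpt_nbh (by norm_num) (by norm_num) d)).trans hV)).trans
    (side_node hp hS hk hA hδ hM false hv hcs hV)

/-- **Nodes which are joined off the path are joined in the slit domain.** -/
theorem jn_joined (h : Rn p k A z R ω M) {δ : ℝ} (hδ : 0 < δ) {V : Set ℂ}
    (hV : ∀ d, Tch z R (H192.me d) → nbh d ⊆ V) {a b : Node}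
    (hJ : Jn (nod S) z R ω (gM p k A M) (aL S) a b)
    (ha : ps a ∈ (O1 (S : Set (ℤ × ℤ)) \ zM p k A δ M) ∩ V) :
    JoinedIn ((O1 (S : Set (ℤ × ℤ)) \ zM p k A δ M) ∩ V) (ps a) (ps b) := by
  have hM := h.le
  have hpos : ∀ m, Tch z R (H192.me (run p k A m)) → 0 < m := by
    intro m hm
    rcases Nat.eq_zero_or_pos m with rfl | h0
    · exact absurd hm h.st
    · exact h0
  have hcs : ∀ i, 0 < i → i ≤ M → run p k A i ≠ cs p := by
    intro i h1 h2 h3
    rw [← run_zero (p := p) (k := k) (A := A)] at h3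
    have := run_inj' hp hS hk hA i (by omega) 0 (Nat.zero_le _) h3
    omega
  have hmem := fun m => run_mem (k := k) hp hS hA m
  induction hJ with
  | refl => exact JoinedIn.refl ha
  | @tail b d _ hs ih =>
    refine ih.trans ?_
    rcases hs with ⟨e, h1, h2, h3, c, rfl, rfl⟩ | ⟨e, h1, h2, e', h3, c, rfl, rfl⟩
    · obtain ⟨d, rfl⟩ := H192.meE.surjective e
      change (H192.me' (H192.me d)).1 ∈ verts S at h1
      change H192.me d ∉ gM p k A M at h2
      change Tch z R (H192.me d) at h3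
      rw [H192.me'_me] at h1
      have h4 := unit_join (δ := δ) (V := V) hp hS hk hA hδ hM h1
        (fun m hm hd => h2 ⟨m, hm, by rw [hd]⟩) (hV d h3)
      show JoinedIn _ (ps ((nod S).nd c (H192.me d))) (ps ((nod S).nd (!c) (H192.me d)))
      rw [nod_me, nod_me]
      cases c
      · exact h4.symm
      · exact h4
    · obtain ⟨m, hm, rfl⟩ := h1
      obtain ⟨m', hm', rfl, h4⟩ := h.arc hp hS hk hA hm h3
      have h5 : Tch z R (H192.me (run p k A m')) := arc_tch h2 h3
      have p1 := hpos m h2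
      have p2 := hpos m' h5
      rw [nod_me, nod_me]
      have hV' : ∀ i, min m m' ≤ i → i < max m m' → nbh (run p k A i) ⊆ V := fun i g1 g2 =>
        hV _ (Or.inl (h4 i g1 g2))
      have hside : JoinedIn ((O1 (S : Set (ℤ × ℤ)) \ zM p k A δ M) ∩ V) (sid c (run p k A m))
          (sid c (run p k A m')) := by
        rcases le_total m m' with hle | hle
        · rw [min_eq_left hle, max_eq_right hle] at hV'
          exact side_join hp hS hk hA hδ hM c p1 m' hle hm' hV'
            ⟨sid_free hp hS hk hA hδ hM c (hmem m) (hcs m p1 hm), hV _ h2 (sid_nbh c _)⟩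
        · rw [min_eq_right hle, max_eq_left hle] at hV'
          exact (side_join hp hS hk hA hδ hM c p2 m hle hm hV'
            ⟨sid_free hp hS hk hA hδ hM c (hmem m') (hcs m' p2 hm'), hV _ h5 (sid_nbh c _)⟩).symm
      exact ((side_node hp hS hk hA hδ hM c (hmem m) (hcs m p1 hm) (hV _ h2)).symm.trans
        hside).trans (side_node hp hS hk hA hδ hM c (hmem m') (hcs m' p2 hm') (hV _ h5))

end

end Vale.Agent.P167.H531.K
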