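import Vale.Agent.P167.H531.Q.Br2

/-!
# P167, general `q`, continuity: the bridge between the lattice and the slit domain (3)

From a path in the domain to a chain of nodes.
-/

set_option autoImplicit false
set_option linter.unusedVariables false
set_option linter.unusedSectionVars false

open Set Metric Relation

namespace Vale.Agent.P167.H531.K

open Vale.Agent.P167.E6 Vale.Agent.P167.E2 Vale.Agent.P167.Fjord
open Vale.Agent.P167.H166
open Vale.Agent.P167.H531.Q (Tch Gm)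

variable {S : Finset (ℤ × ℤ)}

/-- A unit step across a dart of `T`. -/
def Us (S : Finset (ℤ × ℤ)) (T : Set Medial) (a b : Node) : Prop :=
  ∃ d ∈ T, d.1 ∈ verts S ∧ ∃ c, a = ndm S c d ∧ b = ndm S (!c) d

theorem Us.symm {T : Set Medial} {a b : Node} (h : Us S T a b) : Us S T b a := by
  obtain ⟨d, h1, h2, c, h3, h4⟩ := h
  exact ⟨d, h1, h2, !c, h4, by rw [Bool.not_not]; exact h3⟩

theorem us_symm {T : Set Medial} {a b : Node} (h : ReflTransGen (Us S T) a b) :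
    ReflTransGen (Us S T) b a := by
  induction h with
  | refl => exact ReflTransGen.refl
  | tail _ h2 ih => exact ReflTransGen.head h2.symm ih

/-- The darts near `U`. -/
def Nr (U : Set ℂ) : Set Medial := {d | ∃ u ∈ U, dist u (pt d.1) ≤ 3}

theorem ndm_true (d : Medial) : ndm S true d = .V d.1 := if_pos rfl

theorem ndm_false {d : Medial} (h : fc d ∈ S) : ndm S false d = .F (fc d) := by
  unfold ndm
  rw [if_neg Bool.false_ne_true, if_pos h]

theorem ndm_false' {d : Medial} (h : fc d ∉ S) : ndm S false d = .O d := by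
  unfold ndm
  rw [if_neg Bool.false_ne_true, if_neg h]

/-- A vertex and a face of the domain. -/
theorem us_vf {T : Set Medial} {v : ℤ × ℤ} {r : Fin 4} (hf : face v r ∈ S) (hT : (v, r) ∈ T) :
    Us S T (.V v) (.F (face v r)) :=
  ⟨(v, r), hT, mem_verts.2 ⟨r, hf⟩, true, (ndm_true (v, r)).symm, (ndm_false (d := (v, r)) hf).symm⟩

theorem ef_dist {v : ℤ × ℤ} {r : Fin 4} {u : ℂ} (hu : u ∈ EF (face v r)) :
    dist u (pt v) ≤ 3 := by
  rw [dist_eq_norm]
  refine (Complex.norm_le_abs_re_add_abs_im _).trans ?_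
  rw [Complex.sub_re, Complex.sub_im, pt_re, pt_im]
  have key : ∀ r : Fin 4, u ∈ EF (face v r) → |u.re - v.1| ≤ 11 / 8 ∧ |u.im - v.2| ≤ 11 / 8 := by
    refine forall4 ?_ ?_ ?_ ?_ <;> rintro ⟨⟨h1, h2⟩, h3, h4⟩ <;>
      simp only [face0, face1, face2, face3] at h1 h2 h3 h4 <;> push_cast at h1 h2 h3 h4 <;>
      constructor <;> rw [abs_le] <;> constructor <;> linarith
  have h5 := key r hu
  linarith [h5.1, h5.2]

/-- Two overlapping enlarged faces have a common vertex. -/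
theorem ef_meet {f g : ℤ × ℤ} {u : ℂ} (hf : u ∈ EF f) (hg : u ∈ EF g) :
    ∃ (v : ℤ × ℤ) (r r' : Fin 4), face v r = f ∧ face v r' = g := by
  obtain ⟨⟨h1, h2⟩, h3, h4⟩ := hf
  obtain ⟨⟨g1, g2⟩, g3, g4⟩ := hg
  have a1 : f.1 ≤ g.1 + 1 := by
    have : (f.1 : ℝ) < g.1 + 2 := by linarith
    have : f.1 < g.1 + 2 := by exact_mod_cast this
    omega
  have a2 : g.1 ≤ f.1 + 1 := by
    have : (g.1 : ℝ) < f.1 + 2 := by linarith
    have : g.1 < f.1 + 2 := by exact_mod_cast this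
    omega
  have a3 : f.2 ≤ g.2 + 1 := by
    have : (f.2 : ℝ) < g.2 + 2 := by linarith
    have : f.2 < g.2 + 2 := by exact_mod_cast this
    omega
  have a4 : g.2 ≤ f.2 + 1 := by
    have : (g.2 : ℝ) < f.2 + 2 := by linarith
    have : g.2 < f.2 + 2 := by exact_mod_cast this
    omega
  obtain ⟨f1, f2⟩ := f
  obtain ⟨g1', g2'⟩ := g
  simp only at a1 a2 a3 a4
  have key : ∀ a b : ℤ × ℤ, (a.1 = b.1 ∨ a.1 = b.1 - 1) → (a.2 = b.2 ∨ a.2 = b.2 - 1) →
      ∃ r, face b r = a := by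
    intro a b h1 h2
    rcases h1 with h1 | h1 <;> rcases h2 with h2 | h2
    · exact ⟨0, by rw [face0]; exact Prod.ext h1.symm h2.symm⟩
    · exact ⟨3, by rw [face3]; exact Prod.ext h1.symm h2.symm⟩
    · exact ⟨1, by rw [face1]; exact Prod.ext h1.symm h2.symm⟩
    · exact ⟨2, by rw [face2]; exact Prod.ext h1.symm h2.symm⟩
  obtain ⟨r, hr⟩ := key (f1, f2) (max f1 g1', max f2 g2') (by simp only; omega) (by simp only; omega)
  obtain ⟨r', hr'⟩ := key (g1', g2') (max f1 g1', max f2 g2') (by simp only; omega)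
    (by simp only; omega)
  exact ⟨_, r, r', hr, hr'⟩

theorem us_ff {U : Set ℂ} {f g : ℤ × ℤ} (hf : f ∈ S) (hg : g ∈ S) {u : ℂ} (hu : u ∈ EF f)
    (hu' : u ∈ EF g) {u1 u2 : ℂ} (h1 : u1 ∈ U) (h1' : u1 ∈ EF f) (h2 : u2 ∈ U) (h2' : u2 ∈ EF g) :
    ReflTransGen (Us S (Nr U)) (.F f) (.F g) := by
  obtain ⟨v, r, r', rfl, rfl⟩ := ef_meet hu hu'
  exact (ReflTransGen.single (us_vf (T := Nr U) hf ⟨u1, h1, ef_dist h1'⟩).symm).tail
    (us_vf hg ⟨u2, h2, ef_dist h2'⟩)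

/-- **From a path to a chain.** -/
theorem chain_faces {U : Set ℂ} {x y : ℂ} (h : JoinedIn (O1 (S : Set (ℤ × ℤ)) ∩ U) x y)
    {f g : ℤ × ℤ} (hf : f ∈ S) (hg : g ∈ S) (hx : x ∈ EF f) (hy : y ∈ EF g) :
    ReflTransGen (Us S (Nr U)) (.F f) (.F g) := by
  classical
  by_contra hno
  obtain ⟨γ, hγ⟩ := h
  set T : Set (ℤ × ℤ) := {a | a ∈ S ∧ ∃ u ∈ U, u ∈ EF a} with hT
  set T1 : Set (ℤ × ℤ) := {a | a ∈ T ∧ ReflTransGen (Us S (Nr U)) (.F f) (.F a)} with hT1
  set T2 : Set (ℤ × ℤ) := {a | a ∈ T ∧ ¬ ReflTransGen (Us S (Nr U)) (.F f) (.F a)} with hT2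
  have hop : ∀ a, IsOpen (EF a) := by
    intro a
    have e : EF a = {z : ℂ | ((a.1 : ℝ) - 3 / 8 < z.re ∧ z.re < a.1 + 11 / 8) ∧
      (a.2 : ℝ) - 3 / 8 < z.im ∧ z.im < a.2 + 11 / 8} := rfl
    rw [e]
    exact ((isOpen_lt continuous_const Complex.continuous_re).inter
      (isOpen_lt Complex.continuous_re continuous_const)).inter
      ((isOpen_lt continuous_const Complex.continuous_im).inter
      (isOpen_lt Complex.continuous_im continuous_const))
  have hx0 : x ∈ U := by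
    have := (hγ 0).2
    rwa [γ.source] at this
  have hy0 : y ∈ U := by
    have := (hγ 1).2
    rwa [γ.target] at this
  have hsub : range γ ⊆ (⋃ a ∈ T1, EF a) ∪ ⋃ a ∈ T2, EF a := by
    rintro _ ⟨t, rfl⟩
    obtain ⟨⟨a, ha, b1, b2, b3, b4⟩, hu⟩ := hγ t
    have hEF : γ t ∈ EF a := ⟨⟨b1, b2⟩, b3, b4⟩
    have haT : a ∈ T := ⟨ha, γ t, hu, hEF⟩
    by_cases hr : ReflTransGen (Us S (Nr U)) (.F f) (.F a)
    · exact Or.inl (mem_biUnion (show a ∈ T1 from ⟨haT, hr⟩) hEF)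
    · exact Or.inr (mem_biUnion (show a ∈ T2 from ⟨haT, hr⟩) hEF)
  have hdis : Disjoint (⋃ a ∈ T1, EF a) (⋃ a ∈ T2, EF a) := by
    rw [Set.disjoint_left]
    intro u hu1 hu2
    rw [mem_iUnion₂] at hu1 hu2
    obtain ⟨a, ⟨⟨ha, u1, h1, h1'⟩, hr⟩, hua⟩ := hu1
    obtain ⟨b, ⟨⟨hb, u2, h2, h2'⟩, hr'⟩, hub⟩ := hu2
    exact hr' (hr.trans (us_ff ha hb hua hub h1 h1' h2 h2'))
  have hpre : IsPreconnected (range γ) := isPreconnected_range γ.continuous
  have hfT1 : f ∈ T1 := ⟨⟨hf, x, hx0, hx⟩, ReflTransGen.refl⟩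
  have hgT2 : g ∈ T2 := ⟨⟨hg, y, hy0, hy⟩, hno⟩
  have h3 := hpre.subset_left_of_subset_union (isOpen_biUnion fun a _ => hop a)
    (isOpen_biUnion fun a _ => hop a) hdis hsub
    ⟨x, ⟨0, γ.source⟩, mem_biUnion hfT1 hx⟩
  exact Set.disjoint_left.1 hdis (h3 ⟨1, γ.target⟩) (mem_biUnion hgT2 hy)

/-- The nodes of the domain. -/
def Good (S : Finset (ℤ × ℤ)) : Node → Prop
  | .V v => v ∈ verts S
  | .F f => f ∈ S
  | .O d => d.1 ∈ verts S ∧ fc d ∉ S

/-- From a node to a face. -/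
theorem node_face {U : Set ℂ} {a : Node} (ha : Good S a) (hU : ps a ∈ U) :
    ∃ f ∈ S, ps a ∈ EF f ∧ ReflTransGen (Us S (Nr U)) a (.F f) := by
  cases a with
  | V v =>
    obtain ⟨r, hr⟩ := mem_verts.1 ha
    exact ⟨_, hr, pt_EF v r, ReflTransGen.single (us_vf hr ⟨_, hU, ef_dist (pt_EF v r)⟩)⟩
  | F f => exact ⟨f, ha, ctr_EF f, ReflTransGen.refl⟩
  | O d =>
    obtain ⟨h1, h2⟩ := ha
    obtain ⟨r, hr⟩ := mem_verts.1 h1
    have h3 : cpt (5 / 16) d ∈ EF (face d.1 r) := cpt_EF (by norm_num) (by norm_num) d r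
    have h4 : dist (cpt (5 / 16) d) (pt d.1) ≤ 3 := ef_dist h3
    refine ⟨_, hr, h3, (ReflTransGen.single ?_).tail (us_vf hr ⟨_, hU, h4⟩)⟩
    exact ⟨d, ⟨_, hU, h4⟩, h1, false, (ndm_false' h2).symm, (ndm_true d).symm⟩

/-- **From a path to a chain of nodes.** -/
theorem chain_nodes {U : Set ℂ} {a b : Node} (ha : Good S a) (hb : Good S b)
    (h : JoinedIn (O1 (S : Set (ℤ × ℤ)) ∩ U) (ps a) (ps b)) :
    ReflTransGen (Us S (Nr U)) a b := by
  obtain ⟨f, f1, f2, f3⟩ := node_face ha h.source_mem.2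
  obtain ⟨g, g1, g2, g3⟩ := node_face hb h.target_mem.2
  exact (f3.trans (chain_faces h f1 g1 f2 g2)).trans (us_symm g3)

/-- Indexed form. -/
theorem chain_index {T : Set Medial} {a b : Node} (h : ReflTransGen (Us S T) a b) :
    ∃ (m : ℕ) (P : ℕ → Node) (D : ℕ → Medial), P 0 = a ∧ P m = b ∧ ∀ i < m, D i ∈ T ∧
      (D i).1 ∈ verts S ∧ ∃ c, P i = ndm S c (D i) ∧ P (i + 1) = ndm S (!c) (D i) := by
  induction h with
  | refl => exact ⟨0, fun _ => a, fun _ => ((0, 0), 0), rfl, rfl, fun i hi => absurd hi (by omega)⟩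
  | @tail b c _ hs ih =>
    obtain ⟨m, P, D, h1, h2, h3⟩ := ih
    obtain ⟨d, d1, d2, cc, d3, d4⟩ := hs
    refine ⟨m + 1, fun i => if i ≤ m then P i else c, fun i => if i < m then D i else d, ?_, ?_, ?_⟩
    · simp only [Nat.zero_le, if_true]; exact h1
    · simp only [show ¬ (m + 1 ≤ m) by omega, if_false]
    · intro i hi
      rcases lt_or_eq_of_le (Nat.lt_succ_iff.1 hi) with h4 | h4
      · simp only [h4, if_true, show i ≤ m by omega, show i + 1 ≤ m by omega]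
        exact h3 i h4
      · subst h4
        simp only [lt_irrefl, if_false, le_refl, if_true, show ¬ (i + 1 ≤ i) by omega]
        exact ⟨d1, d2, cc, by rw [h2]; exact d3, d4⟩

end Vale.Agent.P167.H531.K
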