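import Vale.Agent.P167.H531.Q.Br3

/-!
# P167, general `q`, continuity: a conflict pair of the slit domain with an arm gives three strands

`bad_det` (for nodes): the deterministic inclusion of the block GEO-BAD.
-/

set_option autoImplicit false
set_option linter.unusedVariables false
set_option linter.unusedSectionVars false

open Set Metric Relation

namespace Vale.Agent.P167.H531.K

open Vale.Agent.P145.FB (PStep)
open Vale.Agent.P167.E6 Vale.Agent.P167.E2 Vale.Agent.P167.Fjord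
open Vale.Agent.P167.H166
open Vale.Agent.P167.H531.Q (Tch Gm M3 Sm BC bq_mono')

variable {n : ℕ} {p : ZMod n → ℤ × ℤ} {S : Finset (ℤ × ℤ)} {k : ℕ} {A : Finset (Sym2 (ℤ × ℤ))}
  {z : ℤ × ℤ} {R r h : ℤ} {ω : Cfg} {M M0 : ℕ} {δ : ℝ}

theorem zM_mono (h : M0 ≤ M) : zM p k A δ M0 ⊆ zM p k A δ M := by
  intro w hw
  obtain ⟨t, ht, e⟩ := hw
  exact ⟨t, ⟨ht.1, ht.2.trans (by gcongr)⟩, e⟩

/-- The slit domain at mesh `1`. -/
def sD1 (p : ZMod n → ℤ × ℤ) (k : ℕ) (S : Finset (ℤ × ℤ)) (A : Finset (Sym2 (ℤ × ℤ))) (δ : ℝ)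
    (M : ℕ) : Set ℂ := O1 (S : Set (ℤ × ℤ)) \ zM p k A δ M

theorem sD1_anti (h : M0 ≤ M) : sD1 p k S A δ M ⊆ sD1 p k S A δ M0 :=
  Set.sdiff_subset_sdiff_right (zM_mono h)

/-- The side `c` of the path is seen from `x` in `W`. -/
def Sees (p : ZMod n → ℤ × ℤ) (k : ℕ) (S : Finset (ℤ × ℤ)) (A : Finset (Sym2 (ℤ × ℤ))) (δ : ℝ)
    (M : ℕ) (W : Set ℂ) (x : ℂ) (c : Bool) : Prop :=
  ∃ m < M, JoinedIn (sD1 p k S A δ M ∩ W) x (sid c (run p k A m))

/-- A node is a side of a dart. -/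
theorem good_ndm {U : Set ℂ} {a : Node} (ha : Good S a) (hU : ps a ∈ U) :
    ∃ d ∈ Nr U, d.1 ∈ verts S ∧ ∃ c, a = ndm S c d := by
  cases a with
  | V v =>
    obtain ⟨r, hr⟩ := mem_verts.1 ha
    exact ⟨(v, r), ⟨_, hU, ef_dist (pt_EF v r)⟩, ha, true, (ndm_true (v, r)).symm⟩
  | F f =>
    have e : face f 0 = f := by rw [face0]
    have h1 : fc (f, 0) ∈ S := by show face f 0 ∈ S; rw [e]; exact ha
    have h2 : ctr f ∈ EF (face f 0) := by rw [e]; exact ctr_EF f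
    refine ⟨(f, 0), ⟨_, hU, ef_dist h2⟩, mem_verts.2 ⟨0, h1⟩, false, ?_⟩
    rw [ndm_false h1]
    show Node.F f = .F (face f 0)
    rw [e]
  | O d =>
    obtain ⟨h1, h2⟩ := ha
    obtain ⟨r, hr⟩ := mem_verts.1 h1
    have h3 : cpt (5 / 16) d ∈ EF (face d.1 r) := cpt_EF (by norm_num) (by norm_num) d r
    exact ⟨d, ⟨_, hU, ef_dist h3⟩, h1, false, (ndm_false' h2).symm⟩

section

variable (hp : IsPolygon p) (hS : Encloses p S) (hk : k + 1 < n) (hA : A ⊆ edges S)
include hp hS hk hA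

theorem ndm_free (hδ : 0 < δ) (hM : M ≤ len p k A) (c : Bool) {d : Medial}
    (hv : d.1 ∈ verts S) (hd : d ≠ cs p) : ps (ndm S c d) ∈ sD1 p k S A δ M :=
  (side_node hp hS hk hA hδ hM (V := univ) c hv hd (subset_univ _)).target_mem.1

/-- **The deterministic inclusion (chains).** -/
theorem bad_chain (hδ : 0 < δ) (hM0 : M0 ≤ len p k A)
    (hω : ∀ m ≤ len p k A, hdv (H192.me (run p k A m)) ∈ FK.Bq z R →
      ω (hdv (H192.me (run p k A m))) =
        H192.cfg (wiredOpen p k A) (hdv (H192.me (run p k A m))))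
    (hst : ¬ Tch z R (H192.me (cs p))) (hen : hdv (H192.me (ce p k)) ∉ FK.Bq z R)
    {V : Set ℂ} (hV : ∀ d, Tch z R (H192.me d) → nbh d ⊆ V) {U W : Set ℂ} {Q : Set (ℤ × ℤ)}
    (hQ : Sm z r h Q) (hrR : r ≤ R) (hUQ : ∀ d ∈ Nr U, hdv (H192.me d) ∈ Q)
    (hW : ∀ d ∈ Nr U, nbh d ⊆ W) {a b : Node} (ha : Good S a) (haU : ps a ∈ U) {m : ℕ}
    {P : ℕ → Node} {D : ℕ → Medial} (hP0 : P 0 = a) (hPm : P m = b)
    (hch : ∀ i < m, D i ∈ Nr U ∧ (D i).1 ∈ verts S ∧
      ∃ c, P i = ndm S c (D i) ∧ P (i + 1) = ndm S (!c) (D i))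
    (hn : ¬ JoinedIn (sD1 p k S A δ M0 ∩ V) (ps a) (ps b)) {c : Bool}
    (sa : ¬ Sees p k S A δ M0 W (ps a) (!c))
    (sb : ¬ Sees p k S A δ M0 W (ps b) (!c) ∨ ∃ m', m = m' + 1 ∧ D m' = run p k A M0)
    (htip : Tch z R (H192.me (run p k A M0)) → ∀ c',
      ¬ JoinedIn (sD1 p k S A δ M0 ∩ V) (ps a) (sid c' (run p k A M0)))
    {t : ℤ × ℤ} (hq : (((nod S).cor a).1 + ((nod S).cor a).2) % 2 = QC.par (!c))
    (hqt : ReflTransGen (PStep {v | v ∈ FK.Bq z R ∧ ω v = !c}) ((nod S).cor a) t)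
    (ht : BC z R t) : M3 z R r h ω := by
  classical
  have hk' : k < n := by omega
  have hB : ∀ v ∈ Q, v ∈ FK.Bq z R := fun v hv => bq_mono' hrR (hQ.b v hv)
  have hTc : ∀ d ∈ Nr U, Tch z R (H192.me d) := fun d hd => Or.inl (hB _ (hUQ d hd))
  -- the exit
  have hex : ∃ i, M0 ≤ i ∧ hdv (H192.me (run p k A i)) ∉ FK.Bq z R :=
    ⟨len p k A, hM0, by rw [run_len hp hS hk' hA]; exact hen⟩
  obtain ⟨hM1, hM2⟩ := Nat.find_spec hex
  have hM3 : ∀ i, M0 ≤ i → i < Nat.find hex → hdv (H192.me (run p k A i)) ∈ FK.Bq z R :=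
    fun i h1 h2 => by_contra fun h3 => Nat.find_min hex h2 ⟨h1, h3⟩
  have hM4 : Nat.find hex ≤ len p k A :=
    Nat.find_min' hex ⟨hM0, by rw [run_len hp hS hk' hA]; exact hen⟩
  set M := Nat.find hex with hMdef
  clear_value M
  have hRn : Rn p k A z R ω M := ⟨fun m hm => hω m (by omega), hst, hM2, hM4⟩
  have hG := hRn.gm
  have hanti := sD1_anti (p := p) (k := k) (S := S) (A := A) (δ := δ) hM1
  have hcs : ∀ d ∈ Nr U, d ≠ cs p := by
    rintro d hd rfl
    exact hst (hTc _ hd)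
  -- the nodes are free
  have hfa : ∀ a : Node, Good S a → ps a ∈ U → ps a ∈ sD1 p k S A δ M ∧ ps a ∈ V ∧ ps a ∈ W := by
    intro a ha hU
    obtain ⟨d, h1, h2, c', rfl⟩ := good_ndm ha hU
    exact ⟨ndm_free hp hS hk hA hδ hM4 c' h2 (hcs d h1), hV d (hTc d h1) (ps_nbh c' d),
      hW d h1 (ps_nbh c' d)⟩
  obtain ⟨fa1, fa2, fa3⟩ := hfa a ha haU
  have hs : ∀ i < m, US (nod S) z R (aL S) (P i) (P (i + 1)) (H192.me (D i)) := by
    intro i hi
    obtain ⟨h1, h2, c', h3, h4⟩ := hch i hi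
    refine ⟨?_, hTc _ h1, c', ?_, ?_⟩
    · show (H192.me' (H192.me (D i))).1 ∈ verts S
      rw [H192.me'_me]
      exact h2
    · rw [nod_me]; exact h3
    · rw [nod_me]; exact h4
  have hJJ : ∀ {x y : Node}, Jn (nod S) z R ω (gM p k A M) (aL S) x y →
      ps x ∈ sD1 p k S A δ M ∩ V → JoinedIn (sD1 p k S A δ M0 ∩ V) (ps x) (ps y) := by
    intro x y hJ hx
    exact (jn_joined hp hS hk hA hRn hδ hV hJ hx).mono
      (inter_subset_inter_left _ hanti)
  have nj : ¬ Jn (nod S) z R ω (gM p k A M) (aL S) (P 0) (P m) := by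
    intro hJ
    rw [hP0, hPm] at hJ
    exact hn (hJJ hJ ⟨fa1, fa2⟩)
  -- parts of the chain off the path
  have hoff : ∀ i j, i ≤ j → j ≤ m → (∀ l, i ≤ l → l < j → H192.me (D l) ∉ gM p k A M) →
      Jn (nod S) z R ω (gM p k A M) (aL S) (P i) (P j) ∧
      (ps (P i) ∈ sD1 p k S A δ M ∩ W →
        JoinedIn (sD1 p k S A δ M ∩ W) (ps (P i)) (ps (P j))) := by
    intro i j hij
    induction j, hij using Nat.le_induction with
    | base => intro _ _; exact ⟨ReflTransGen.refl, fun h => JoinedIn.refl h⟩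
    | succ j hij ih =>
      intro hj hl
      obtain ⟨i1, i2⟩ := ih (by omega) fun l h1 h2 => hl l h1 (by omega)
      obtain ⟨g1, g2, c', g3, g4⟩ := hs j (by omega)
      have g5 := hl j hij (by omega)
      refine ⟨i1.tail (Or.inl ⟨_, g1, g5, g2, c', g3, g4⟩), fun hi => (i2 hi).trans ?_⟩
      obtain ⟨k1, k2, c'', k3, k4⟩ := hch j (by omega)
      have k5 := unit_join (δ := δ) hp hS hk hA hδ hM4 k2
        (fun l hl' he => g5 ⟨l, hl', by rw [he]⟩) (hW _ k1)
      rw [k3, k4]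
      cases c''
      · exact k5.symm
      · exact k5
  have hexx : ∃ i, i < m ∧ H192.me (D i) ∈ gM p k A M := by
    by_contra hno
    push Not at hno
    exact nj (hoff 0 m (Nat.zero_le _) le_rfl fun l _ h2 => hno l h2).1
  -- an edge of the future is in the strand of the tip
  have htipA : ∀ l, M0 ≤ l → l ≤ M → H192.me (run p k A M0) ∈
      Arc (FK.Bq z R) ω (H192.me (run p k A l)) := by
    intro l h1 h2
    right
    have key : ∀ j, M0 + j ≤ M → (nx ω)^[j] (H192.me (run p k A M0)) =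
        H192.me (run p k A (M0 + j)) := by
      intro j
      induction j with
      | zero => intro _; rfl
      | succ j ih =>
        intro hj
        rw [Function.iterate_succ_apply', ih (by omega),
          hRn.nxt (by omega) (hM3 _ (by omega) (by omega))]
        rfl
    refine ⟨l - M0, ?_, fun i hi => ?_⟩
    · rw [key (l - M0) (by omega), show M0 + (l - M0) = l by omega]
    · rw [key i (by omega)]
      exact hM3 _ (by omega) (by omega)
  -- not joined to the strand of the tip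
  have hnt : ∀ l, M0 ≤ l → l ≤ M → Tch z R (H192.me (run p k A l)) →
      ∀ e ∈ Arc (FK.Bq z R) ω (H192.me (run p k A l)), ∀ c',
        ¬ Jn (nod S) z R ω (gM p k A M) (aL S) (P 0) ((nod S).nd c' e) := by
    intro l h1 h2 h3 e he c' hJ
    have h4 := htipA l h1 h2
    have h5 : H192.me (run p k A M0) ∈ Arc (FK.Bq z R) ω e := Arc.trans (Arc.symm he) h4
    have heT := arc_tch h3 he
    have heG : e ∈ gM p k A M := hG.sub ⟨l, h2, rfl⟩ he
    have hJ2 := hJ.trans (bank heG heT h5 c')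
    rw [nod_me, hP0] at hJ2
    have h6 := hJJ hJ2 ⟨fa1, fa2⟩
    have hT0 : Tch z R (H192.me (run p k A M0)) := arc_tch h3 h4
    have h7 : run p k A M0 ≠ cs p := by
      intro h8
      rw [h8] at hT0
      exact hst hT0
    have h8 := (side_node hp hS hk hA hδ hM4 (V := V) c' (run_mem hp hS hA M0) h7
      (hV _ hT0)).mono (inter_subset_inter_left _ hanti)
    exact htip hT0 c' (h6.trans h8.symm)
  -- an edge of the path which is seen
  have hseen : ∀ x : ℂ, ∀ i < m, ∀ c', ∀ l < M0, H192.me (D i) = H192.me (run p k A l) →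
      JoinedIn (sD1 p k S A δ M ∩ W) x (ps (ndm S c' (D i))) →
      Sees p k S A δ M0 W x c' := by
    intro x i hi c' l hl he hJ
    have h1 : D i = run p k A l := H192.me_inj he
    obtain ⟨k1, k2, -⟩ := hch i hi
    refine ⟨l, hl, ?_⟩
    have h3 := side_node hp hS hk hA hδ hM4 (V := W) c' k2 (hcs _ k1) (hW _ k1)
    rw [← h1]
    exact ((hJ.trans h3.symm).mono (inter_subset_inter_left _ hanti))
  -- the first edge
  obtain ⟨hi0, hiG⟩ := Nat.find_spec hexx
  have hmin : ∀ j < Nat.find hexx, H192.me (D j) ∉ gM p k A M := fun j hj hG' =>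
    Nat.find_min hexx hj ⟨by omega, hG'⟩
  set i0 := Nat.find hexx with hi0def
  clear_value i0
  have hoff0 := hoff 0 i0 (Nat.zero_le _) hi0.le fun l _ h2 => hmin l h2
  obtain ⟨l0, hl0, hl0e⟩ := hiG
  obtain ⟨k1, k2, c0, k3, k4⟩ := hch i0 hi0
  have hl0M : l0 < M0 := by
    by_contra hcon
    push Not at hcon
    have h3 : Tch z R (H192.me (run p k A l0)) := by rw [← hl0e]; exact hTc _ k1
    refine hnt l0 hcon hl0 h3 _ (self_mem_Arc _ _ _) c0 ?_
    rw [← hl0e, nod_me, ← k3]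
    exact hoff0.1
  have hc0 : c0 = c := by
    by_contra hne
    have h3 : c0 = !c := by revert hne; cases c0 <;> cases c <;> simp
    refine sa (hseen _ i0 hi0 (!c) l0 hl0M hl0e ?_)
    rw [← h3, ← k3, ← hP0]
    exact hoff0.2 (by rw [hP0]; exact ⟨fa1, fa3⟩)
  subst hc0
  -- the last edge
  set j0 := Nat.findGreatest (fun j => j < m ∧ H192.me (D j) ∈ gM p k A M) m with hj0
  have hj0s : j0 < m ∧ H192.me (D j0) ∈ gM p k A M :=
    Nat.findGreatest_spec (P := fun j => j < m ∧ H192.me (D j) ∈ gM p k A M) hi0.le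
      ⟨hi0, l0, hl0, hl0e⟩
  have hj0m : ∀ i, j0 < i → i < m → H192.me (D i) ∉ gM p k A M := fun i h1 h2 h3 =>
    Nat.findGreatest_is_greatest h1 h2.le ⟨h2, h3⟩
  clear_value j0
  have hoffn := hoff (j0 + 1) m (by omega) le_rfl fun l h1 h2 => hj0m l (by omega) h2
  obtain ⟨hj0lt, l1, hl1, hl1e⟩ := hj0s
  obtain ⟨q1, q2, c1, q3, q4⟩ := hch j0 hj0lt
  refine conflict (ν := nod S) (AL := aL S) hG hrR hQ (c := c0) (n := m) (p := P)
    (E := fun i => H192.me (D i)) hs (fun i hi => hUQ _ (hch i hi).1) nj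
    ⟨i0, hi0, hmin, ⟨l0, hl0, hl0e⟩, by rw [nod_me]; exact k3⟩
    {e | ∃ l, M0 ≤ l ∧ l ≤ M ∧ e = H192.me (run p k A l)}
    ⟨j0, hj0lt, hj0m, ⟨l1, hl1, hl1e⟩, ?_⟩ ?_ (by rw [hP0]; exact hq) (by rw [hP0]; exact hqt) ht
  · by_cases htp : ∃ l, M0 ≤ l ∧ l ≤ M ∧ H192.me (D j0) = H192.me (run p k A l)
    · exact Or.inr htp
    · left
      have hl1M : l1 < M0 := by
        by_contra hcon
        exact htp ⟨l1, not_lt.1 hcon, hl1, hl1e⟩
      have sb : ¬ Sees p k S A δ M0 W (ps b) (!c0) := by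
        rcases sb with sb | ⟨m', rfl, hm'⟩
        · exact sb
        · exfalso
          have h1 : j0 = m' := by
            by_contra hne
            exact hj0m m' (by omega) (by omega) ⟨M0, hM1, by rw [hm']⟩
          subst h1
          exact htp ⟨M0, le_rfl, hM1, by rw [hm']⟩
      rw [nod_me, q4]
      congr 1
      by_contra hne
      have h3 : (!c1) = !c0 := by revert hne; cases c1 <;> cases c0 <;> simp
      refine sb (hseen _ j0 hj0lt (!c0) l1 hl1M hl1e ?_)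
      rw [← h3, ← q4, ← hPm]
      have hmem : ps (P (j0 + 1)) ∈ sD1 p k S A δ M ∩ W := by
        rw [q4]
        exact ⟨ndm_free hp hS hk hA hδ hM4 _ q2 (hcs _ q1), hW _ q1 (ps_nbh _ _)⟩
      exact (hoffn.2 hmem).symm
  · rintro j hj ⟨l, h1, h2, h3⟩ e he c'
    have h3' : H192.me (D j) = H192.me (run p k A l) := h3
    have h4 : Tch z R (H192.me (run p k A l)) := by
      rw [← h3']
      exact hTc _ (hch j hj).1
    have he' : e ∈ Arc (FK.Bq z R) ω (H192.me (run p k A l)) := by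
      rw [← h3']
      exact he
    exact hnt l h1 h2 h4 e he' c'

/-- **The deterministic inclusion (nodes).** -/
theorem bad_nodes (hδ : 0 < δ) (hM0 : M0 ≤ len p k A)
    (hω : ∀ m ≤ len p k A, hdv (H192.me (run p k A m)) ∈ FK.Bq z R →
      ω (hdv (H192.me (run p k A m))) =
        H192.cfg (wiredOpen p k A) (hdv (H192.me (run p k A m))))
    (hst : ¬ Tch z R (H192.me (cs p))) (hen : hdv (H192.me (ce p k)) ∉ FK.Bq z R)
    {V : Set ℂ} (hV : ∀ d, Tch z R (H192.me d) → nbh d ⊆ V) {U W : Set ℂ} {Q : Set (ℤ × ℤ)}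
    (hQ : Sm z r h Q) (hrR : r ≤ R) (hUQ : ∀ d ∈ Nr U, hdv (H192.me d) ∈ Q)
    (hW : ∀ d ∈ Nr U, nbh d ⊆ W) {a b : Node} (ha : Good S a) (hb : Good S b)
    (hab : JoinedIn (O1 (S : Set (ℤ × ℤ)) ∩ U) (ps a) (ps b))
    (hn : ¬ JoinedIn (sD1 p k S A δ M0 ∩ V) (ps a) (ps b)) {c : Bool}
    (sa : ¬ Sees p k S A δ M0 W (ps a) (!c)) (sb : ¬ Sees p k S A δ M0 W (ps b) (!c))
    (htip : Tch z R (H192.me (run p k A M0)) → ∀ c',
      ¬ JoinedIn (sD1 p k S A δ M0 ∩ V) (ps a) (sid c' (run p k A M0)))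
    {t : ℤ × ℤ} (hq : (((nod S).cor a).1 + ((nod S).cor a).2) % 2 = QC.par (!c))
    (hqt : ReflTransGen (PStep {v | v ∈ FK.Bq z R ∧ ω v = !c}) ((nod S).cor a) t)
    (ht : BC z R t) : M3 z R r h ω := by
  obtain ⟨m, P, D, hP0, hPm, hch⟩ := chain_index (chain_nodes ha hb hab)
  exact bad_chain hp hS hk hA hδ hM0 hω hst hen hV hQ hrR hUQ hW ha hab.source_mem.2 hP0 hPm hch hn
    sa (Or.inl sb) htip hq hqt ht

/-- **The deterministic inclusion near the tip (nodes).** The second end is the tip. -/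
theorem tip_nodes (hδ : 0 < δ) (hM0 : M0 ≤ len p k A)
    (hω : ∀ m ≤ len p k A, hdv (H192.me (run p k A m)) ∈ FK.Bq z R →
      ω (hdv (H192.me (run p k A m))) =
        H192.cfg (wiredOpen p k A) (hdv (H192.me (run p k A m))))
    (hst : ¬ Tch z R (H192.me (cs p))) (hen : hdv (H192.me (ce p k)) ∉ FK.Bq z R)
    {V : Set ℂ} (hV : ∀ d, Tch z R (H192.me d) → nbh d ⊆ V) {U W : Set ℂ} {Q : Set (ℤ × ℤ)}
    (hQ : Sm z r h Q) (hrR : r ≤ R) (hUQ : ∀ d ∈ Nr U, hdv (H192.me d) ∈ Q)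
    (hW : ∀ d ∈ Nr U, nbh d ⊆ W) {a : Node} (ha : Good S a)
    (hab : JoinedIn (O1 (S : Set (ℤ × ℤ)) ∩ U) (ps a) (pt (run p k A M0).1)) {c : Bool}
    (sa : ¬ Sees p k S A δ M0 W (ps a) (!c))
    (htip : Tch z R (H192.me (run p k A M0)) → ∀ c',
      ¬ JoinedIn (sD1 p k S A δ M0 ∩ V) (ps a) (sid c' (run p k A M0)))
    {t : ℤ × ℤ} (hq : (((nod S).cor a).1 + ((nod S).cor a).2) % 2 = QC.par (!c))
    (hqt : ReflTransGen (PStep {v | v ∈ FK.Bq z R ∧ ω v = !c}) ((nod S).cor a) t)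
    (ht : BC z R t) : M3 z R r h ω := by
  have hk' : k < n := by omega
  have hv := run_mem hp hS hA (k := k) M0
  have hb : Good S (.V (run p k A M0).1) := hv
  have hab' : JoinedIn (O1 (S : Set (ℤ × ℤ)) ∩ U) (ps a) (ps (.V (run p k A M0).1)) := hab
  have hNr : run p k A M0 ∈ Nr U := ⟨_, hab.target_mem.2, by rw [dist_self]; norm_num⟩
  have hTc : Tch z R (H192.me (run p k A M0)) := Or.inl (bq_mono' hrR (hQ.b _ (hUQ _ hNr)))
  have hne : run p k A M0 ≠ cs p := by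
    intro h8
    rw [h8] at hTc
    exact hst hTc
  obtain ⟨m, P, D, hP0, hPm, hch⟩ := chain_index (chain_nodes ha hb hab')
  refine bad_chain hp hS hk hA hδ hM0 hω hst hen hV hQ hrR hUQ hW ha hab.source_mem.2 (m := m + 1)
    (P := fun i => if i ≤ m then P i else ndm S false (run p k A M0))
    (D := fun i => if i < m then D i else run p k A M0) (b := ndm S false (run p k A M0))
    (by simp only [Nat.zero_le, if_true]; exact hP0)
    (by simp only [show ¬ (m + 1 ≤ m) by omega, if_false]) ?_ ?_ sa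
    (Or.inr ⟨m, rfl, by simp only [lt_irrefl, if_false]⟩) htip hq hqt ht
  · intro i hi
    rcases lt_or_eq_of_le (Nat.lt_succ_iff.1 hi) with h4 | h4
    · simp only [h4, if_true, show i ≤ m by omega, show i + 1 ≤ m by omega]
      exact hch i h4
    · subst h4
      simp only [lt_irrefl, if_false, le_refl, if_true, show ¬ (i + 1 ≤ i) by omega]
      exact ⟨hNr, hv, true, by rw [hPm, ndm_true], rfl⟩
  · intro hJ
    refine htip hTc false (hJ.trans ?_)
    exact (side_node hp hS hk hA hδ hM0 (V := V) false hv hne (hV _ hTc)).symm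

end

end Vale.Agent.P167.H531.K
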