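import Vale.Agent.P167.H531.Q.Br4

/-!
# P167, general `q`, continuity: the bridge between the lattice and the slit domain (4)

Every point of the slit domain is joined to a node next to it.
-/

set_option autoImplicit false
set_option linter.unusedVariables false
set_option linter.unusedSectionVars false

open Set Metric Relation

namespace Vale.Agent.P167.H531.K

open Vale.Agent.P145.FB (PStep)
open Vale.Agent.P167.E6 Vale.Agent.P167.E2 Vale.Agent.P167.Fjord
open Vale.Agent.P167.H166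
open Vale.Agent.P167.H531.Q (Tch Gm M3 Sm BC bq_mono')

variable {n : ℕ} {p : ZMod n → ℤ × ℤ} {S : Finset (ℤ × ℤ)} {k : ℕ} {A : Finset (Sym2 (ℤ × ℤ))}
  {z : ℤ × ℤ} {R r h : ℤ} {ω : Cfg} {M M0 : ℕ} {δ : ℝ} {w : ℂ}

theorem near_dist {x y : ℂ} (h1 : |y.re - x.re| ≤ 1) (h2 : |y.im - x.im| ≤ 1) : dist y x ≤ 2 := by
  rw [dist_eq_norm]
  refine (Complex.norm_le_abs_re_add_abs_im _).trans ?_
  rw [Complex.sub_re, Complex.sub_im]
  linarith

theorem bt_dist {d : Medial} {u : ℂ} (h : u ∈ Bt d) : dist u (pt d.1) ≤ 1 := by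
  have h1 : Bt d ⊆ closedBall (pt d.1) 1 := by
    refine (convex_closedBall _ _).segment_subset ?_ ?_ <;> rw [mem_closedBall, dist_eq_norm] <;>
      refine (Complex.norm_le_abs_re_add_abs_im _).trans ?_ <;>
      rw [Complex.sub_re, Complex.sub_im, pt_re, pt_im, cpt_re, cpt_im, add_sub_cancel_left,
        add_sub_cancel_left, abs_mul, abs_mul, abs_sq_re, abs_sq_im] <;> norm_num
  exact h1 h

/-- Cells: closed and open. -/
def Cc (m l : ℤ) (w : ℂ) : Prop := ((m : ℝ) ≤ 2 * w.re - 1 / 2 ∧ 2 * w.re - 1 / 2 ≤ m + 1) ∧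
  (l : ℝ) ≤ 2 * w.im - 1 / 2 ∧ 2 * w.im - 1 / 2 ≤ l + 1

def Co (m l : ℤ) (w : ℂ) : Prop := ((m : ℝ) < 2 * w.re - 1 / 2 ∧ 2 * w.re - 1 / 2 < m + 1) ∧
  (l : ℝ) < 2 * w.im - 1 / 2 ∧ 2 * w.im - 1 / 2 < l + 1

theorem seg_pos {w y u : ℂ} (hu : u ∈ segment ℝ w y) (hne : u ≠ w) : ∃ s : ℝ, 0 < s ∧ s ≤ 1 ∧
    u.re = w.re + s * (y.re - w.re) ∧ u.im = w.im + s * (y.im - w.im) := by
  obtain ⟨s, h0, h1, e1, e2⟩ := seg_coord hu
  refine ⟨s, lt_of_le_of_ne h0 fun h => hne ?_, h1, e1, e2⟩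
  rw [← h] at e1 e2
  exact Complex.ext (by linarith) (by linarith)

theorem cnv_lt {a x y s : ℝ} (h0 : 0 < s) (h1 : s ≤ 1) (hx : a ≤ x) (hy : a < y) :
    a < x + s * (y - x) := by nlinarith

theorem cnv_gt {a x y s : ℝ} (h0 : 0 < s) (h1 : s ≤ 1) (hx : x ≤ a) (hy : y < a) :
    x + s * (y - x) < a := by nlinarith

section

variable (hp : IsPolygon p) (hS : Encloses p S) (hk : k + 1 < n) (hA : A ⊆ edges S)
include hp hS hk hA

/-- A segment inside a cell. -/
theorem cell_seg (hδ : 0 < δ) (hM : M ≤ len p k A) {w y : ℂ} (hw : w ∈ sD1 p k S A δ M)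
    (hcs : ∀ u ∈ segment ℝ w y, u ∉ Bt (cs p)) {m l : ℤ} (hc : Cc m l w) (ho : Co m l y)
    {f : ℤ × ℤ} (hf : f ∈ S) (hwf : w ∈ EF f) (hyf : y ∈ EF f) :
    segment ℝ w y ⊆ sD1 p k S A δ M := by
  intro u hu
  refine ⟨seg_O1 hf hwf hyf hu, fun hz => ?_⟩
  by_cases hne : u = w
  · rw [hne] at hz
    exact hw.2 hz
  obtain ⟨s, h0, h1, e1, e2⟩ := seg_pos hu hne
  obtain ⟨⟨c1, c2⟩, c3, c4⟩ := hc
  obtain ⟨⟨o1, o2⟩, o3, o4⟩ := ho
  have i1 : (m : ℝ) < 2 * u.re - 1 / 2 := by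
    have := cnv_lt h0 h1 c1 o1
    rw [e1]; linarith
  have i2 : 2 * u.re - 1 / 2 < m + 1 := by
    have := cnv_gt h0 h1 c2 o2
    rw [e1]; linarith
  have i3 : (l : ℝ) < 2 * u.im - 1 / 2 := by
    have := cnv_lt h0 h1 c3 o3
    rw [e2]; linarith
  have i4 : 2 * u.im - 1 / 2 < l + 1 := by
    have := cnv_gt h0 h1 c4 o4
    rw [e2]; linarith
  rcases (obs (S := S) hp hS hA hδ hM).cov _ hz with ⟨x, y', a1, a2⟩ | ⟨d, a1, a2⟩ | ⟨d, a1, a2⟩
  · obtain ⟨e, he⟩ := (obs (S := S) hp hS hA hδ hM).step x y' a1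
    exact frac_on he i1 i2 i3 i4 a2
  · rw [a1] at a2
    exact hcs u hu a2
  · rw [a2, c14_re] at i1 i2
    have b1 : m < (hl d).1 := by
      have : (m : ℝ) < (hl d).1 := by linarith
      exact_mod_cast this
    have b2 : (hl d).1 < m + 1 := by
      have : ((hl d).1 : ℝ) < m + 1 := by linarith
      exact_mod_cast this
    omega

/-- A segment from a cell to the cell above it across a free side. -/
theorem cell_up (hδ : 0 < δ) (hM : M ≤ len p k A) {w y : ℂ} (hw : w ∈ sD1 p k S A δ M)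
    (hcs : ∀ u ∈ segment ℝ w y, u ∉ Bt (cs p)) {m l : ℤ} (hc : Cc m l w) (ho : Co m (l + 1) y)
    (hside : ∀ i < M, ¬ ((hl (run p k A i) = (m, l + 1) ∧ hl (run p k A (i + 1)) = (m + 1, l + 1)) ∨
      (hl (run p k A (i + 1)) = (m, l + 1) ∧ hl (run p k A i) = (m + 1, l + 1))))
    {f : ℤ × ℤ} (hf : f ∈ S) (hwf : w ∈ EF f) (hyf : y ∈ EF f) :
    segment ℝ w y ⊆ sD1 p k S A δ M := by
  intro u hu
  refine ⟨seg_O1 hf hwf hyf hu, fun hz => ?_⟩
  by_cases hne : u = w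
  · rw [hne] at hz
    exact hw.2 hz
  obtain ⟨s, h0, h1, e1, e2⟩ := seg_pos hu hne
  obtain ⟨⟨c1, c2⟩, c3, c4⟩ := hc
  obtain ⟨⟨o1, o2⟩, o3, o4⟩ := ho
  push_cast at o3 o4
  have i1 : (m : ℝ) < 2 * u.re - 1 / 2 := by
    have := cnv_lt h0 h1 c1 o1
    rw [e1]; linarith
  have i2 : 2 * u.re - 1 / 2 < m + 1 := by
    have := cnv_gt h0 h1 c2 o2
    rw [e1]; linarith
  have i3 : (l : ℝ) < 2 * u.im - 1 / 2 := by
    have := cnv_lt h0 h1 c3 (show (l : ℝ) < 2 * y.im - 1 / 2 by linarith)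
    rw [e2]; linarith
  have i4 : 2 * u.im - 1 / 2 < l + 2 := by
    have := cnv_gt h0 h1 (show 2 * w.im - 1 / 2 ≤ (l : ℝ) + 2 by linarith)
      (show 2 * y.im - 1 / 2 < (l : ℝ) + 2 by linarith)
    rw [e2]; linarith
  rcases (obs (S := S) hp hS hA hδ hM).cov _ hz with ⟨x, y', a1, a2⟩ | ⟨d, a1, a2⟩ | ⟨d, a1, a2⟩
  · obtain ⟨e, he⟩ := (obs (S := S) hp hS hA hδ hM).step x y' a1
    obtain ⟨l', e3, e4⟩ := on_h he a2 i1 i2
    rw [e3] at i3 i4
    have b1 : l < l' := by exact_mod_cast i3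
    have b2 : l' < l + 2 := by exact_mod_cast i4
    have b3 : l' = l + 1 := by omega
    subst b3
    obtain ⟨i, hi, rfl, rfl⟩ := a1
    exact hside i hi e4
  · rw [a1] at a2
    exact hcs u hu a2
  · rw [a2, c14_re] at i1 i2
    have b1 : m < (hl d).1 := by
      have : (m : ℝ) < (hl d).1 := by linarith
      exact_mod_cast this
    have b2 : (hl d).1 < m + 1 := by
      have : ((hl d).1 : ℝ) < m + 1 := by linarith
      exact_mod_cast this
    omega

/-- A segment from a cell to the cell on its right across a free side. -/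
theorem cell_rt (hδ : 0 < δ) (hM : M ≤ len p k A) {w y : ℂ} (hw : w ∈ sD1 p k S A δ M)
    (hcs : ∀ u ∈ segment ℝ w y, u ∉ Bt (cs p)) {m l : ℤ} (hc : Cc m l w) (ho : Co (m + 1) l y)
    (hside : ∀ i < M, ¬ ((hl (run p k A i) = (m + 1, l) ∧ hl (run p k A (i + 1)) = (m + 1, l + 1)) ∨
      (hl (run p k A (i + 1)) = (m + 1, l) ∧ hl (run p k A i) = (m + 1, l + 1))))
    {f : ℤ × ℤ} (hf : f ∈ S) (hwf : w ∈ EF f) (hyf : y ∈ EF f) :
    segment ℝ w y ⊆ sD1 p k S A δ M := by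
  intro u hu
  refine ⟨seg_O1 hf hwf hyf hu, fun hz => ?_⟩
  by_cases hne : u = w
  · rw [hne] at hz
    exact hw.2 hz
  obtain ⟨s, h0, h1, e1, e2⟩ := seg_pos hu hne
  obtain ⟨⟨c1, c2⟩, c3, c4⟩ := hc
  obtain ⟨⟨o1, o2⟩, o3, o4⟩ := ho
  push_cast at o1 o2
  have i1 : (m : ℝ) < 2 * u.re - 1 / 2 := by
    have := cnv_lt h0 h1 c1 (show (m : ℝ) < 2 * y.re - 1 / 2 by linarith)
    rw [e1]; linarith
  have i2 : 2 * u.re - 1 / 2 < m + 2 := by
    have := cnv_gt h0 h1 (show 2 * w.re - 1 / 2 ≤ (m : ℝ) + 2 by linarith)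
      (show 2 * y.re - 1 / 2 < (m : ℝ) + 2 by linarith)
    rw [e1]; linarith
  have i3 : (l : ℝ) < 2 * u.im - 1 / 2 := by
    have := cnv_lt h0 h1 c3 o3
    rw [e2]; linarith
  have i4 : 2 * u.im - 1 / 2 < l + 1 := by
    have := cnv_gt h0 h1 c4 o4
    rw [e2]; linarith
  rcases (obs (S := S) hp hS hA hδ hM).cov _ hz with ⟨x, y', a1, a2⟩ | ⟨d, a1, a2⟩ | ⟨d, a1, a2⟩
  · obtain ⟨e, he⟩ := (obs (S := S) hp hS hA hδ hM).step x y' a1
    obtain ⟨m', e3, e4⟩ := on_v he a2 i3 i4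
    rw [e3] at i1 i2
    have b1 : m < m' := by exact_mod_cast i1
    have b2 : m' < m + 2 := by exact_mod_cast i2
    have b3 : m' = m + 1 := by omega
    subst b3
    obtain ⟨i, hi, rfl, rfl⟩ := a1
    exact hside i hi e4
  · rw [a1] at a2
    exact hcs u hu a2
  · rw [a2, c14_im] at i3 i4
    have b1 : l < (hl d).2 := by
      have : (l : ℝ) < (hl d).2 := by linarith
      exact_mod_cast this
    have b2 : (hl d).2 < l + 1 := by
      have : ((hl d).2 : ℝ) < l + 1 := by linarith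
      exact_mod_cast this
    omega

/-- The step between two different vertices is along an edge of the domain. -/
theorem fside {i : ℕ} (hi : i < M) {x y : Medial} (hne : x.1 ≠ y.1)
    (he : s(x.1, y.1) ∉ edges S) (hx : (hl (run p k A i) = hl x ∧ hl (run p k A (i + 1)) = hl y) ∨
      (hl (run p k A (i + 1)) = hl x ∧ hl (run p k A i) = hl y)) : False := by
  have h1 : ∃ l < M, run p k A i = run p k A l ∧ run p k A (i + 1) = run p k A (l + 1) :=
    ⟨i, hi, rfl, rfl⟩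
  have hst := next_step (wiredOpen p k A) (run p k A i)
  rw [← run_succ] at hst
  have key : (run p k A i).1 ≠ (run p k A (i + 1)).1 ∧
      s((run p k A i).1, (run p k A (i + 1)).1) = s(x.1, y.1) := by
    rcases hx with ⟨a, b⟩ | ⟨a, b⟩
    · rw [hl_inj a, hl_inj b]
      exact ⟨hne, rfl⟩
    · rw [hl_inj a, hl_inj b]
      exact ⟨hne.symm, Sym2.eq_swap⟩
  rcases hst with ⟨a, -, b⟩ | ⟨a, -, b⟩
  · have h2 := b.edge
    rw [key.2] at h2
    rw [h2] at a
    exact he (wired_sub hp hS hA a)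
  · exact key.1 b.fstI.symm

/-- The midpoint of an edge is joined to a node. -/
theorem em_node (hδ : 0 < δ) (hM : M ≤ len p k A) {c : Medial} (he : ahead c ∈ edges S) :
    ∃ a, Good S a ∧ segment ℝ (Fjord.em c) (ps a) ⊆ sD1 p k S A δ M ∧
      |(ps a).re - (Fjord.em c).re| ≤ 1 / 2 ∧ |(ps a).im - (Fjord.em c).im| ≤ 1 / 2 := by
  have hO := obs (S := S) hp hS hA hδ hM
  have hem : ∀ c : Medial, |(pt c.1).re - (Fjord.em c).re| ≤ 1 / 2 ∧
      |(pt c.1).im - (Fjord.em c).im| ≤ 1 / 2 ∧ |(ctr (fc c)).re - (Fjord.em c).re| ≤ 1 / 2 ∧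
      |(ctr (fc c)).im - (Fjord.em c).im| ≤ 1 / 2 := by
    rintro ⟨v, r⟩
    revert r
    refine forall4 ?_ ?_ ?_ ?_ <;>
      simp only [Fjord.em, adv_0, adv_1, adv_2, adv_3, pt_re, pt_im, ctr, fc_0, fc_1, fc_2,
        fc_3] <;> push_cast <;> refine ⟨?_, ?_, ?_, ?_⟩ <;> rw [abs_le] <;> constructor <;>
        linarith
  have hv : c.1 ∈ verts S := (verts_of_edge (r := c.2 + 1) he).1
  by_cases ho : ahead c ∈ wiredOpen p k A
  · refine ⟨.V c.1, hv, ?_, (hem c).1, (hem c).2.1⟩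
    show segment ℝ (Fjord.em c) (pt c.1) ⊆ _
    rw [segment_symm]
    exact sB hO he (fun hh => e_closed hh (Or.inl ⟨rfl, rfl⟩) ho)
      (fun hh => e_closed hh (Or.inr ⟨rfl, rfl⟩) ho)
  · obtain ⟨f, hf, hf'⟩ := face_of_edge he
    have key : ∃ d, ahead d = ahead c ∧ fc d = f := by
      rcases hf' with rfl | rfl
      · exact ⟨c, rfl, rfl⟩
      · exact ⟨par c, ahead_par c, by
          show face (c.1 + dir (c.2 + 1)) (c.2 + 2) = _
          rw [show c.2 + 2 = c.2 + 1 + 1 by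
            generalize c.2 = r
            revert r
            decide, face_left]⟩
    obtain ⟨d, hd1, hd2⟩ := key
    have e1 : Fjord.em d = Fjord.em c := em_congr hd1
    have h5 := hem d
    rw [e1, hd2] at h5
    refine ⟨.F f, hf, ?_, h5.2.2.1, h5.2.2.2⟩
    show segment ℝ (Fjord.em c) (ctr f) ⊆ _
    rw [← e1, ← hd2]
    refine sA hO (by rw [hd2]; exact hf) (fun hh => ?_) (fun hh => ?_)
    · have := e_open hh (Or.inl ⟨rfl, rfl⟩)
      rw [hd1] at this
      exact ho this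
    · have := e_open hh (Or.inr ⟨rfl, rfl⟩)
      rw [hd1] at this
      exact ho this

omit hp hS hk hA in
theorem seg_ball {w y : ℂ} (h1 : |y.re - w.re| ≤ 1) (h2 : |y.im - w.im| ≤ 1) :
    segment ℝ w y ⊆ closedBall w 2 :=
  (convex_closedBall _ _).segment_subset (mem_closedBall_self (by norm_num))
    (mem_closedBall.2 (near_dist h1 h2))

omit hp hS hk hA in
theorem hBs (hfar : 4 ≤ dist w (pt (cs p).1)) {y : ℂ} (h1 : |y.re - w.re| ≤ 1)
    (h2 : |y.im - w.im| ≤ 1) : ∀ u ∈ segment ℝ w y, u ∉ Bt (cs p) := by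
  intro u hu hb
  have hu := seg_ball h1 h2 hu
  have h1 := bt_dist hb
  have h2 := dist_triangle_left w (pt (cs p).1) u
  rw [mem_closedBall] at hu
  linarith

omit hp hS hk hA in
/-- One segment. -/
theorem nn_one {a : Node} {y : ℂ} (ha : Good S a) (hy : y = ps a) (h1 : |y.re - w.re| ≤ 1)
    (h2 : |y.im - w.im| ≤ 1) (h3 : segment ℝ w y ⊆ sD1 p k S A δ M) :
    ∃ a, Good S a ∧ JoinedIn (sD1 p k S A δ M ∩ closedBall w 2) w (ps a) := by
  subst hy
  exact ⟨a, ha, JoinedIn.of_segment_subset (subset_inter h3 (seg_ball h1 h2))⟩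

/-- Through the midpoint of an edge. -/
theorem nn_two (hδ : 0 < δ) (hM : M ≤ len p k A) (c : Medial) (he : ahead c ∈ edges S)
    (h1 : |(Fjord.em c).re - w.re| ≤ 1 / 2) (h2 : |(Fjord.em c).im - w.im| ≤ 1 / 2)
    (h3 : segment ℝ w (Fjord.em c) ⊆ sD1 p k S A δ M) :
    ∃ a, Good S a ∧ JoinedIn (sD1 p k S A δ M ∩ closedBall w 2) w (ps a) := by
  obtain ⟨a, ha, g1, g2, g3⟩ := em_node hp hS hk hA hδ hM he
  refine ⟨a, ha, (JoinedIn.of_segment_subset (subset_inter h3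
    (seg_ball (h1.trans (by norm_num)) (h2.trans (by norm_num))))).trans
    (JoinedIn.of_segment_subset (subset_inter g1 ?_))⟩
  refine (convex_closedBall _ _).segment_subset ?_ ?_
  · exact mem_closedBall.2 (near_dist (h1.trans (by norm_num)) (h2.trans (by norm_num)))
  · refine mem_closedBall.2 (near_dist ?_ ?_)
    · have := abs_add_le ((ps a).re - (Fjord.em c).re) ((Fjord.em c).re - w.re)
      rw [sub_add_sub_cancel] at this
      linarith
    · have := abs_add_le ((ps a).im - (Fjord.em c).im) ((Fjord.em c).im - w.im)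
      rw [sub_add_sub_cancel] at this
      linarith

/-- The cell of a face. -/
theorem nn_f (hδ : 0 < δ) (hM : M ≤ len p k A) (hw : w ∈ sD1 p k S A δ M)
    (hfar : 4 ≤ dist w (pt (cs p).1)) {f : ℤ × ℤ} (hf : f ∈ S) (hwf : w ∈ EF f) {a b : ℤ}
    (hc : Cc (2 * a) (2 * b) w) (m1 : 2 * (a : ℝ) ≤ 2 * w.re - 1 / 2) (m2 : 2 * w.re - 1 / 2 < 2 * a + 1)
    (l1 : 2 * (b : ℝ) ≤ 2 * w.im - 1 / 2) (l2 : 2 * w.im - 1 / 2 < 2 * b + 1) :
    ∃ a, Good S a ∧ JoinedIn (sD1 p k S A δ M ∩ closedBall w 2) w (ps a) := by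
  obtain ⟨⟨f1, f2⟩, f3, f4⟩ := id hwf
  have hwg : w ∈ EF (a, b) := ⟨⟨by show (a : ℝ) - 3 / 8 < _; linarith,
    by show _ < (a : ℝ) + 11 / 8; linarith⟩, by show (b : ℝ) - 3 / 8 < _; linarith,
    by show _ < (b : ℝ) + 11 / 8; linarith⟩
  by_cases hg : (a, b) ∈ S
  · have e1 : |(ctr (a, b)).re - w.re| ≤ 1 := by
      simp only [ctr]; rw [abs_le]; constructor <;> linarith
    have e2 : |(ctr (a, b)).im - w.im| ≤ 1 := by
      simp only [ctr]; rw [abs_le]; constructor <;> linarith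
    refine nn_one (a := .F (a, b)) hg rfl e1 e2 (cell_seg hp hS hk hA hδ hM hw (hBs hfar e1 e2) hc ?_ hg
      hwg (ctr_EF _))
    simp only [Co, ps, ctr]
    push_cast
    refine ⟨⟨?_, ?_⟩, ?_, ?_⟩ <;> linarith
  · obtain ⟨v, r, r', hr, hr'⟩ := ef_meet hwf hwg
    have hv : v ∈ verts S := mem_verts.2 ⟨r, by rw [hr]; exact hf⟩
    have hyf : cpt (5 / 16) (v, r') ∈ EF f := by
      rw [← hr]
      exact cpt_EF (by norm_num) (by norm_num) (v, r') r
    have hgd : Good S (.O (v, r')) := ⟨hv, by show face v r' ∉ S; rw [hr']; exact hg⟩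
    have key : ∀ r' : Fin 4, face v r' = (a, b) → Co (2 * a) (2 * b) (cpt (5 / 16) (v, r')) ∧
        |(cpt (5 / 16) (v, r')).re - w.re| ≤ 1 ∧ |(cpt (5 / 16) (v, r')).im - w.im| ≤ 1 := by
      have aux : ∀ {x y : ℤ}, x = y → (x : ℝ) = y := fun h => by rw [h]
      refine forall4 ?_ ?_ ?_ ?_ <;> intro h <;>
        simp only [face0, face1, face2, face3, Prod.mk.injEq] at h <;>
        have h1 := aux h.1 <;> have h2 := aux h.2 <;> push_cast at h1 h2 <;>
        simp only [cpt_0, cpt_1, cpt_2, cpt_3, Co] <;> push_cast <;>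
        refine ⟨⟨⟨?_, ?_⟩, ?_, ?_⟩, abs_le.2 ⟨?_, ?_⟩, abs_le.2 ⟨?_, ?_⟩⟩ <;> linarith
    obtain ⟨k1, k2, k3⟩ := key r' hr'
    exact nn_one hgd rfl k2 k3 (cell_seg hp hS hk hA hδ hM hw (hBs hfar k2 k3) hc k1 hf hwf hyf)

/-- The cell of a horizontal edge. -/
theorem nn_h (hδ : 0 < δ) (hM : M ≤ len p k A) (hw : w ∈ sD1 p k S A δ M)
    (hfar : 4 ≤ dist w (pt (cs p).1)) {f : ℤ × ℤ} (hf : f ∈ S) (hwf : w ∈ EF f) {a b : ℤ}
    (hc : Cc (2 * a) (2 * b - 1) w) (m1 : 2 * (a : ℝ) ≤ 2 * w.re - 1 / 2) (m2 : 2 * w.re - 1 / 2 < 2 * a + 1)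
    (l1 : 2 * (b : ℝ) - 1 ≤ 2 * w.im - 1 / 2) (l2 : 2 * w.im - 1 / 2 < 2 * b - 1 + 1) :
    ∃ a, Good S a ∧ JoinedIn (sD1 p k S A δ M ∩ closedBall w 2) w (ps a) := by
  obtain ⟨⟨f1, f2⟩, f3, f4⟩ := id hwf
  have hah : ahead ((a, b), 3) = s((a, b), (a + 1, b)) := by
    show s((a, b), (a, b) + dir (3 + 1)) = _
    rw [show (3 : Fin 4) + 1 = 0 from rfl]
    simp [dir]
  have hEm : Fjord.em ((a, b), 3) = ⟨a + 1 / 2, b⟩ := by
    apply Complex.ext <;> simp only [Fjord.em, adv_3, pt_re, pt_im] <;> push_cast <;> ring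
  by_cases he : ahead ((a, b), 3) ∈ edges S
  · obtain ⟨g, hg, hg'⟩ := face_of_edge he
    have hg1 : g = (a, b - 1) ∨ g = (a, b) := by
      rcases hg' with h | h
      · left
        rw [h]
        simp only [face3]
      · right
        rw [h, show (3 : Fin 4) + 1 = 0 from rfl]
        simp only [face0]
    have hwg : w ∈ EF g ∧ (⟨a + 1 / 2, b⟩ : ℂ) ∈ EF g := by
      rcases hg1 with rfl | rfl <;> refine ⟨⟨⟨?_, ?_⟩, ?_, ?_⟩, ⟨?_, ?_⟩, ?_, ?_⟩ <;>
        push_cast <;> linarith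
    have e1 : |(Fjord.em ((a, b), 3)).re - w.re| ≤ 1 / 2 := by
      rw [hEm, abs_le]
      simp only
      constructor <;> linarith
    have e2 : |(Fjord.em ((a, b), 3)).im - w.im| ≤ 1 / 2 := by
      rw [hEm, abs_le]
      simp only
      constructor <;> linarith
    refine nn_two hp hS hk hA hδ hM _ he e1 e2 (cell_seg hp hS hk hA hδ hM hw
      (hBs hfar (e1.trans (by norm_num)) (e2.trans (by norm_num))) hc ?_ hg hwg.1
      (by rw [hEm]; exact hwg.2))
    rw [hEm]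
    simp only [Co]
    push_cast
    refine ⟨⟨?_, ?_⟩, ?_, ?_⟩ <;> linarith
  · have q2 : f.2 = b ∨ f.2 = b - 1 := by
      have : (f.2 : ℝ) < b + 1 := by linarith
      have : f.2 < b + 1 := by exact_mod_cast this
      have : (b : ℝ) < f.2 + 2 := by linarith
      have : b < f.2 + 2 := by exact_mod_cast this
      omega
    have q1 : f.1 = a + 1 ∨ f.1 = a - 1 := by
      have : (f.1 : ℝ) < a + 2 := by linarith
      have g1 : f.1 < a + 2 := by exact_mod_cast this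
      have : (a : ℝ) < f.1 + 2 := by linarith
      have g2 : a < f.1 + 2 := by exact_mod_cast this
      have : f.1 ≠ a := by
        intro h
        apply he
        rw [show ahead ((a, b), 3) = s((a, b), (a, b) + dir 0) from rfl, mem_edges]
        rcases q2 with h' | h'
        · left
          rw [face0]
          rw [← h, ← h']
          exact hf
        · right
          rw [show (0 : Fin 4) - 1 = 3 from rfl, face3]
          rw [← h]
          simp only
          rw [← h']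
          exact hf
      omega
    have hside : ∀ i < M, ¬ ((E2.hl (run p k A i) = (2 * a, 2 * b - 1 + 1) ∧
        E2.hl (run p k A (i + 1)) = (2 * a + 1, 2 * b - 1 + 1)) ∨
        (E2.hl (run p k A (i + 1)) = (2 * a, 2 * b - 1 + 1) ∧
          E2.hl (run p k A i) = (2 * a + 1, 2 * b - 1 + 1))) := by
      intro i hi hh
      refine fside hp hS hk hA hi (x := ((a, b), 0)) (y := ((a + 1, b), 1)) (by simp)
        (by rw [← hah]; exact he) ?_
      have w1 : E2.hl ((a, b), 0) = (2 * a, 2 * b - 1 + 1) := by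
        simp only [E2.hl, fc_0]
        ext <;> simp only [Prod.fst_add, Prod.snd_add] <;> ring
      have w2 : E2.hl ((a + 1, b), 1) = (2 * a + 1, 2 * b - 1 + 1) := by
        simp only [E2.hl, fc_1]
        ext <;> simp only [Prod.fst_add, Prod.snd_add] <;> ring
      rw [w1, w2]
      exact hh
    have fin : ∀ d : Medial, d.1 ∈ verts S → face d.1 d.2 ∉ S → cpt (5 / 16) d ∈ EF f →
        |(cpt (5 / 16) d).re - w.re| ≤ 1 → |(cpt (5 / 16) d).im - w.im| ≤ 1 →
        Co (2 * a) (2 * b - 1 + 1) (cpt (5 / 16) d) →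
        ∃ a, Good S a ∧ JoinedIn (sD1 p k S A δ M ∩ closedBall w 2) w (ps a) := by
      intro d hd1 hd2 hd3 hd4 hd5 hd6
      exact nn_one (a := .O d) ⟨hd1, hd2⟩ rfl hd4 hd5
        (cell_up hp hS hk hA hδ hM hw (hBs hfar hd4 hd5) hc hd6 hside hf hwf hd3)
    have hnf : (a, b) ∉ S := by
      intro h
      apply he
      rw [show ahead ((a, b), 3) = s((a, b), (a, b) + dir 0) from rfl, mem_edges]
      left
      rw [face0]
      exact h
    rcases q1 with q1 | q1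
    · obtain ⟨t, ht⟩ : ∃ t, face (a + 1, b) t = f := by
        rcases q2 with q2 | q2
        · exact ⟨0, by rw [face0]; exact Prod.ext q1.symm q2.symm⟩
        · exact ⟨3, by rw [face3]; exact Prod.ext q1.symm q2.symm⟩
      have q1' : (f.1 : ℝ) = a + 1 := by rw [q1]; push_cast; ring
      refine fin ((a + 1, b), 1) (mem_verts.2 ⟨t, by rw [ht]; exact hf⟩)
        (by simp only [face1, add_sub_cancel_right]; exact hnf)
        (by rw [← ht]; exact cpt_EF (by norm_num) (by norm_num) ((a + 1, b), 1) t) ?_ ?_ ?_ <;>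
        simp only [cpt_1, Co] <;> push_cast
      · rw [abs_le]; constructor <;> linarith
      · rw [abs_le]; constructor <;> linarith
      · refine ⟨⟨?_, ?_⟩, ?_, ?_⟩ <;> linarith
    · obtain ⟨t, ht⟩ : ∃ t, face (a, b) t = f := by
        rcases q2 with q2 | q2
        · exact ⟨1, by rw [face1]; exact Prod.ext q1.symm q2.symm⟩
        · exact ⟨2, by rw [face2]; exact Prod.ext q1.symm q2.symm⟩
      have q1' : (f.1 : ℝ) = a - 1 := by rw [q1]; push_cast; ring
      refine fin ((a, b), 0) (mem_verts.2 ⟨t, by rw [ht]; exact hf⟩)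
        (by simp only [face0]; exact hnf)
        (by rw [← ht]; exact cpt_EF (by norm_num) (by norm_num) ((a, b), 0) t) ?_ ?_ ?_ <;>
        simp only [cpt_0, Co] <;> push_cast
      · rw [abs_le]; constructor <;> linarith
      · rw [abs_le]; constructor <;> linarith
      · refine ⟨⟨?_, ?_⟩, ?_, ?_⟩ <;> linarith

/-- The cell of a vertical edge. -/
theorem nn_v (hδ : 0 < δ) (hM : M ≤ len p k A) (hw : w ∈ sD1 p k S A δ M)
    (hfar : 4 ≤ dist w (pt (cs p).1)) {f : ℤ × ℤ} (hf : f ∈ S) (hwf : w ∈ EF f) {a b : ℤ}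
    (hc : Cc (2 * a - 1) (2 * b) w) (m1 : 2 * (a : ℝ) - 1 ≤ 2 * w.re - 1 / 2) (m2 : 2 * w.re - 1 / 2 < 2 * a - 1 + 1)
    (l1 : 2 * (b : ℝ) ≤ 2 * w.im - 1 / 2) (l2 : 2 * w.im - 1 / 2 < 2 * b + 1) :
    ∃ a, Good S a ∧ JoinedIn (sD1 p k S A δ M ∩ closedBall w 2) w (ps a) := by
  obtain ⟨⟨f1, f2⟩, f3, f4⟩ := id hwf
  have hah : ahead ((a, b), 0) = s((a, b), (a, b + 1)) := by
    show s((a, b), (a, b) + dir (0 + 1)) = _
    rw [show (0 : Fin 4) + 1 = 1 from rfl]
    simp [dir]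
  have hEm : Fjord.em ((a, b), 0) = ⟨a, b + 1 / 2⟩ := by
    apply Complex.ext <;> simp only [Fjord.em, adv_0, pt_re, pt_im] <;> push_cast <;> ring
  by_cases he : ahead ((a, b), 0) ∈ edges S
  · obtain ⟨g, hg, hg'⟩ := face_of_edge he
    have hg1 : g = (a, b) ∨ g = (a - 1, b) := by
      rcases hg' with h | h
      · left
        rw [h]
        simp only [face0]
      · right
        rw [h, show (0 : Fin 4) + 1 = 1 from rfl]
        simp only [face1]
    have hwg : w ∈ EF g ∧ (⟨a, b + 1 / 2⟩ : ℂ) ∈ EF g := by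
      rcases hg1 with rfl | rfl <;> refine ⟨⟨⟨?_, ?_⟩, ?_, ?_⟩, ⟨?_, ?_⟩, ?_, ?_⟩ <;>
        push_cast <;> linarith
    have e1 : |(Fjord.em ((a, b), 0)).re - w.re| ≤ 1 / 2 := by
      rw [hEm, abs_le]
      simp only
      constructor <;> linarith
    have e2 : |(Fjord.em ((a, b), 0)).im - w.im| ≤ 1 / 2 := by
      rw [hEm, abs_le]
      simp only
      constructor <;> linarith
    refine nn_two hp hS hk hA hδ hM _ he e1 e2 (cell_seg hp hS hk hA hδ hM hw
      (hBs hfar (e1.trans (by norm_num)) (e2.trans (by norm_num))) hc ?_ hg hwg.1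
      (by rw [hEm]; exact hwg.2))
    rw [hEm]
    simp only [Co]
    push_cast
    refine ⟨⟨?_, ?_⟩, ?_, ?_⟩ <;> linarith
  · have q1 : f.1 = a ∨ f.1 = a - 1 := by
      have : (f.1 : ℝ) < a + 1 := by linarith
      have : f.1 < a + 1 := by exact_mod_cast this
      have : (a : ℝ) < f.1 + 2 := by linarith
      have : a < f.1 + 2 := by exact_mod_cast this
      omega
    have q2 : f.2 = b + 1 ∨ f.2 = b - 1 := by
      have : (f.2 : ℝ) < b + 2 := by linarith
      have g1 : f.2 < b + 2 := by exact_mod_cast this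
      have : (b : ℝ) < f.2 + 2 := by linarith
      have g2 : b < f.2 + 2 := by exact_mod_cast this
      have : f.2 ≠ b := by
        intro h
        apply he
        rw [show ahead ((a, b), 0) = s((a, b), (a, b) + dir 1) from rfl, mem_edges]
        rcases q1 with h' | h'
        · right
          rw [show (1 : Fin 4) - 1 = 0 from rfl, face0]
          rw [← h, ← h']
          exact hf
        · left
          rw [face1]
          rw [← h]
          simp only
          rw [← h']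
          exact hf
      omega
    have hside : ∀ i < M, ¬ ((E2.hl (run p k A i) = (2 * a - 1 + 1, 2 * b) ∧
        E2.hl (run p k A (i + 1)) = (2 * a - 1 + 1, 2 * b + 1)) ∨
        (E2.hl (run p k A (i + 1)) = (2 * a - 1 + 1, 2 * b) ∧
          E2.hl (run p k A i) = (2 * a - 1 + 1, 2 * b + 1))) := by
      intro i hi hh
      refine fside hp hS hk hA hi (x := ((a, b), 0)) (y := ((a, b + 1), 3)) (by simp)
        (by rw [← hah]; exact he) ?_
      have w1 : E2.hl ((a, b), 0) = (2 * a - 1 + 1, 2 * b) := by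
        simp only [E2.hl, fc_0]
        ext <;> simp only [Prod.fst_add, Prod.snd_add] <;> ring
      have w2 : E2.hl ((a, b + 1), 3) = (2 * a - 1 + 1, 2 * b + 1) := by
        simp only [E2.hl, fc_3]
        ext <;> simp only [Prod.fst_add, Prod.snd_add] <;> ring
      rw [w1, w2]
      exact hh
    have fin : ∀ d : Medial, d.1 ∈ verts S → face d.1 d.2 ∉ S → cpt (5 / 16) d ∈ EF f →
        |(cpt (5 / 16) d).re - w.re| ≤ 1 → |(cpt (5 / 16) d).im - w.im| ≤ 1 →
        Co (2 * a - 1 + 1) (2 * b) (cpt (5 / 16) d) →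
        ∃ a, Good S a ∧ JoinedIn (sD1 p k S A δ M ∩ closedBall w 2) w (ps a) := by
      intro d hd1 hd2 hd3 hd4 hd5 hd6
      exact nn_one (a := .O d) ⟨hd1, hd2⟩ rfl hd4 hd5
        (cell_rt hp hS hk hA hδ hM hw (hBs hfar hd4 hd5) hc hd6 hside hf hwf hd3)
    have hnf : (a, b) ∉ S := by
      intro h
      apply he
      rw [show ahead ((a, b), 0) = s((a, b), (a, b) + dir 1) from rfl, mem_edges]
      right
      rw [show (1 : Fin 4) - 1 = 0 from rfl, face0]
      exact h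
    rcases q2 with q2 | q2
    · obtain ⟨t, ht⟩ : ∃ t, face (a, b + 1) t = f := by
        rcases q1 with q1 | q1
        · exact ⟨0, by rw [face0]; exact Prod.ext q1.symm q2.symm⟩
        · exact ⟨1, by rw [face1]; exact Prod.ext q1.symm q2.symm⟩
      have q2' : (f.2 : ℝ) = b + 1 := by rw [q2]; push_cast; ring
      refine fin ((a, b + 1), 3) (mem_verts.2 ⟨t, by rw [ht]; exact hf⟩)
        (by simp only [face3, add_sub_cancel_right]; exact hnf)
        (by rw [← ht]; exact cpt_EF (by norm_num) (by norm_num) ((a, b + 1), 3) t) ?_ ?_ ?_ <;>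
        simp only [cpt_3, Co] <;> push_cast
      · rw [abs_le]; constructor <;> linarith
      · rw [abs_le]; constructor <;> linarith
      · refine ⟨⟨?_, ?_⟩, ?_, ?_⟩ <;> linarith
    · obtain ⟨t, ht⟩ : ∃ t, face (a, b) t = f := by
        rcases q1 with q1 | q1
        · exact ⟨3, by rw [face3]; exact Prod.ext q1.symm q2.symm⟩
        · exact ⟨2, by rw [face2]; exact Prod.ext q1.symm q2.symm⟩
      have q2' : (f.2 : ℝ) = b - 1 := by rw [q2]; push_cast; ring
      refine fin ((a, b), 0) (mem_verts.2 ⟨t, by rw [ht]; exact hf⟩)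
        (by simp only [face0]; exact hnf)
        (by rw [← ht]; exact cpt_EF (by norm_num) (by norm_num) ((a, b), 0) t) ?_ ?_ ?_ <;>
        simp only [cpt_0, Co] <;> push_cast
      · rw [abs_le]; constructor <;> linarith
      · rw [abs_le]; constructor <;> linarith
      · refine ⟨⟨?_, ?_⟩, ?_, ?_⟩ <;> linarith

/-- The cell of a vertex. -/
theorem nn_x (hδ : 0 < δ) (hM : M ≤ len p k A) (hw : w ∈ sD1 p k S A δ M)
    (hfar : 4 ≤ dist w (pt (cs p).1)) {f : ℤ × ℤ} (hf : f ∈ S) (hwf : w ∈ EF f) {a b : ℤ}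
    (hc : Cc (2 * a - 1) (2 * b - 1) w) (m1 : 2 * (a : ℝ) - 1 ≤ 2 * w.re - 1 / 2) (m2 : 2 * w.re - 1 / 2 < 2 * a - 1 + 1)
    (l1 : 2 * (b : ℝ) - 1 ≤ 2 * w.im - 1 / 2) (l2 : 2 * w.im - 1 / 2 < 2 * b - 1 + 1) :
    ∃ a, Good S a ∧ JoinedIn (sD1 p k S A δ M ∩ closedBall w 2) w (ps a) := by
  obtain ⟨⟨f1, f2⟩, f3, f4⟩ := id hwf
  have hv : ∃ r, face (a, b) r = f := by
    have g1 : f.1 ≤ a := by
      have : (f.1 : ℝ) < a + 5 / 8 := by linarith
      have : (f.1 : ℝ) < a + 1 := by linarith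
      have : f.1 < a + 1 := by exact_mod_cast this
      omega
    have g2 : a ≤ f.1 + 1 := by
      have : (a : ℝ) < f.1 + 2 := by linarith
      have : a < f.1 + 2 := by exact_mod_cast this
      omega
    have g3 : f.2 ≤ b := by
      have : (f.2 : ℝ) < b + 1 := by linarith
      have : f.2 < b + 1 := by exact_mod_cast this
      omega
    have g4 : b ≤ f.2 + 1 := by
      have : (b : ℝ) < f.2 + 2 := by linarith
      have : b < f.2 + 2 := by exact_mod_cast this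
      omega
    obtain ⟨x, y⟩ := f
    simp only at g1 g2 g3 g4
    rcases (show x = a ∨ x = a - 1 by omega) with rfl | rfl <;>
      rcases (show y = b ∨ y = b - 1 by omega) with rfl | rfl
    · exact ⟨0, by rw [face0]⟩
    · exact ⟨3, by rw [face3]⟩
    · exact ⟨1, by rw [face1]⟩
    · exact ⟨2, by rw [face2]⟩
  obtain ⟨r, hr⟩ := hv
  have hv : (a, b) ∈ verts S := mem_verts.2 ⟨r, by rw [hr]; exact hf⟩
  have hyf : pt (a, b) ∈ EF f := by rw [← hr]; exact pt_EF _ _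
  have e1 : |(pt (a, b)).re - w.re| ≤ 1 := by
    simp only [pt]; rw [abs_le]; constructor <;> linarith
  have e2 : |(pt (a, b)).im - w.im| ≤ 1 := by
    simp only [pt]; rw [abs_le]; constructor <;> linarith
  refine nn_one (a := .V (a, b)) hv rfl e1 e2 (cell_seg hp hS hk hA hδ hM hw (hBs hfar e1 e2) hc ?_ hf
    hwf hyf)
  simp only [Co, ps, pt]
  push_cast
  refine ⟨⟨?_, ?_⟩, ?_, ?_⟩ <;> linarith


/-- **Every point of the slit domain is joined to a node next to it.** -/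
theorem near_node (hδ : 0 < δ) (hM : M ≤ len p k A) {w : ℂ} (hw : w ∈ sD1 p k S A δ M)
    (hfar : 4 ≤ dist w (pt (cs p).1)) :
    ∃ a, Good S a ∧ JoinedIn (sD1 p k S A δ M ∩ closedBall w 2) w (ps a) := by
  obtain ⟨⟨f, hf, f1, f2, f3, f4⟩, -⟩ := id hw
  have hwf : w ∈ EF f := ⟨⟨f1, f2⟩, f3, f4⟩
  obtain ⟨m, hm⟩ : ∃ m : ℤ, m = ⌊2 * w.re - 1 / 2⌋ := ⟨_, rfl⟩
  obtain ⟨l, hl⟩ : ∃ l : ℤ, l = ⌊2 * w.im - 1 / 2⌋ := ⟨_, rfl⟩
  have m1 : (m : ℝ) ≤ 2 * w.re - 1 / 2 := by rw [hm]; exact Int.floor_le _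
  have m2 : 2 * w.re - 1 / 2 < m + 1 := by rw [hm]; exact Int.lt_floor_add_one _
  have l1 : (l : ℝ) ≤ 2 * w.im - 1 / 2 := by rw [hl]; exact Int.floor_le _
  have l2 : 2 * w.im - 1 / 2 < l + 1 := by rw [hl]; exact Int.lt_floor_add_one _
  clear hm hl
  have hc : Cc m l w := ⟨⟨m1, m2.le⟩, l1, l2.le⟩
  obtain ⟨a, ha | ha⟩ : ∃ a : ℤ, m = 2 * a ∨ m = 2 * a - 1 := ⟨(m + 1) / 2, by omega⟩ <;>
  obtain ⟨b, hb | hb⟩ : ∃ b : ℤ, l = 2 * b ∨ l = 2 * b - 1 := ⟨(l + 1) / 2, by omega⟩ <;>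
    subst ha <;> subst hb <;> push_cast at m1 m2 l1 l2
  · exact nn_f hp hS hk hA hδ hM hw hfar hf hwf hc m1 m2 l1 l2
  · exact nn_h hp hS hk hA hδ hM hw hfar hf hwf hc m1 m2 l1 l2
  · exact nn_v hp hS hk hA hδ hM hw hfar hf hwf hc m1 m2 l1 l2
  · exact nn_x hp hS hk hA hδ hM hw hfar hf hwf hc m1 m2 l1 l2

end

end Vale.Agent.P167.H531.K
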