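import Vale.Agent.P167.H531.Q.Br5
import Vale.Agent.P167.H713.Q.Comp

/-!
# P167, general `q`, continuity: the bridge between the lattice and the slit domain (5)

The bridge lemmas at mesh `δ`, for the sets `Dn`, `Cn`, `Sd` of `H713/Q/Bad.lean`.
-/

set_option autoImplicit false
set_option linter.unusedVariables false
set_option linter.unusedSectionVars false

open Set Metric Relation Filter Topology

namespace Vale.Agent.P167.H531.K

open Vale.Agent.P145.FB (PStep)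
open Vale.Agent.P167.E6 Vale.Agent.P167.E2 Vale.Agent.P167.Fjord
open Vale.Agent.P167.H166
open Vale.Agent.P167.H531.Q (Tch Gm M3 Sm BC bq_mono')
open Vale.Agent.P167.H713.Q (oR Dn Sd tip)
open Vale.Agent.P167.H72.SD (dk)
open Vale.Agent.P167.H634 (RO LO SqD Sq1)
open Vale.Agent.P167.H161 (zp)

variable {n : ℕ} {p : ZMod n → ℤ × ℤ} {S : Finset (ℤ × ℤ)} {k : ℕ} {A : Finset (Sym2 (ℤ × ℤ))}
  {z z1 : ℤ × ℤ} {R r h : ℤ} {ω : Cfg} {M M0 : ℕ} {δ : ℝ} {u w : ℂ}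

/-! ### Components and paths -/

theorem joined_of_cc {F : Set ℂ} (hF : IsOpen F) {u w : ℂ} (h : w ∈ connectedComponentIn F u) :
    JoinedIn F u w := by
  have hu : u ∈ F := connectedComponentIn_nonempty_iff.1 ⟨w, h⟩
  have h1 : IsConnected (connectedComponentIn F u) := ⟨⟨w, h⟩, isPreconnected_connectedComponentIn⟩
  have h2 : IsPathConnected (connectedComponentIn F u) :=
    (hF.connectedComponentIn.isConnected_iff_isPathConnected).1 h1
  exact (h2.joinedIn u (mem_connectedComponentIn hu) w h).mono (connectedComponentIn_subset _ _)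

theorem cc_of_joined {F : Set ℂ} {u w : ℂ} (h : JoinedIn F u w) : w ∈ connectedComponentIn F u := by
  obtain ⟨γ, hγ⟩ := h
  have h1 : IsPreconnected (range γ) := isPreconnected_range γ.continuous
  have h2 : range γ ⊆ F := by
    rintro _ ⟨t, rfl⟩
    exact hγ t
  exact (h1.subset_connectedComponentIn ⟨0, γ.source⟩ h2) ⟨1, γ.target⟩

/-! ### Scaling -/

/-- The open region of mesh `1`. -/
def R1 (z : ℤ × ℤ) (s : ℝ) : Set ℂ := {w | |w.re - w.im - z.1| < s ∧ |w.re + w.im - z.2| < s}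

theorem mem_oR (hδ : 0 < δ) {s : ℝ} {w : ℂ} : (δ : ℂ) * w ∈ oR δ z s ↔ w ∈ R1 z s := by
  simp only [oR, R1, mem_ofPred_eq, Complex.re_ofReal_mul, Complex.im_ofReal_mul]
  rw [← mul_sub, ← mul_add, ← mul_sub, ← mul_sub, abs_mul, abs_mul, abs_of_pos hδ]
  constructor
  · rintro ⟨h1, h2⟩
    exact ⟨lt_of_mul_lt_mul_left h1 hδ.le, lt_of_mul_lt_mul_left h2 hδ.le⟩
  · rintro ⟨h1, h2⟩
    exact ⟨mul_lt_mul_of_pos_left h1 hδ, mul_lt_mul_of_pos_left h2 hδ⟩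

theorem dn_iff (hδ : 0 < δ) {w : ℂ} :
    (δ : ℂ) * w ∈ Dn p k S A (M0 + 1) δ ↔ w ∈ sD1 p k S A δ M0 := by
  unfold Dn sD1 zM
  rw [Set.mem_sdiff, Set.mem_sdiff, mem_Om hδ, mem_ofPred_eq]
  push_cast
  rfl

theorem div_mul (hδ : 0 < δ) (w : ℂ) : (δ : ℂ) * (w / δ) = w :=
  mul_div_cancel₀ _ (by exact_mod_cast hδ.ne')

/-- From mesh `1` to mesh `δ`. -/
theorem join_up (hδ : 0 < δ) {s : ℝ} {a b : ℂ}
    (h : JoinedIn (sD1 p k S A δ M0 ∩ R1 z s) a b) :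
    JoinedIn (Dn p k S A (M0 + 1) δ ∩ oR δ z s) ((δ : ℂ) * a) ((δ : ℂ) * b) := by
  refine (h.map (f := fun z : ℂ => (δ : ℂ) * z) (by fun_prop)).mono ?_
  rintro _ ⟨w, hw, rfl⟩
  exact ⟨(dn_iff hδ).2 hw.1, (mem_oR hδ).2 hw.2⟩

/-- From mesh `δ` to mesh `1`. -/
theorem join_dn (hδ : 0 < δ) {s : ℝ} {a b : ℂ}
    (h : JoinedIn (Dn p k S A (M0 + 1) δ ∩ oR δ z s) a b) :
    JoinedIn (sD1 p k S A δ M0 ∩ R1 z s) (a / δ) (b / δ) := by
  refine (h.map (f := fun z : ℂ => z / (δ : ℂ)) (by fun_prop)).mono ?_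
  rintro _ ⟨w, hw, rfl⟩
  refine ⟨(dn_iff hδ).1 ?_, (mem_oR hδ).1 ?_⟩
  · rw [div_mul hδ]; exact hw.1
  · rw [div_mul hδ]; exact hw.2

theorem ojoin_dn (hδ : 0 < δ) {s : ℝ} {a b : ℂ} (h : JoinedIn (Om δ S ∩ oR δ z s) a b) :
    JoinedIn (O1 (S : Set (ℤ × ℤ)) ∩ R1 z s) (a / δ) (b / δ) := by
  refine (h.map (f := fun z : ℂ => z / (δ : ℂ)) (by fun_prop)).mono ?_
  rintro _ ⟨w, hw, rfl⟩
  refine ⟨(mem_Om hδ).1 ?_, (mem_oR hδ).1 ?_⟩
  · rw [div_mul hδ]; exact hw.1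
  · rw [div_mul hδ]; exact hw.2

theorem cn_up (hδ : 0 < δ) {s : ℝ} {a b : ℂ}
    (h : JoinedIn (sD1 p k S A δ M0 ∩ R1 z s) a b) :
    (δ : ℂ) * b ∈ H713.Q.Cn p k S A (M0 + 1) δ z s ((δ : ℂ) * a) := cc_of_joined (join_up hδ h)

theorem cn_dn (hδ : 0 < δ) {s : ℝ} {a b : ℂ} (h : b ∈ H713.Q.Cn p k S A (M0 + 1) δ z s a) :
    JoinedIn (sD1 p k S A δ M0 ∩ R1 z s) (a / δ) (b / δ) :=
  join_dn hδ (joined_of_cc ((H713.Q.isOpen_Dn hδ).inter (H713.Q.isOpen_oR δ z s)) h)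

theorem cn_joined (hδ : 0 < δ) {j : ℕ} {s : ℝ} {a b : ℂ} (h : b ∈ H713.Q.Cn p k S A j δ z s a) :
    JoinedIn (Dn p k S A j δ ∩ oR δ z s) a b :=
  joined_of_cc ((H713.Q.isOpen_Dn hδ).inter (H713.Q.isOpen_oR δ z s)) h

/-! ### Regions -/

theorem R1_dist {s ρ : ℝ} {w w' : ℂ} (hw : w ∈ R1 z s) (h : dist w' w ≤ ρ) :
    w' ∈ R1 z (s + 2 * ρ) := by
  obtain ⟨h1, h2⟩ := hw
  rw [dist_eq_norm] at h
  have h3 := (Complex.abs_re_le_norm (w' - w)).trans h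
  have h4 := (Complex.abs_im_le_norm (w' - w)).trans h
  rw [Complex.sub_re, abs_le] at h3
  rw [Complex.sub_im, abs_le] at h4
  rw [abs_lt] at h1 h2
  refine ⟨abs_lt.2 ⟨?_, ?_⟩, abs_lt.2 ⟨?_, ?_⟩⟩ <;> linarith [h3.1, h3.2, h4.1, h4.2, h1.1, h1.2,
    h2.1, h2.2]

theorem R1_mono {s s' : ℝ} (h : s ≤ s') : R1 z s ⊆ R1 z s' :=
  fun _ hw => ⟨hw.1.trans_le h, hw.2.trans_le h⟩

theorem R1_sub {s s' : ℝ} (h : (nm (z1 - z) : ℝ) + s ≤ s') : R1 z1 s ⊆ R1 z s' := by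
  rintro w ⟨h1, h2⟩
  have h3 : |((z1.1 - z.1 : ℤ) : ℝ)| ≤ nm (z1 - z) := by
    have : |z1.1 - z.1| ≤ nm (z1 - z) := by
      unfold nm
      exact le_max_left _ _
    exact_mod_cast this
  have h4 : |((z1.2 - z.2 : ℤ) : ℝ)| ≤ nm (z1 - z) := by
    have : |z1.2 - z.2| ≤ nm (z1 - z) := by
      unfold nm
      exact le_max_right _ _
    exact_mod_cast this
  push_cast at h3 h4
  rw [abs_lt] at h1 h2
  rw [abs_le] at h3 h4
  refine ⟨abs_lt.2 ⟨?_, ?_⟩, abs_lt.2 ⟨?_, ?_⟩⟩ <;> linarith [h3.1, h3.2, h4.1, h4.2, h1.1, h1.2,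
    h2.1, h2.2]

theorem pt_R1 {s : ℝ} {v : ℤ × ℤ} : pt v ∈ R1 z s ↔
    |((H192.ro v).1 : ℝ) - z.1| < s ∧ |((H192.ro v).2 : ℝ) - z.2| < s := by
  unfold R1 H192.ro
  rw [mem_ofPred_eq, pt_re, pt_im]
  push_cast
  rfl

theorem f4e1 : ((1 : Fin 4) = 0) = False := by decide
theorem f4e2 : ((2 : Fin 4) = 0) = False := by decide
theorem f4e3 : ((2 : Fin 4) = 1) = False := by decide
theorem f4e4 : ((3 : Fin 4) = 0) = False := by decide
theorem f4e5 : ((3 : Fin 4) = 1) = False := by decide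
theorem f4e6 : ((3 : Fin 4) = 2) = False := by decide

/-- The square of a dart is next to its vertex. -/
theorem cor_me (d : Medial) : FKA.Cor (hdv (H192.me d)) (H192.ro d.1) ∧
    FKA.Cor (tlv (H192.me d)) (H192.ro d.1) := by
  obtain ⟨v, r⟩ := d
  revert r
  refine forall4 ?_ ?_ ?_ ?_ <;>
    unfold FKA.Cor <;> simp only [H192.me, H192.ro, hdv, tlv] <;> simp only [reduceIte, f4e1, f4e2,
      f4e3, f4e4, f4e5, f4e6] <;> split_ifs with h1 <;> simp only [Int.even_iff] at h1 <;>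
      refine ⟨⟨?_, ?_⟩, ?_, ?_⟩ <;> omega

/-- The vertex of a dart which is near the region. -/
theorem tch_R1 {d : Medial} (h : Tch z R (H192.me d)) : pt d.1 ∈ R1 z (R + 1) := by
  have key : ∀ x : ℤ × ℤ, x ∈ FK.Bq z R → FKA.Cor x (H192.ro d.1) → pt d.1 ∈ R1 z (R + 1) := by
    intro x hx hc
    rw [mem_Bq] at hx
    unfold FKA.Cor at hc
    obtain ⟨h1, h2⟩ := hc
    rw [pt_R1]
    have a1 : (z.1 : ℝ) - R ≤ (H192.ro d.1).1 := by
      have : z.1 - R ≤ (H192.ro d.1).1 := by omega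
      exact_mod_cast this
    have a2 : ((H192.ro d.1).1 : ℝ) ≤ z.1 + R := by
      have : (H192.ro d.1).1 ≤ z.1 + R := by omega
      exact_mod_cast this
    have a3 : (z.2 : ℝ) - R ≤ (H192.ro d.1).2 := by
      have : z.2 - R ≤ (H192.ro d.1).2 := by omega
      exact_mod_cast this
    have a4 : ((H192.ro d.1).2 : ℝ) ≤ z.2 + R := by
      have : (H192.ro d.1).2 ≤ z.2 + R := by omega
      exact_mod_cast this
    constructor <;> rw [abs_lt] <;> constructor <;> linarith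
  rcases h with h | h
  · exact key _ h (cor_me d).1
  · exact key _ h (cor_me d).2

/-- The neighbourhood of a dart which touches the box. -/
theorem nbh_V {d : Medial} (h : Tch z R (H192.me d)) : nbh d ⊆ R1 z (R + 5) := by
  intro w hw
  have h1 := R1_dist (tch_R1 h) (mem_closedBall.1 hw)
  exact R1_mono (by linarith) h1

/-- A vertex in the region. -/
theorem hdv_Bq {s : ℤ} {d : Medial} (h : pt d.1 ∈ R1 z s) : hdv (H192.me d) ∈ FK.Bq z s ∧
    tlv (H192.me d) ∈ FK.Bq z s := by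
  rw [pt_R1] at h
  obtain ⟨h1, h2⟩ := h
  rw [abs_lt] at h1 h2
  have a1 : z.1 - s < (H192.ro d.1).1 := by
    have : ((z.1 - s : ℤ) : ℝ) < (H192.ro d.1).1 := by push_cast; linarith
    exact_mod_cast this
  have a2 : (H192.ro d.1).1 < z.1 + s := by
    have : ((H192.ro d.1).1 : ℝ) < ((z.1 + s : ℤ) : ℝ) := by push_cast; linarith
    exact_mod_cast this
  have a3 : z.2 - s < (H192.ro d.1).2 := by
    have : ((z.2 - s : ℤ) : ℝ) < (H192.ro d.1).2 := by push_cast; linarith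
    exact_mod_cast this
  have a4 : (H192.ro d.1).2 < z.2 + s := by
    have : ((H192.ro d.1).2 : ℝ) < ((z.2 + s : ℤ) : ℝ) := by push_cast; linarith
    exact_mod_cast this
  have hc := cor_me d
  unfold FKA.Cor at hc
  obtain ⟨⟨c1, c2⟩, c3, c4⟩ := hc
  rw [mem_Bq, mem_Bq]
  omega

/-- The darts near the region. -/
theorem nr_R1 {s : ℤ} {d : Medial} (h : d ∈ Nr (R1 z s)) : hdv (H192.me d) ∈ FK.Bq z (s + 6) ∧
    nbh d ⊆ R1 z (s + 10) := by
  obtain ⟨u, hu, hd⟩ := h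
  rw [dist_comm] at hd
  have h1 : pt d.1 ∈ R1 z ((s + 6 : ℤ) : ℝ) := by
    have := R1_dist hu hd
    push_cast
    exact R1_mono (by norm_num) this
  refine ⟨(hdv_Bq h1).1, fun w hw => ?_⟩
  have := R1_dist h1 (mem_closedBall.1 hw)
  exact R1_mono (by push_cast; linarith) this

/-! ### Unread squares -/

section

variable (hp : IsPolygon p) (hS : Encloses p S) (hk : k + 1 < n) (hA : A ⊆ edges S)

/-- **A closed unread square which meets a component.** -/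
theorem sq_Cn (hA : A ⊆ edges S) (hδ : 0 < δ) {j N : ℕ} (hj : j - 1 ≤ len p k A) {x : ℤ × ℤ}
    (hx : x ∈ dk p k S A j) (h : (SqD δ x ∩ H713.Q.Cn p k S A j δ z N u).Nonempty) {y : ℂ}
    (hy : y ∈ SqD δ x) (hyD : y ∈ Dn p k S A j δ) (hyR : y ∈ oR δ z N) :
    y ∈ H713.Q.Cn p k S A j δ z N u := by
  obtain ⟨h1, h2⟩ := H713.Q.io_Cn hδ hA hj hx h
  have h3 : IsPreconnected ((H713.Q.Io δ x ∩ Om δ S) ∪ {y}) := by
    refine (H713.Q.conv_io hδ (H713.Q.edges_of_dk hx)).isPreconnected.subset_closure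
      subset_union_left ?_
    refine union_subset subset_closure ?_
    rw [singleton_subset_iff]
    exact H713.Q.clos hδ (H713.Q.edges_of_dk hx) hy hyD.1
  obtain ⟨x', hx1, hx2⟩ := h
  have hxO : x' ∈ Om δ S := (H713.Q.Cn_sub hx2).1.1
  obtain ⟨y', hy1, hy2⟩ := mem_closure_iff_nhds.1
    (H713.Q.clos hδ (H713.Q.edges_of_dk hx) hx1 hxO) _ ((H713.Q.isOpen_Cn hδ).mem_nhds hx2)
  exact H713.Q.sub_Cn h3 (union_subset (fun w hw => ⟨H713.Q.io_sub hδ hA hj hx hw, h1 hw.1⟩)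
    (singleton_subset_iff.2 ⟨hyD, hyR⟩)) ⟨y', Or.inl hy2, hy1⟩ (Or.inr rfl)

theorem f4s0 : (0 : Fin 4) - 1 = 3 := by decide
theorem f4s1 : (1 : Fin 4) - 1 = 0 := by decide
theorem f4s2 : (2 : Fin 4) - 1 = 1 := by decide
theorem f4s3 : (3 : Fin 4) - 1 = 2 := by decide
theorem dir_0 : dir 0 = (1, 0) := rfl
theorem dir_1 : dir 1 = (0, 1) := rfl
theorem dir_2 : dir 2 = (-1, 0) := rfl
theorem dir_3 : dir 3 = (0, -1) := rfl

/-- The four darts of a square. -/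
theorem cor_dart {x q : ℤ × ℤ} (hq : FKA.Cor x q) : ∃ (c : Bool) (d : Medial),
    H192.sq (ahead d) = x ∧ (if c then H192.ro d.1 else H192.rf (fc d)) = q := by
  obtain ⟨u, r, hur⟩ := H192.isEdge_ed x
  have hx : x = H192.sq s(u, u + dir r) := by rw [← hur, H192.sq_ed]
  have e1 : ahead (u, r - 1) = s(u, u + dir r) := by
    show s(u, u + dir (r - 1 + 1)) = _
    rw [sub_add_cancel]
  have e2 : ahead (u + dir r, r + 1) = s(u, u + dir r) := by
    show s(u + dir r, u + dir r + dir (r + 1 + 1)) = _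
    rw [Sym2.eq_swap]
    congr 1
    clear hur hx e1
    revert r
    refine forall4 ?_ ?_ ?_ ?_ <;> ext <;> simp [dir]
  have e3 : fc (u, r - 1) = face u (r - 1) := rfl
  have e4 : fc (u + dir r, r + 1) = face u r := face_left u r
  have key : q = H192.ro u ∨ q = H192.ro (u + dir r) ∨ q = H192.rf (face u r) ∨
      q = H192.rf (face u (r - 1)) := by
    rw [H634.sq_edge] at hx
    clear hur e1 e2 e3 e4
    obtain ⟨q1, q2⟩ := q
    unfold FKA.Cor at hq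
    revert r
    refine forall4 ?_ ?_ ?_ ?_ <;> rintro rfl <;> obtain ⟨h1, h2⟩ := hq <;>
      simp only [H192.ro, H192.rf, face0, face1, face2, face3, f4s0, f4s1, f4s2, f4s3, dir_0, dir_1,
        dir_2, dir_3, Prod.mk.injEq, Prod.fst_add, Prod.snd_add] at h1 h2 ⊢ <;> omega
  rcases key with h | h | h | h
  · exact ⟨true, (u, r - 1), by rw [e1, ← hx], by rw [if_pos rfl]; exact h.symm⟩
  · exact ⟨true, (u + dir r, r + 1), by rw [e2, ← hx], by rw [if_pos rfl]; exact h.symm⟩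
  · exact ⟨false, (u + dir r, r + 1), by rw [e2, ← hx], by
      rw [if_neg Bool.false_ne_true, e4]; exact h.symm⟩
  · exact ⟨false, (u, r - 1), by rw [e1, ← hx], by
      rw [if_neg Bool.false_ne_true, e3]; exact h.symm⟩

end

end Vale.Agent.P167.H531.K
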