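import Vale.Agent.P167.QC.Ent

/-!
# P167, general `q`, continuity: the link between double walls and three strands (1)

Strands of a box: the sum of the potentials of all strands alternates along the boundary of the
box, so an even and an odd corner of the boundary are always separated by a strand.
-/

set_option autoImplicit false
set_option linter.unusedVariables false
set_option linter.unusedSectionVars false

namespace Vale.Agent.P167.H531.Q

open Finset Relation
open Vale.Agent.P167.H166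
open Vale.Agent.P167.H161 (PotX exists_PotX)
open Vale.Agent.P167.QC (par sd sd_par sd_cor ent_exit arc_ent)
open Vale.Agent.P167.QC.Mid (Str bc be be_cases be_surj tlv_it)

variable {z : ℤ × ℤ} {R : ℤ} {ω : Cfg}

/-- `e` touches the box. -/
def Tch (z : ℤ × ℤ) (R : ℤ) (e : Ed) : Prop := hdv e ∈ FK.Bq z R ∨ tlv e ∈ FK.Bq z R

/-- An arc which leaves the box has entered it. -/
theorem exists_ent {B : Finset (ℤ × ℤ)} {e : Ed} (he : hdv e ∈ B ∨ tlv e ∈ B)
    (hx : ∃ n : ℕ, hdv ((nx ω)^[n] e) ∉ B) :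
    ∃ (e0 : Ed) (N : ℕ), tlv e0 ∉ B ∧ (nx ω)^[N] e0 = e ∧ ∀ i < N, hdv ((nx ω)^[i] e0) ∈ B := by
  classical
  by_contra hcon
  push Not at hcon
  -- backwards
  have hback : ∀ N : ℕ, ∃ a : Ed, (nx ω)^[N] a = e ∧ ∀ i < N, hdv ((nx ω)^[i] a) ∈ B := by
    intro N
    induction N with
    | zero => exact ⟨e, rfl, fun i hi => absurd hi (Nat.not_lt_zero i)⟩
    | succ N ih =>
      obtain ⟨a, h1, h2⟩ := ih
      have h3 : tlv a ∈ B := by
        by_contra h3
        obtain ⟨i, hi, h4⟩ := hcon a N h3 h1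
        exact h4 (h2 i hi)
      obtain ⟨b, rfl⟩ := (s_nx ω).2 a
      refine ⟨b, by rw [Function.iterate_succ_apply]; exact h1, fun i hi => ?_⟩
      cases i with
      | zero => rw [tlv_nx] at h3; exact h3
      | succ i =>
        rw [Function.iterate_succ_apply]
        exact h2 i (by omega)
  choose a h1 h2 using hback
  have hmem : ∀ N, a N ∈ {e : Ed | hdv e ∈ B ∨ tlv e ∈ B} := by
    intro N
    cases N with
    | zero => have := h1 0; simp only [Function.iterate_zero, id_eq] at this; rw [this]; exact he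
    | succ N => exact Or.inl (h2 (N + 1) 0 (by omega))
  obtain ⟨m, n, hmn, heq⟩ : ∃ m n : ℕ, m < n ∧ a m = a n := by
    have hfin := touch_finite B
    by_contra hno
    push Not at hno
    have hinj : Function.Injective fun N => (⟨a N, hmem N⟩ : {e : Ed | hdv e ∈ B ∨ tlv e ∈ B}) := by
      intro m n h
      simp only [Subtype.mk.injEq] at h
      rcases lt_trichotomy m n with h3 | h3 | h3
      · exact absurd h (hno m n h3)
      · exact h3
      · exact absurd h.symm (hno n m h3)
    have := hfin.to_subtype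
    exact not_injective_infinite_finite _ hinj
  -- the orbit is periodic inside `B`
  have hk : ∀ i < n - m, hdv ((nx ω)^[i] e) ∈ B := by
    intro i hi
    have h3 : (nx ω)^[i] e = (nx ω)^[m + i] (a n) := by
      rw [← h1 m, heq, ← Function.iterate_add_apply, add_comm i m]
    rw [h3]
    exact h2 n _ (by omega)
  have hper : (nx ω)^[n - m] e = e := by
    have h3 : (nx ω)^[m] (a n) = e := by rw [← heq]; exact h1 m
    conv_lhs => rw [← h3]
    rw [← Function.iterate_add_apply, show n - m + m = n by omega]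
    exact h1 n
  have hall : ∀ i, hdv ((nx ω)^[i] e) ∈ B := by
    intro i
    induction i using Nat.strong_induction_on with
    | _ i ih =>
      by_cases h3 : i < n - m
      · exact hk i h3
      · have h4 : (nx ω)^[i] e = (nx ω)^[i - (n - m)] e := by
          conv_lhs => rw [show i = (i - (n - m)) + (n - m) by omega, Function.iterate_add_apply,
            hper]
        rw [h4]
        exact ih _ (by omega)
  obtain ⟨i, hi⟩ := hx
  exact hi (hall i)

/-- The strand of an edge whose arc leaves the box. -/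
theorem str_of {e : Ed} (he : Tch z R e) (hx : ∃ n : ℕ, hdv ((nx ω)^[n] e) ∉ FK.Bq z R) :
    ∃ (e0 : Ed) (N : ℕ), Str z R ω e0 N ∧ e ∈ Arc (FK.Bq z R) ω e0 := by
  classical
  obtain ⟨e0, N0, h1, h2, h3⟩ := exists_ent (ω := ω) he hx
  have hex := ent_exit (ω := ω) h1
  have hN := Nat.find_spec hex
  have hmin : ∀ i < Nat.find hex, hdv ((nx ω)^[i] e0) ∈ FK.Bq z R := fun i hi =>
    not_not.1 (Nat.find_min hex hi)
  have h0 : hdv e0 ∈ FK.Bq z R := by
    rcases Nat.eq_zero_or_pos N0 with h4 | h4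
    · rw [h4] at h2
      simp only [Function.iterate_zero, id_eq] at h2
      rw [← h2] at he
      exact he.resolve_right h1
    · exact h3 0 h4
  refine ⟨e0, Nat.find hex, ⟨h1, hmin, hN, ?_⟩, Or.inl ⟨N0, h2, h3⟩⟩
  rcases Nat.eq_zero_or_pos (Nat.find hex) with h4 | h4
  · exfalso
    rw [h4] at hN
    exact hN h0
  · exact h4

/-- An edge which crosses the boundary of the box. -/
def Bde (z : ℤ × ℤ) (R : ℤ) (a : Ed) : Prop :=
  (hdv a ∈ FK.Bq z R ∧ tlv a ∉ FK.Bq z R) ∨ (tlv a ∈ FK.Bq z R ∧ hdv a ∉ FK.Bq z R)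

theorem Bde.tch {a : Ed} (h : Bde z R a) : Tch z R a := h.elim (fun h => Or.inl h.1) fun h =>
  Or.inr h.1

theorem Bde.exit {a : Ed} (h : Bde z R a) : ∃ n : ℕ, hdv ((nx ω)^[n] a) ∉ FK.Bq z R := by
  rcases h with h | h
  · exact ent_exit h.2
  · exact ⟨0, h.2⟩

/-- A corner of the boundary of the box. -/
def BC (z : ℤ × ℤ) (R : ℤ) (s : ℤ × ℤ) : Prop := ∃ k, 0 ≤ k ∧ k ≤ 8 * R ∧ bc z R k = s

theorem Bde.bc {a : Ed} (h : Bde z R a) (c : Bool) : BC z R (sd c a) := by
  obtain ⟨k, h0, h1, rfl⟩ := be_surj h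
  rcases be_cases (z := z) h0 h1 with ⟨-, -, h2, h3⟩ | ⟨-, -, h2, h3⟩ <;> cases c
  · exact ⟨k + 1, by omega, by omega, h3.symm⟩
  · exact ⟨k, by omega, by omega, h2.symm⟩
  · exact ⟨k, by omega, by omega, h3.symm⟩
  · exact ⟨k + 1, by omega, by omega, h2.symm⟩

theorem be_bde {k : ℤ} (h0 : 0 ≤ k) (h1 : k < 8 * R) : Bde z R (be z R k) := by
  rcases be_cases (z := z) h0 h1 with h | h
  · exact Or.inl ⟨h.1, h.2.1⟩
  · exact Or.inr ⟨h.1, h.2.1⟩

/-- **An even and an odd corner of the boundary are separated by a strand.** -/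
theorem exists_sep {P O : ℤ × ℤ} (hP : BC z R P) (hO : BC z R O) (eP : (P.1 + P.2) % 2 = 0)
    (eO : (O.1 + O.2) % 2 = 1) : ∃ (e : Ed) (N : ℕ) (w : ℤ × ℤ → ℤ), Str z R ω e N ∧
      PotX z R (Arc (FK.Bq z R) ω e) w ∧ w P ≠ w O := by
  classical
  have hfin : {e : Ed | tlv e ∉ FK.Bq z R ∧ hdv e ∈ FK.Bq z R}.Finite :=
    (touch_finite (FK.Bq z R)).subset fun e he => Or.inl he.2
  set E := hfin.toFinset with hE
  have hpot : ∀ e : Ed, ∃ w : ℤ × ℤ → ℤ, PotX z R (Arc (FK.Bq z R) ω e) w := fun e =>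
    exists_PotX (Arc.inv (FK.Bq z R) ω e)
  choose W hW using hpot
  set T : ℤ × ℤ → ℤ := fun s => ∑ e ∈ E, W e s with hT
  -- the jump at the boundary
  have hjump : ∀ a, Bde z R a → T (ls a) = T (rs a) + 1 := by
    intro a ha
    obtain ⟨e0, N, hs, ha0⟩ := str_of (ω := ω) ha.tch ha.exit
    have he0 : e0 ∈ E := by
      rw [hE, Set.Finite.mem_toFinset]
      exact ⟨hs.t, hs.b 0 hs.pos⟩
    have h1 : ∀ e ∈ E, W e (ls a) = W e (rs a) + if e = e0 then 1 else 0 := by
      intro e he
      rw [hE, Set.Finite.mem_toFinset] at he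
      by_cases h2 : e = e0
      · subst h2
        rw [if_pos rfl]
        exact (hW e a ha.tch).1 ha0
      · rw [if_neg h2, add_zero]
        refine (hW e a ha.tch).2 fun h3 => h2 ?_
        exact arc_ent hs.t he.1 (Arc.trans ha0 (Arc.symm h3))
    simp only [hT]
    rw [Finset.sum_congr rfl h1, Finset.sum_add_distrib, Finset.sum_ite_eq' E e0 fun _ => (1 : ℤ),
      if_pos he0]
  -- along the boundary
  have hlin : ∀ k : ℤ, 0 ≤ k → k ≤ 8 * R →
      T (bc z R k) + ((bc z R k).1 + (bc z R k).2) % 2 =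
      T (bc z R 0) + ((bc z R 0).1 + (bc z R 0).2) % 2 := by
    intro k h0
    induction k, h0 using Int.leInduction with
    | base => intro _; rfl
    | succ k hk ih =>
      intro h1
      have h2 := ih (by omega)
      have h3 := hjump _ (be_bde (z := z) hk (show k < 8 * R by omega))
      have p1 := sd_par true (be z R k)
      have p2 := sd_par false (be z R k)
      simp only [sd, par, if_true, Bool.false_eq_true, if_false] at p1 p2
      rcases be_cases (z := z) hk (show k < 8 * R by omega) with ⟨-, -, h4, h5⟩ | ⟨-, -, h4, h5⟩ <;>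
        rw [h4, h5] at h3 <;> rw [h4] at p1 <;> rw [h5] at p2 <;> omega
  obtain ⟨k, k0, k1, rfl⟩ := hP
  obtain ⟨l, l0, l1, rfl⟩ := hO
  have h1 := hlin k k0 k1
  have h2 := hlin l l0 l1
  have h3 : T (bc z R k) ≠ T (bc z R l) := by omega
  by_contra hcon
  push Not at hcon
  apply h3
  simp only [hT]
  refine Finset.sum_congr rfl fun e he => ?_
  rw [hE, Set.Finite.mem_toFinset] at he
  obtain ⟨e0, N, hs, ha0⟩ := str_of (ω := ω) (z := z) (R := R) (e := e) (Or.inl he.2)
    (ent_exit he.1)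
  have h4 : e0 = e := arc_ent he.1 hs.t (Arc.symm ha0)
  rw [h4] at hs
  exact hcon e N (W e) hs (hW e)

end Vale.Agent.P167.H531.Q
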