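import Vale.Agent.P167.H531.Q.Lk1

/-!
# P167, general `q`, continuity: the link between double walls and three strands (2)

`Gam` is the set of the edges of an explored path. Walking off the path and along one side of it.
-/

set_option autoImplicit false
set_option linter.unusedVariables false
set_option linter.unusedSectionVars false

namespace Vale.Agent.P167.H531.Q

open Finset Relation
open Vale.Agent.P167.H166
open Vale.Agent.P167.H161 (PotX exists_PotX)
open Vale.Agent.P167.QC (par sd sd_par sd_cor ent_exit arc_ent)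
open Vale.Agent.P167.QC.Mid (Str bc be be_cases be_surj tlv_it)

variable {z : ℤ × ℤ} {R : ℤ} {ω : Cfg} {Γ AL : Set Ed}

/-- The explored edges: closed under the interface inside the box, and made of strands. -/
structure Gm (z : ℤ × ℤ) (R : ℤ) (ω : Cfg) (Γ : Set Ed) : Prop where
  inv : Inv (FK.Bq z R : Set (ℤ × ℤ)) ω Γ
  ex : ∀ e ∈ Γ, Tch z R e → ∃ n : ℕ, hdv ((nx ω)^[n] e) ∉ FK.Bq z R

theorem Gm.str (h : Gm z R ω Γ) {e : Ed} (he : e ∈ Γ) (ht : Tch z R e) :
    ∃ (e0 : Ed) (N : ℕ), Str z R ω e0 N ∧ e ∈ Arc (FK.Bq z R) ω e0 :=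
  str_of ht (h.ex e he ht)

theorem Gm.sub (h : Gm z R ω Γ) {e a : Ed} (he : e ∈ Γ) (ha : a ∈ Arc (FK.Bq z R) ω e) :
    a ∈ Γ := by
  have key : ∀ (n : ℕ) (b : Ed), (∀ i < n, hdv ((nx ω)^[i] b) ∈ FK.Bq z R) →
      (b ∈ Γ ↔ (nx ω)^[n] b ∈ Γ) := by
    intro n
    induction n with
    | zero => intro b _; rfl
    | succ n ih =>
      intro b hb
      rw [ih b fun i hi => hb i (by omega), Function.iterate_succ_apply']
      exact h.inv _ (Finset.mem_coe.2 (hb n (by omega)))
  rcases ha with ⟨n, rfl, h1⟩ | ⟨n, h1, h2⟩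
  · exact (key n e h1).1 he
  · exact (key n a h2).2 (by rw [h1]; exact he)

theorem sd_tt (e : Ed) : sd true e = ls e := rfl
theorem sd_ff (e : Ed) : sd false e = rs e := rfl

/-- The potential along an arc. -/
theorem pot_arc {A : Set Ed} {w : ℤ × ℤ → ℤ} (hw : PotX z R A w)
    (hA : Inv (FK.Bq z R : Set (ℤ × ℤ)) ω A) {e a : Ed} (ha : a ∈ Arc (FK.Bq z R) ω e) (c : Bool) :
    w (sd c a) = w (sd c e) := by
  rcases ha with h | h
  · obtain ⟨h1, h2⟩ := hw.fw hA h
    cases c
    · exact h2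
    · exact h1
  · obtain ⟨h1, h2⟩ := hw.fw hA h
    cases c
    · exact h2.symm
    · exact h1.symm

/-- Off the set of the potential the two sides have the same value. -/
theorem pot_side {A : Set Ed} {w : ℤ × ℤ → ℤ} (hw : PotX z R A w) {e : Ed} (he : Tch z R e)
    (hn : e ∉ A) (c c' : Bool) : w (sd c e) = w (sd c' e) := by
  have := (hw e he).2 hn
  cases c <;> cases c' <;> simp only [sd, if_true, Bool.false_eq_true, if_false] <;> omega

/-- A step off the path or along one side of the path. -/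
def Stp (z : ℤ × ℤ) (R : ℤ) (ω : Cfg) (Γ AL : Set Ed) (a b : ℤ × ℤ) : Prop :=
  (∃ e ∈ AL, e ∉ Γ ∧ Tch z R e ∧ ∃ c, a = sd c e ∧ b = sd (!c) e) ∨
  (∃ e ∈ Γ, hdv e ∈ FK.Bq z R ∧ ∃ c, (a = sd c e ∧ b = sd c (nx ω e)) ∨
    (a = sd c (nx ω e) ∧ b = sd c e))

theorem Stp.symm {a b : ℤ × ℤ} (h : Stp z R ω Γ AL a b) : Stp z R ω Γ AL b a := by
  rcases h with ⟨e, h1, h2, h3, c, h4, h5⟩ | ⟨e, h1, h2, c, h3⟩
  · exact Or.inl ⟨e, h1, h2, h3, !c, h5, by rw [Bool.not_not]; exact h4⟩
  · exact Or.inr ⟨e, h1, h2, c, h3.symm.imp (fun h => ⟨h.2, h.1⟩) fun h => ⟨h.2, h.1⟩⟩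

/-- Joined in the box off the path. -/
def Jn (z : ℤ × ℤ) (R : ℤ) (ω : Cfg) (Γ AL : Set Ed) (a b : ℤ × ℤ) : Prop :=
  ReflTransGen (Stp z R ω Γ AL) a b

theorem Jn.symm {a b : ℤ × ℤ} (h : Jn z R ω Γ AL a b) : Jn z R ω Γ AL b a := by
  induction h with
  | refl => exact ReflTransGen.refl
  | tail _ h2 ih => exact ReflTransGen.head h2.symm ih

theorem Jn.trans {a b c : ℤ × ℤ} (h : Jn z R ω Γ AL a b) (h' : Jn z R ω Γ AL b c) :
    Jn z R ω Γ AL a c := ReflTransGen.trans h h'

/-- The potential of a part of the path is constant on the joined corners. -/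
theorem Jn.pot {A : Set Ed} {w : ℤ × ℤ → ℤ} (hw : PotX z R A w)
    (hA : Inv (FK.Bq z R : Set (ℤ × ℤ)) ω A) (hAG : A ⊆ Γ) {a b : ℤ × ℤ}
    (h : Jn z R ω Γ AL a b) : w a = w b := by
  induction h with
  | refl => rfl
  | @tail b d _ hs ih =>
    rw [ih]
    rcases hs with ⟨e, -, h2, h3, c, rfl, rfl⟩ | ⟨e, h1, h2, c, h3⟩
    · exact pot_side hw h3 (fun h => h2 (hAG h)) _ _
    · obtain ⟨k1, k2⟩ := hw.nx hA h2
      rcases h3 with ⟨rfl, rfl⟩ | ⟨rfl, rfl⟩ <;> cases c <;>
        simp only [sd, if_true, Bool.false_eq_true, if_false] <;> omega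

/-- Walk along one side of the path. -/
theorem bank (hG : Gm z R ω Γ) {e a : Ed} (he : e ∈ Γ) (ha : a ∈ Arc (FK.Bq z R) ω e) (c : Bool) :
    Jn z R ω Γ AL (sd c e) (sd c a) := by
  have key : ∀ (n : ℕ) (b : Ed), b ∈ Γ → (∀ i < n, hdv ((nx ω)^[i] b) ∈ FK.Bq z R) →
      Jn z R ω Γ AL (sd c b) (sd c ((nx ω)^[n] b)) := by
    intro n
    induction n with
    | zero => intro b _ _; exact ReflTransGen.refl
    | succ n ih =>
      intro b hb hn
      refine (ih b hb fun i hi => hn i (by omega)).tail (Or.inr ⟨(nx ω)^[n] b, ?_, hn n (by omega),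
        c, Or.inl ⟨rfl, by rw [Function.iterate_succ_apply']⟩⟩)
      exact hG.sub hb (Or.inl ⟨n, rfl, fun i hi => hn i (by omega)⟩)
  rcases ha with ⟨n, rfl, h1⟩ | ⟨n, h1, h2⟩
  · exact key n e he h1
  · have ha : a ∈ Γ := hG.sub he (Or.inr ⟨n, h1, h2⟩)
    have := key n a ha h2
    rw [h1] at this
    exact this.symm

/-- A unit step across the edge `e`. -/
def US (z : ℤ × ℤ) (R : ℤ) (AL : Set Ed) (a b : ℤ × ℤ) (e : Ed) : Prop :=
  e ∈ AL ∧ Tch z R e ∧ ∃ c, a = sd c e ∧ b = sd (!c) e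

theorem US.symm {a b : ℤ × ℤ} {e : Ed} (h : US z R AL a b e) : US z R AL b a e := by
  obtain ⟨h1, h2, c, h3, h4⟩ := h
  exact ⟨h1, h2, !c, h4, by rw [Bool.not_not]; exact h3⟩

/-- **The walk.** If the ends of a chain are not joined then a strand of the path which crosses the
chain separates them, and the start of the chain is joined to it on the chain. -/
theorem walk (hG : Gm z R ω Γ) : ∀ (n : ℕ) (p : ℕ → ℤ × ℤ) (E : ℕ → Ed),
    (∀ i < n, US z R AL (p i) (p (i + 1)) (E i)) → ¬ Jn z R ω Γ AL (p 0) (p n) →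
    ∃ i < n, E i ∈ Γ ∧ Jn z R ω Γ AL (p 0) (p i) ∧ ∃ w : ℤ × ℤ → ℤ,
      PotX z R (Arc (FK.Bq z R) ω (E i)) w ∧ w (p 0) ≠ w (p n) := by
  classical
  intro n
  induction n using Nat.strong_induction_on with
  | _ n ih =>
    intro p E hs hJ
    -- the first edge of the path on the chain
    have hstep : ∀ i ≤ n, (∀ j < i, E j ∉ Γ) → Jn z R ω Γ AL (p 0) (p i) := by
      intro i hi
      induction i with
      | zero => intro _; exact ReflTransGen.refl
      | succ i ih2 =>
        intro hj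
        obtain ⟨h1, h2, c, h3, h4⟩ := hs i (by omega)
        exact (ih2 (by omega) fun j hj' => hj j (by omega)).tail
          (Or.inl ⟨E i, h1, hj i (by omega), h2, c, h3, h4⟩)
    have hex : ∃ i, i < n ∧ E i ∈ Γ := by
      by_contra hno
      push Not at hno
      exact hJ (hstep n le_rfl hno)
    obtain ⟨hi0, hiG⟩ := Nat.find_spec hex
    have hmin : ∀ j < Nat.find hex, E j ∉ Γ := fun j hj hG' =>
      Nat.find_min hex hj ⟨by omega, hG'⟩
    set i0 := Nat.find hex with hi0def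
    have hJi := hstep i0 hi0.le hmin
    obtain ⟨w, hw⟩ := exists_PotX (x := z) (R := R) (Arc.inv (FK.Bq z R) ω (E i0))
    have hAG : Arc (FK.Bq z R) ω (E i0) ⊆ Γ := fun a ha => hG.sub hiG ha
    by_cases hsep : w (p 0) ≠ w (p n)
    · exact ⟨i0, hi0, hiG, hJi, w, hw, hsep⟩
    · push Not at hsep
      -- the last edge of the strand on the chain
      set P : ℕ → Prop := fun j => j < n ∧ E j ∈ Arc (FK.Bq z R) ω (E i0) with hP
      have hP0 : P i0 := ⟨hi0, self_mem_Arc _ _ _⟩
      set j := Nat.findGreatest P n with hj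
      have hjs : P j := Nat.findGreatest_spec hi0.le hP0
      have hjge : i0 ≤ j := Nat.le_findGreatest hi0.le hP0
      have hjmax : ∀ i, j < i → i < n → E i ∉ Arc (FK.Bq z R) ω (E i0) := fun i h1 h2 h3 =>
        Nat.findGreatest_is_greatest h1 h2.le ⟨h2, h3⟩
      -- the potential is constant after `j`
      have hcst : ∀ i, j + 1 ≤ i → i ≤ n → w (p i) = w (p (j + 1)) := by
        intro i h1
        induction i, h1 using Nat.le_induction with
        | base => intro _; rfl
        | succ i hi ih2 =>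
          intro h2
          obtain ⟨-, h4, c, h5, h6⟩ := hs i (by omega)
          rw [← ih2 (by omega), h5, h6]
          exact pot_side hw h4 (hjmax i (by omega) (by omega)) _ _
      have hwn : w (p (j + 1)) = w (p i0) := by
        rw [← hcst n (by omega) le_rfl, ← hsep]
        exact Jn.pot hw (Arc.inv _ _ _) hAG hJi
      obtain ⟨-, t0, c0, a0, b0⟩ := hs i0 hi0
      obtain ⟨-, tj, cj, aj, bj⟩ := hs j hjs.1
      -- the side
      have k1 := pot_arc hw (Arc.inv (FK.Bq z R) ω (E i0)) hjs.2 true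
      have k2 := pot_arc hw (Arc.inv (FK.Bq z R) ω (E i0)) hjs.2 false
      have k3 := (hw (E i0) t0).1 (self_mem_Arc _ _ _)
      have hside : (!cj) = c0 := by
        rw [bj, a0] at hwn
        simp only [sd_tt, sd_ff] at k1 k2
        cases cj <;> cases c0 <;> simp only [Bool.not_true, Bool.not_false, sd_tt, sd_ff] at hwn ⊢ <;>
          omega
      have hJ2 : Jn z R ω Γ AL (p i0) (p (j + 1)) := by
        rw [a0, bj, hside]
        exact bank hG hiG hjs.2 c0
      have hJ3 := hJi.trans hJ2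
      have hJ4 : ¬ Jn z R ω Γ AL (p (j + 1)) (p n) := fun h => hJ (hJ3.trans h)
      have hjn : j < n := hjs.1
      obtain ⟨i, hi, h1, h2, w', hw', h3⟩ := ih (n - (j + 1)) (by omega) (fun i => p (j + 1 + i))
        (fun i => E (j + 1 + i)) (fun i hi => hs (j + 1 + i) (by omega)) (by
          show ¬ Jn z R ω Γ AL (p (j + 1 + 0)) (p (j + 1 + (n - (j + 1))))
          rw [add_zero, show j + 1 + (n - (j + 1)) = n by omega]
          exact hJ4)
      refine ⟨j + 1 + i, by omega, h1, hJ3.trans h2, w', hw', ?_⟩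
      have h4 : w' (p 0) = w' (p (j + 1)) := Jn.pot hw' (Arc.inv _ _ _)
        (fun a ha => hG.sub h1 ha) hJ3
      have h3' : w' (p (j + 1)) ≠ w' (p n) := by
        have := h3
        simp only [add_zero] at this
        rwa [show j + 1 + (n - (j + 1)) = n by omega] at this
      rw [h4]
      exact h3'

end Vale.Agent.P167.H531.Q
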