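import Vale.Agent.P167.H531.Q.Lk3

/-!
# P167, general `q`, continuity: a conflict pair with an arm gives three strands (nodes)

The version of `Lk3` with abstract nodes (a node is a corner, or a place next to an exterior face)
and with the tip of the explored path inside of the box.
-/

set_option autoImplicit false
set_option linter.unusedVariables false
set_option linter.unusedSectionVars false

namespace Vale.Agent.P167.H531.K

open Finset Relation
open Vale.Agent.P145.FB (PStep)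
open Vale.Agent.P167.H166
open Vale.Agent.P167.FKA (Cor)
open Vale.Agent.P167.H161 (PotX exists_PotX)
open Vale.Agent.P167.QC (par sd sd_par sd_cor ent_exit arc_ent)
open Vale.Agent.P167.QC.Mid (Str bc be be_cases be_surj tlv_it)
open Vale.Agent.P167.H531.Q (Tch Gm M3 Sm BC Bde str_of str_bde str_exit exists_sep' pot_arc pot_side
  pot_path mk_M3 bq_mono' arc_off sd_tt sd_ff)

/-- Nodes: every side of an edge has a node over its corner. -/
structure Nod (N : Type*) where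
  nd : Bool → Ed → N
  cor : N → ℤ × ℤ
  hc : ∀ c e, cor (nd c e) = sd c e

variable {N : Type*} {ν : Nod N} {z : ℤ × ℤ} {R r h : ℤ} {ω : Cfg} {Γ AL : Set Ed}

/-- A step off the path, or along one side of the path. -/
def Stp (ν : Nod N) (z : ℤ × ℤ) (R : ℤ) (ω : Cfg) (Γ AL : Set Ed) (a b : N) : Prop :=
  (∃ e ∈ AL, e ∉ Γ ∧ Tch z R e ∧ ∃ c, a = ν.nd c e ∧ b = ν.nd (!c) e) ∨
  (∃ e ∈ Γ, Tch z R e ∧ ∃ e' ∈ Arc (FK.Bq z R) ω e, ∃ c, a = ν.nd c e ∧ b = ν.nd c e')

/-- Joined in the box off the path. -/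
def Jn (ν : Nod N) (z : ℤ × ℤ) (R : ℤ) (ω : Cfg) (Γ AL : Set Ed) (a b : N) : Prop :=
  ReflTransGen (Stp ν z R ω Γ AL) a b

theorem arc_tch {e e' : Ed} (he : Tch z R e) (h' : e' ∈ Arc (FK.Bq z R) ω e) : Tch z R e' := by
  rcases h' with ⟨n, rfl, h1⟩ | ⟨n, h1, h2⟩
  · cases n with
    | zero => exact he
    | succ n =>
      rw [Function.iterate_succ_apply']
      right
      rw [tlv_nx]
      exact h1 n (by omega)
  · cases n with
    | zero =>
      simp only [Function.iterate_zero, id_eq] at h1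
      rw [h1]
      exact he
    | succ n =>
      left
      exact h2 0 (by omega)

theorem Stp.symm (hG : Gm z R ω Γ) {a b : N} (h : Stp ν z R ω Γ AL a b) :
    Stp ν z R ω Γ AL b a := by
  rcases h with ⟨e, h1, h2, h3, c, h4, h5⟩ | ⟨e, h1, h2, e', h3, c, h4, h5⟩
  · exact Or.inl ⟨e, h1, h2, h3, !c, h5, by rw [Bool.not_not]; exact h4⟩
  · exact Or.inr ⟨e', hG.sub h1 h3, arc_tch h2 h3, e, Arc.symm h3, c, h5, h4⟩

theorem Jn.symm (hG : Gm z R ω Γ) {a b : N} (h : Jn ν z R ω Γ AL a b) : Jn ν z R ω Γ AL b a := by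
  induction h with
  | refl => exact ReflTransGen.refl
  | tail _ h2 ih => exact ReflTransGen.head (h2.symm hG) ih

theorem Jn.trans {a b c : N} (h : Jn ν z R ω Γ AL a b) (h' : Jn ν z R ω Γ AL b c) :
    Jn ν z R ω Γ AL a c := ReflTransGen.trans h h'

/-- The potential of a part of the path is constant on the joined nodes. -/
theorem Jn.pot {A : Set Ed} {w : ℤ × ℤ → ℤ} (hw : PotX z R A w)
    (hA : Inv (FK.Bq z R : Set (ℤ × ℤ)) ω A) (hAG : A ⊆ Γ) {a b : N}
    (h : Jn ν z R ω Γ AL a b) : w (ν.cor a) = w (ν.cor b) := by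
  induction h with
  | refl => rfl
  | @tail b d _ hs ih =>
    rw [ih]
    rcases hs with ⟨e, -, h2, h3, c, rfl, rfl⟩ | ⟨e, h1, h2, e', h3, c, rfl, rfl⟩
    · rw [ν.hc, ν.hc]
      exact pot_side hw h3 (fun h => h2 (hAG h)) _ _
    · rw [ν.hc, ν.hc]
      exact (pot_arc hw hA h3 c).symm

/-- Walk along one side of the path. -/
theorem bank {e a : Ed} (he : e ∈ Γ) (te : Tch z R e) (ha : a ∈ Arc (FK.Bq z R) ω e) (c : Bool) :
    Jn ν z R ω Γ AL (ν.nd c e) (ν.nd c a) :=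
  ReflTransGen.single (Or.inr ⟨e, he, te, a, ha, c, rfl, rfl⟩)

/-- A unit step across the edge `e`. -/
def US (ν : Nod N) (z : ℤ × ℤ) (R : ℤ) (AL : Set Ed) (a b : N) (e : Ed) : Prop :=
  e ∈ AL ∧ Tch z R e ∧ ∃ c, a = ν.nd c e ∧ b = ν.nd (!c) e

theorem US.symm {a b : N} {e : Ed} (h : US ν z R AL a b e) : US ν z R AL b a e := by
  obtain ⟨h1, h2, c, h3, h4⟩ := h
  exact ⟨h1, h2, !c, h4, by rw [Bool.not_not]; exact h3⟩

/-- **The walk.** -/
theorem walk (hG : Gm z R ω Γ) : ∀ (n : ℕ) (p : ℕ → N) (E : ℕ → Ed),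
    (∀ i < n, US ν z R AL (p i) (p (i + 1)) (E i)) → ¬ Jn ν z R ω Γ AL (p 0) (p n) →
    ∃ i < n, E i ∈ Γ ∧ Jn ν z R ω Γ AL (p 0) (p i) ∧ ∃ w : ℤ × ℤ → ℤ,
      PotX z R (Arc (FK.Bq z R) ω (E i)) w ∧ w (ν.cor (p 0)) ≠ w (ν.cor (p n)) := by
  classical
  intro n
  induction n using Nat.strong_induction_on with
  | _ n ih =>
    intro p E hs hJ
    -- the first edge of the path on the chain
    have hstep : ∀ i ≤ n, (∀ j < i, E j ∉ Γ) → Jn ν z R ω Γ AL (p 0) (p i) := by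
      intro i hi
      induction i with
      | zero => intro _; exact ReflTransGen.refl
      | succ i ih2 =>
        intro hj
        obtain ⟨h1, h2, c, h3, h4⟩ := hs i (by omega)
        exact (ih2 (by omega) fun j hj' => hj j (by omega)).tail
          (Or.inl ⟨E i, h1, hj i (by omega), h2, c, h3, h4⟩)
    have hex : ∃ i, i < n ∧ E i ∈ Γ := by
      by_contra hno
      push Not at hno
      exact hJ (hstep n le_rfl hno)
    obtain ⟨hi0, hiG⟩ := Nat.find_spec hex
    have hmin : ∀ j < Nat.find hex, E j ∉ Γ := fun j hj hG' =>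
      Nat.find_min hex hj ⟨by omega, hG'⟩
    set i0 := Nat.find hex with hi0def
    have hJi := hstep i0 hi0.le hmin
    obtain ⟨w, hw⟩ := exists_PotX (x := z) (R := R) (Arc.inv (FK.Bq z R) ω (E i0))
    have hAG : Arc (FK.Bq z R) ω (E i0) ⊆ Γ := fun a ha => hG.sub hiG ha
    by_cases hsep : w (ν.cor (p 0)) ≠ w (ν.cor (p n))
    · exact ⟨i0, hi0, hiG, hJi, w, hw, hsep⟩
    · push Not at hsep
      -- the last edge of the strand on the chain
      set P : ℕ → Prop := fun j => j < n ∧ E j ∈ Arc (FK.Bq z R) ω (E i0) with hP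
      have hP0 : P i0 := ⟨hi0, self_mem_Arc _ _ _⟩
      set j := Nat.findGreatest P n with hj
      have hjs : P j := Nat.findGreatest_spec hi0.le hP0
      have hjge : i0 ≤ j := Nat.le_findGreatest hi0.le hP0
      have hjmax : ∀ i, j < i → i < n → E i ∉ Arc (FK.Bq z R) ω (E i0) := fun i h1 h2 h3 =>
        Nat.findGreatest_is_greatest h1 h2.le ⟨h2, h3⟩
      -- the potential is constant after `j`
      have hcst : ∀ i, j + 1 ≤ i → i ≤ n → w (ν.cor (p i)) = w (ν.cor (p (j + 1))) := by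
        intro i h1
        induction i, h1 using Nat.le_induction with
        | base => intro _; rfl
        | succ i hi ih2 =>
          intro h2
          obtain ⟨-, h4, c, h5, h6⟩ := hs i (by omega)
          rw [← ih2 (by omega), h5, h6, ν.hc, ν.hc]
          exact pot_side hw h4 (hjmax i (by omega) (by omega)) _ _
      have hwn : w (ν.cor (p (j + 1))) = w (ν.cor (p i0)) := by
        rw [← hcst n (by omega) le_rfl, ← hsep]
        exact Jn.pot hw (Arc.inv _ _ _) hAG hJi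
      obtain ⟨-, t0, c0, a0, b0⟩ := hs i0 hi0
      obtain ⟨-, tj, cj, aj, bj⟩ := hs j hjs.1
      -- the side
      have k1 := pot_arc hw (Arc.inv (FK.Bq z R) ω (E i0)) hjs.2 true
      have k2 := pot_arc hw (Arc.inv (FK.Bq z R) ω (E i0)) hjs.2 false
      have k3 := (hw (E i0) t0).1 (self_mem_Arc _ _ _)
      have hside : (!cj) = c0 := by
        rw [bj, a0, ν.hc, ν.hc] at hwn
        simp only [sd_tt, sd_ff] at k1 k2
        cases cj <;> cases c0 <;> simp only [Bool.not_true, Bool.not_false, sd_tt, sd_ff] at hwn ⊢ <;>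
          omega
      have hJ2 : Jn ν z R ω Γ AL (p i0) (p (j + 1)) := by
        rw [a0, bj, hside]
        exact bank hiG t0 hjs.2 c0
      have hJ3 := hJi.trans hJ2
      have hJ4 : ¬ Jn ν z R ω Γ AL (p (j + 1)) (p n) := fun h => hJ (hJ3.trans h)
      have hjn : j < n := hjs.1
      obtain ⟨i, hi, h1, h2, w', hw', h3⟩ := ih (n - (j + 1)) (by omega) (fun i => p (j + 1 + i))
        (fun i => E (j + 1 + i)) (fun i hi => hs (j + 1 + i) (by omega)) (by
          show ¬ Jn ν z R ω Γ AL (p (j + 1 + 0)) (p (j + 1 + (n - (j + 1))))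
          rw [add_zero, show j + 1 + (n - (j + 1)) = n by omega]
          exact hJ4)
      refine ⟨j + 1 + i, by omega, h1, hJ3.trans h2, w', hw', ?_⟩
      have h4 : w' (ν.cor (p 0)) = w' (ν.cor (p (j + 1))) := Jn.pot hw' (Arc.inv _ _ _)
        (fun a ha => hG.sub h1 ha) hJ3
      have h3' : w' (ν.cor (p (j + 1))) ≠ w' (ν.cor (p n)) := by
        have := h3
        simp only [add_zero] at this
        rwa [show j + 1 + (n - (j + 1)) = n by omega] at this
      rw [h4]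
      exact h3'

/-- **The two-coloured gap.** -/
theorem gap (hG : Gm z R ω Γ) (hrR : r ≤ R) {S : Set (ℤ × ℤ)} (hS : Sm z r h S) {c : Bool}
    {d d' : Ed} (hd : d ∈ Γ) (hd' : d' ∈ Γ) (td : hdv d ∈ S) (td' : hdv d' ∈ S)
    (hJ : Jn ν z R ω Γ AL (ν.nd c d) (ν.nd (!c) d')) : M3 z R r h ω := by
  have hB : ∀ v ∈ S, v ∈ FK.Bq z R := fun v hv => bq_mono' hrR (hS.b v hv)
  obtain ⟨e1, N1, s1, a1⟩ := hG.str hd (Or.inl (hB _ td))
  obtain ⟨e2, N2, s2, a2⟩ := hG.str hd' (Or.inl (hB _ td'))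
  obtain ⟨em, Nm, w, sm, hw, hsep⟩ := exists_sep' (ω := ω) (c := c) ((str_bde s1).bc c)
    ((str_bde s2).bc (!c)) (sd_par _ _) (sd_par _ _)
  have hA := Arc.inv (FK.Bq z R) ω em
  rw [← pot_arc hw hA a1 c, ← pot_arc hw hA a2 (!c)] at hsep
  have hm : em ∉ Γ := fun h => by
    have := Jn.pot hw hA (fun a ha => hG.sub h ha) hJ
    rw [ν.hc, ν.hc] at this
    exact hsep this
  exact mk_M3 hS hrR td td' sm hw (fun h1 => arc_off hG hm h1 hd) (fun h1 => arc_off hG hm h1 hd')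
    hsep (hG.ex _ hd (Or.inl (hB _ td))) (hG.ex _ hd' (Or.inl (hB _ td')))

/-- The potential along a part of the chain. -/
theorem pot_chain {A : Set Ed} {w : ℤ × ℤ → ℤ} (hw : PotX z R A w) {n : ℕ} {p : ℕ → N}
    {E : ℕ → Ed} (hs : ∀ i < n, US ν z R AL (p i) (p (i + 1)) (E i)) {i j : ℕ} (hij : i ≤ j)
    (hj : j ≤ n) (hne : w (ν.cor (p i)) ≠ w (ν.cor (p j))) : ∃ l, i ≤ l ∧ l < j ∧ E l ∈ A := by
  by_contra hno
  push Not at hno
  apply hne
  clear hne
  induction j, hij using Nat.le_induction with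
  | base => rfl
  | succ j hj' ih =>
    rw [ih (by omega) fun l h1 h2 => hno l h1 (by omega)]
    obtain ⟨-, h4, c, h5, h6⟩ := hs j (by omega)
    rw [h5, h6, ν.hc, ν.hc]
    exact pot_side hw h4 (hno j hj' (by omega)) _ _

/-- A walk off the path meets every strand which separates its ends. -/
theorem cross_jn {em : Ed} {w : ℤ × ℤ → ℤ}
    (hw : PotX z R (Arc (FK.Bq z R) ω em) w) {a b : N} (h : Jn ν z R ω Γ AL a b)
    (hne : w (ν.cor a) ≠ w (ν.cor b)) : ∃ e ∈ Arc (FK.Bq z R) ω em, Tch z R e ∧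
      ∃ c, Jn ν z R ω Γ AL a (ν.nd c e) := by
  by_contra hno
  push Not at hno
  apply hne
  clear hne
  induction h with
  | refl => rfl
  | @tail b d hab hs ih =>
    rw [ih]
    rcases hs with ⟨e, -, h2, h3, c, rfl, rfl⟩ | ⟨e, h1, h2, e', h3, c, rfl, rfl⟩
    · rw [ν.hc, ν.hc]
      exact pot_side hw h3 (fun h4 => hno e h4 h3 c hab) _ _
    · rw [ν.hc, ν.hc]
      exact (pot_arc hw (Arc.inv _ _ _) h3 c).symm

/-- **(K2')** A chain between two nodes which are not joined; the first end sees the side `c` of the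
path, the second end sees the side `c` or the strand of the tip, the first end is not joined to the
strand of the tip; an arm of the other colour at the first end. -/
theorem conflict (hG : Gm z R ω Γ) (hrR : r ≤ R) {S : Set (ℤ × ℤ)} (hS : Sm z r h S) {c : Bool}
    {n : ℕ} {p : ℕ → N} {E : ℕ → Ed} (hs : ∀ i < n, US ν z R AL (p i) (p (i + 1)) (E i))
    (hsm : ∀ i < n, hdv (E i) ∈ S) (nj : ¬ Jn ν z R ω Γ AL (p 0) (p n))
    (fu : ∃ i < n, (∀ j < i, E j ∉ Γ) ∧ E i ∈ Γ ∧ p i = ν.nd c (E i)) (tp : Set Ed)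
    (fv : ∃ j < n, (∀ i, j < i → i < n → E i ∉ Γ) ∧ E j ∈ Γ ∧
      (p (j + 1) = ν.nd c (E j) ∨ E j ∈ tp))
    (htp : ∀ j < n, E j ∈ tp → ∀ e ∈ Arc (FK.Bq z R) ω (E j), ∀ c',
      ¬ Jn ν z R ω Γ AL (p 0) (ν.nd c' e)) {t : ℤ × ℤ}
    (hq : ((ν.cor (p 0)).1 + (ν.cor (p 0)).2) % 2 = par (!c))
    (hqt : ReflTransGen (PStep {v | v ∈ FK.Bq z R ∧ ω v = !c}) (ν.cor (p 0)) t)
    (ht : BC z R t) : M3 z R r h ω := by
  have hB : ∀ v ∈ S, v ∈ FK.Bq z R := fun v hv => bq_mono' hrR (hS.b v hv)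
  have hstep : ∀ i ≤ n, (∀ j < i, E j ∉ Γ) → Jn ν z R ω Γ AL (p 0) (p i) := by
    intro i hi
    induction i with
    | zero => intro _; exact ReflTransGen.refl
    | succ i ih2 =>
      intro hj
      obtain ⟨h1, h2, c, h3, h4⟩ := hs i (by omega)
      exact (ih2 (by omega) fun j hj' => hj j (by omega)).tail
        (Or.inl ⟨E i, h1, hj i (by omega), h2, c, h3, h4⟩)
  have hstep' : ∀ j < n, (∀ i, j < i → i < n → E i ∉ Γ) →
      Jn ν z R ω Γ AL (p (j + 1)) (p n) := by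
    intro j hj hno
    have key : ∀ m, j + 1 ≤ m → m ≤ n → Jn ν z R ω Γ AL (p (j + 1)) (p m) := by
      intro m hm
      induction m, hm using Nat.le_induction with
      | base => intro _; exact ReflTransGen.refl
      | succ m hm ih =>
        intro h1
        obtain ⟨k1, k2, c1, k3, k4⟩ := hs m (by omega)
        exact (ih (by omega)).tail (Or.inl ⟨E m, k1, hno m (by omega) (by omega), k2, c1, k3, k4⟩)
    exact key n (by omega) le_rfl
  -- the strand on the side of the first end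
  obtain ⟨i1, hi1, a1, a3, w1, a4, a5⟩ := walk hG n p E hs nj
  obtain ⟨-, t1, c1, a6, -⟩ := hs i1 hi1
  obtain ⟨i0, hi0, g1, g2, g3⟩ := fu
  have hJ0 := hstep i0 hi0.le g1
  by_cases hc1 : c1 = c
  swap
  · have hc1' : c1 = !c := by revert hc1; cases c1 <;> cases c <;> simp
    refine gap (ν := ν) (AL := AL) hG hrR hS (c := c) g2 a1 (hsm _ hi0) (hsm _ hi1) ?_
    rw [← g3, ← hc1', ← a6]
    exact (hJ0.symm hG).trans a3
  subst hc1
  -- the strand on the side of the second end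
  obtain ⟨j', hj', b1, b3, w2, b4, b5⟩ := walk hG n (fun i => p (n - i)) (fun i => E (n - 1 - i))
    (fun i hi => by
      have h1 := (hs (n - 1 - i) (by omega)).symm
      rw [show n - 1 - i + 1 = n - i by omega] at h1
      show US ν z R AL (p (n - i)) (p (n - (i + 1))) (E (n - 1 - i))
      rw [show n - (i + 1) = n - 1 - i by omega]
      exact h1)
    (fun hJ => nj (by
      have := hJ.symm hG
      simp only [Nat.sub_self, Nat.sub_zero] at this
      exact this))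
  simp only [Nat.sub_self, Nat.sub_zero] at b1 b3 b4 b5
  set j1 := n - 1 - j' with hj1
  have hj1n : j1 < n := by omega
  rw [show n - j' = j1 + 1 by omega] at b3
  obtain ⟨-, t2, c2, b6, b7⟩ := hs j1 hj1n
  -- the new strand
  obtain ⟨s1, N1, hs1, ha1⟩ := hG.str a1 t1
  obtain ⟨em, Nm, w, sm, hw, hsep⟩ := exists_sep' (ω := ω) (c := c1) ((str_bde hs1).bc c1) ht
    (sd_par _ _) (pot_path a4 (Arc.inv _ _ _) hq hqt).2
  have hA := Arc.inv (FK.Bq z R) ω em
  rw [← pot_arc hw hA ha1 c1, ← (pot_path hw hA hq hqt).1, ← ν.hc, ← a6] at hsep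
  have hm : em ∉ Γ := fun h => hsep (Jn.pot hw hA (fun a ha => hG.sub h ha) a3).symm
  obtain ⟨l, -, hl, hd⟩ := pot_chain hw hs (Nat.zero_le i1) hi1.le hsep.symm
  obtain ⟨e, he, te, c3, hJe⟩ := cross_jn hw a3 hsep.symm
  have hArc : Arc (FK.Bq z R) ω (E i1) = Arc (FK.Bq z R) ω s1 := Arc.eq ha1
  have hsub : Arc (FK.Bq z R) ω (E i1) ⊆ Γ := fun a ha => hG.sub a1 ha
  have hd' : E l ∉ Γ := arc_off hG hm hd
  have he' : e ∉ Γ := arc_off hG hm he
  have hA1 := Arc.inv (FK.Bq z R) ω (E i1)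
  have k1 : w1 (sd c3 (E l)) = w1 (ν.cor (p 0)) := by
    have h1 : E l ∈ Arc (FK.Bq z R) ω e := Arc.trans (Arc.symm he) hd
    rw [pot_arc a4 hA1 h1 c3, ← ν.hc, ← Jn.pot a4 hA1 hsub hJe]
  -- the conclusion from a third strand
  have fin : ∀ j < n, E j ∈ Γ → E j ∉ Arc (FK.Bq z R) ω (E i1) → ∀ c4,
      w1 (sd c4 (E j)) = w1 (ν.cor (p n)) → M3 z R r h ω := by
    intro j hj h1 h2 c4 h3
    have a4' := a4
    rw [hArc] at a4' h2
    refine mk_M3 hS hrR (hsm _ (by omega : l < n)) (hsm _ hj) hs1 a4'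
      (fun h1 => hd' (hsub (by rw [hArc]; exact h1))) h2 (c := c3) (c' := c4) ?_
      (str_exit sm hd) (hG.ex _ h1 (Or.inl (hB _ (hsm _ hj))))
    rw [k1, h3]
    exact a5
  by_cases hsame : E j1 ∈ Arc (FK.Bq z R) ω (E i1)
  swap
  · refine fin j1 hj1n b1 hsame (!c2) ?_
    rw [← ν.hc, ← b7]
    exact (Jn.pot a4 hA1 hsub b3).symm
  -- the same strand
  have e1 : w1 (sd (!c2) (E j1)) = w1 (ν.cor (p n)) := by
    rw [← ν.hc, ← b7]
    exact (Jn.pot a4 hA1 hsub b3).symm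
  have e2 : w1 (sd c1 (E j1)) = w1 (ν.cor (p 0)) := by
    rw [pot_arc a4 hA1 hsame c1, ← ν.hc, ← a6]
    exact (Jn.pot a4 hA1 hsub a3).symm
  have hc2 : c2 = c1 := by
    by_contra hne
    have : (!c2) = c1 := by revert hne; cases c1 <;> cases c2 <;> simp
    rw [this, e2] at e1
    exact a5 e1
  subst hc2
  obtain ⟨j0, hj0, f1, f2, f3⟩ := fv
  have hJn := hstep' j0 hj0 f1
  rcases f3 with f3 | f3
  · refine gap (ν := ν) (AL := AL) hG hrR hS (c := c2) f2 b1 (hsm _ hj0) (hsm _ hj1n) ?_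
    rw [← f3, ← b7]
    exact hJn.trans b3
  · have h1 : E j0 ∉ Arc (FK.Bq z R) ω (E i1) := fun h1 =>
      htp j0 hj0 f3 (E i1) (Arc.symm h1) c2 (by rw [← a6]; exact a3)
    obtain ⟨-, -, c4, b8, b9⟩ := hs j0 hj0
    refine fin j0 hj0 f2 h1 (!c4) ?_
    rw [← ν.hc, ← b9]
    exact Jn.pot a4 hA1 hsub hJn

end Vale.Agent.P167.H531.K
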